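import Vale.Agent.P322.CalcCg

/-!
# The endpoint bound
-/

noncomputable section

namespace Vale.P322

open Real Set Filter Topology

/-- `mJ k z = ∫_0^1 u^k / (1 - u z)^(k+1) du`, in closed form. -/
def mJ : ℕ → ℝ → ℝ
  | 0, z => -log (1 - z) / z
  | k + 1, z => ((1 - z)⁻¹ ^ (k + 1) / (k + 1) - mJ k z) / z

/-- Antiderivative in `u` of `u^k / (1 - u z)^(k+1)`. -/
def mF (z : ℝ) : ℕ → ℝ → ℝ
  | 0, u => -log (1 - u * z) / z
  | k + 1, u => ((u * (1 - u * z)⁻¹) ^ (k + 1) / (k + 1) - mF z k u) / z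

theorem mF_one (z : ℝ) : ∀ k, mF z k 1 = mJ k z
  | 0 => by simp [mF, mJ]
  | k + 1 => by simp [mF, mJ, mF_one z k]

theorem mF_zero (z : ℝ) : ∀ k, mF z k 0 = 0
  | 0 => by simp [mF]
  | k + 1 => by simp [mF, mF_zero z k]

theorem hasDerivAt_mF {z u : ℝ} (hz : z ≠ 0) (hu : 0 < 1 - u * z) :
    ∀ k, HasDerivAt (mF z k) (u ^ k * (1 - u * z)⁻¹ ^ (k + 1)) u
  | 0 => by
      have := ((((hasDerivAt_id u).mul_const z).const_sub 1).log hu.ne').neg.div_const z
      refine this.congr_deriv ?_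
      simp only [id_eq, pow_zero, one_mul, zero_add, pow_one]
      field_simp
  | k + 1 => by
      have hv : HasDerivAt (fun t => t * (1 - t * z)⁻¹) ((1 - u * z)⁻¹ ^ 2) u := by
        refine ((hasDerivAt_id u).mul ((((hasDerivAt_id u).mul_const z).const_sub 1).inv
          hu.ne')).congr_deriv ?_
        simp only [id_eq, Pi.inv_apply]
        field_simp; ring
      have := (((hv.pow (k + 1)).div_const ((k : ℝ) + 1)).sub (hasDerivAt_mF hz hu k)).div_const z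
      refine this.congr_deriv ?_
      have hk : (k : ℝ) + 1 ≠ 0 := by positivity
      have hv0 : (1 - u * z)⁻¹ - 1 = u * z * (1 - u * z)⁻¹ := by field_simp; ring
      generalize (1 - u * z)⁻¹ = v at hv0 ⊢
      simp only [Nat.add_sub_cancel, mul_pow]
      push_cast
      field_simp
      linear_combination (u ^ k * v ^ (k + 1)) * hv0

theorem hasDerivAt_mJ {z : ℝ} (h0 : 0 < z) (h1 : z < 1) :
    ∀ k, HasDerivAt (mJ k) (((k : ℝ) + 1) * mJ (k + 1) z) z
  | 0 => by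
      refine ((hasDerivAt_log_one_sub h1).neg.div (hasDerivAt_id z) (by simpa using h0.ne')
        ).congr_deriv ?_
      have : (1 - z) ≠ 0 := by linarith
      simp [mJ]
      field_simp; ring
  | k + 1 => by
      have hz1 : (1 - z) ≠ 0 := by linarith
      have hi : HasDerivAt (fun t => (1 - t)⁻¹) ((1 - z)⁻¹ ^ 2) z := by
        refine (((hasDerivAt_id z).const_sub 1).inv hz1).congr_deriv ?_
        simp only [id_eq]; field_simp
      have := (((hi.pow (k + 1)).div_const ((k : ℝ) + 1)).sub (hasDerivAt_mJ h0 h1 k)).div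
        (hasDerivAt_id z) (by simpa using h0.ne')
      refine this.congr_deriv ?_
      have hk : (k : ℝ) + 1 ≠ 0 := by positivity
      have hk2 : (k : ℝ) + 1 + 1 ≠ 0 := by positivity
      simp only [Nat.add_sub_cancel, id_eq, mJ, Pi.sub_apply, Pi.pow_apply]
      push_cast
      generalize (1 - z)⁻¹ = v
      generalize mJ k z = w
      field_simp
      ring

/-- Positivity of a combination of the moments. -/
theorem mJ_comb_nonneg {z : ℝ} (h0 : 0 < z) (h1 : z < 1) (k : ℕ) (μ : ℝ) :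
    0 ≤ mJ (k + 3) z - 2 * μ * mJ (k + 2) z + μ ^ 2 * mJ (k + 1) z := by
  have h := le_of_deriv_nonneg
    (f := fun u => mF z (k + 3) u - 2 * μ * mF z (k + 2) u + μ ^ 2 * mF z (k + 1) u)
    (f' := fun u => u ^ (k + 1) * (1 - u * z)⁻¹ ^ (k + 2) * (u * (1 - u * z)⁻¹ - μ) ^ 2)
    (a := 0) (x := 1) zero_le_one ?_ ?_
  · simpa [mF_one, mF_zero] using h
  · intro u hu
    have hp : 0 < 1 - u * z := by nlinarith [hu.1, hu.2]
    exact (((hasDerivAt_mF h0.ne' hp (k + 3)).sub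
      ((hasDerivAt_mF h0.ne' hp (k + 2)).const_mul (2 * μ))).add
      ((hasDerivAt_mF h0.ne' hp (k + 1)).const_mul (μ ^ 2))).congr_deriv (by ring)
  · intro u hu
    have hp : 0 < 1 - u * z := by nlinarith [hu.1, hu.2]
    have := hu.1
    positivity

theorem mJ_one_pos {z : ℝ} (h0 : 0 < z) (h1 : z < 1) : 0 < mJ 1 z := by
  have hl := neg_log_sq_le (s := √(1 - z)) (by apply Real.sqrt_pos.2; linarith)
    (by rw [Real.sqrt_le_one]; linarith)
  rw [Real.sq_sqrt (by linarith)] at hl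
  have hs : 0 < √(1 - z) := by apply Real.sqrt_pos.2; linarith
  have hs1 : √(1 - z) < 1 := by rw [Real.sqrt_lt' one_pos]; linarith
  have e : mJ 1 z = (z / (1 - z) - -log (1 - z)) / z ^ 2 := by
    have : (1 - z) ≠ 0 := by linarith
    simp [mJ]; field_simp; ring
  rw [e]
  apply div_pos _ (by positivity)
  have : (1 - (1 - z)) / √(1 - z) < z / (1 - z) := by
    rw [sub_sub_cancel]
    apply div_lt_div_of_pos_left h0 (by linarith)
    calc 1 - z = √(1 - z) * √(1 - z) := (Real.mul_self_sqrt (by linarith)).symm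
      _ < √(1 - z) * 1 := by gcongr
      _ = √(1 - z) := mul_one _
  linarith

theorem hasDerivAt_comp_sq {f : ℝ → ℝ} {d x : ℝ} (hf : HasDerivAt f d (x ^ 2)) :
    HasDerivAt (fun t => f (t ^ 2)) (d * (2 * x)) x := by
  have h : HasDerivAt (fun t : ℝ => t ^ 2) (2 * x) x := by simpa using hasDerivAt_pow 2 x
  exact hf.comp_of_eq x h rfl

/-- `kd'`, the second derivative of `kf`. -/
def kk (x : ℝ) : ℝ := x * mJ 1 (x ^ 2)

/-- `mJ 2 / mJ 1`. -/
def mR (z : ℝ) : ℝ := mJ 2 z / mJ 1 z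

/-- The derivative of `mR`. -/
def mR' (z : ℝ) : ℝ := 3 * mJ 3 z / mJ 1 z - 2 * mR z ^ 2

/-- The second derivative of `mR`. -/
def mR'' (z : ℝ) : ℝ :=
  12 * mJ 4 z / mJ 1 z - 6 * mR z * (mJ 3 z / mJ 1 z) - 4 * mR z * mR' z

/-- `d kk / d kd`. -/
def kap1 (x : ℝ) : ℝ := x⁻¹ + 4 * x * mR (x ^ 2)

/-- `d kap1 / d kd`. -/
def kap2 (x : ℝ) : ℝ :=
  (-(x ^ 2)⁻¹ + 4 * mR (x ^ 2) + 8 * x ^ 2 * mR' (x ^ 2)) / kk x

theorem sq_mem {x : ℝ} (h0 : 0 < x) (h1 : x < 1) : 0 < x ^ 2 ∧ x ^ 2 < 1 :=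
  ⟨by positivity, by nlinarith⟩

theorem kk_pos {x : ℝ} (h0 : 0 < x) (h1 : x < 1) : 0 < kk x :=
  mul_pos h0 (mJ_one_pos (sq_mem h0 h1).1 (sq_mem h0 h1).2)

theorem calc_hasDerivAt_kd {x : ℝ} (h0 : 0 < x) (h1 : x < 1) : HasDerivAt kd (kk x) x := by
  have hz := sq_mem h0 h1
  have h := (hasDerivAt_comp_sq (hasDerivAt_mJ hz.1 hz.2 0)).div_const 2
  have he : kd = fun t => mJ 0 (t ^ 2) / 2 := by
    funext t; simp [kd, mJ]; ring
  rw [he]
  exact h.congr_deriv (by simp [kk]; ring)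

theorem hasDerivAt_kk {x : ℝ} (h0 : 0 < x) (h1 : x < 1) :
    HasDerivAt kk (kap1 x * kk x) x := by
  have hz := sq_mem h0 h1
  have hJ := mJ_one_pos hz.1 hz.2
  have h := (hasDerivAt_id x).mul (hasDerivAt_comp_sq (hasDerivAt_mJ hz.1 hz.2 1))
  refine h.congr_deriv ?_
  simp only [id_eq, kap1, kk, mR]
  push_cast
  field_simp
  ring

theorem hasDerivAt_mR {z : ℝ} (h0 : 0 < z) (h1 : z < 1) : HasDerivAt mR (mR' z) z := by
  have hJ := mJ_one_pos h0 h1
  refine ((hasDerivAt_mJ h0 h1 2).div (hasDerivAt_mJ h0 h1 1) hJ.ne').congr_deriv ?_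
  simp only [mR', mR]
  push_cast
  field_simp
  ring

theorem hasDerivAt_mR' {z : ℝ} (h0 : 0 < z) (h1 : z < 1) : HasDerivAt mR' (mR'' z) z := by
  have hJ := mJ_one_pos h0 h1
  refine ((((hasDerivAt_mJ h0 h1 3).const_mul 3).div (hasDerivAt_mJ h0 h1 1) hJ.ne').sub
    (((hasDerivAt_mR h0 h1).pow 2).const_mul 2)).congr_deriv ?_
  simp only [mR'', mR]
  push_cast
  field_simp
  ring

theorem hasDerivAt_kap1 {x : ℝ} (h0 : 0 < x) (h1 : x < 1) :
    HasDerivAt kap1 (kap2 x * kk x) x := by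
  have hz := sq_mem h0 h1
  have hk := kk_pos h0 h1
  refine ((hasDerivAt_inv h0.ne').add (((hasDerivAt_id x).const_mul 4).mul
    (hasDerivAt_comp_sq (hasDerivAt_mR hz.1 hz.2)))).congr_deriv ?_
  simp only [id_eq, kap2]
  field_simp
  ring

theorem kap2_deriv {x : ℝ} (h0 : 0 < x) (h1 : x < 1) :
    ∃ d, HasDerivAt kap2 d x ∧ 0 ≤ d := by
  have hz := sq_mem h0 h1
  have hk := kk_pos h0 h1
  have hJ := mJ_one_pos hz.1 hz.2
  have hnum := (((hasDerivAt_pow 2 x).inv (by positivity)).neg.add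
    ((hasDerivAt_comp_sq (hasDerivAt_mR hz.1 hz.2)).const_mul 4)).add
    (((hasDerivAt_pow 2 x).const_mul 8).mul
      (hasDerivAt_comp_sq (hasDerivAt_mR' hz.1 hz.2)))
  have hq := hnum.div (hasDerivAt_kk h0 h1) hk.ne'
  refine ⟨_, hq, ?_⟩
  apply div_nonneg _ (sq_nonneg _)
  simp only [Pi.add_apply, Pi.neg_apply, Pi.inv_apply, Pi.mul_apply]
  set R := mR (x ^ 2) with hR
  have hA : 0 ≤ mR' (x ^ 2) - R ^ 2 := by
    have h := mJ_comb_nonneg hz.1 hz.2 0 R
    have e : mR' (x ^ 2) - R ^ 2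
        = 3 * (mJ 3 (x ^ 2) - 2 * R * mJ 2 (x ^ 2) + R ^ 2 * mJ 1 (x ^ 2)) / mJ 1 (x ^ 2) := by
      simp only [mR', hR, mR]; field_simp; ring
    rw [e]; positivity
  have hB : 0 ≤ mR'' (x ^ 2) - 2 * R * mR' (x ^ 2) := by
    have h := mJ_comb_nonneg hz.1 hz.2 1 R
    have e : mR'' (x ^ 2) - 2 * R * mR' (x ^ 2)
        = 12 * (mJ 4 (x ^ 2) - 2 * R * mJ 3 (x ^ 2) + R ^ 2 * mJ 2 (x ^ 2)) / mJ 1 (x ^ 2) := by
      simp only [mR'', mR', hR, mR]; field_simp; ring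
    rw [e]; positivity
  have key : ∀ R' R'' : ℝ, 0 ≤ R' - R ^ 2 → 0 ≤ R'' - 2 * R * R' →
      0 ≤ kk x / x * (3 / x ^ 2 + 16 * x ^ 2 * (R' - R ^ 2)
        + 16 * (x ^ 2) ^ 2 * (R'' - 2 * R * R')) := by
    intro R' R'' a b; positivity
  refine le_trans (key _ _ hA hB) (le_of_eq ?_)
  simp only [kap1, ← hR]
  push_cast
  field_simp
  ring

theorem kap2_le {a b : ℝ} (ha : 0 < a) (hab : a ≤ b) (hb : b < 1) : kap2 a ≤ kap2 b := by
  have hm : MonotoneOn kap2 (Ioo 0 1) := by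
    refine monotoneOn_of_deriv_nonneg (convex_Ioo 0 1) ?_ ?_ ?_
    · intro t ht
      obtain ⟨d, hd, -⟩ := kap2_deriv ht.1 ht.2
      exact hd.continuousAt.continuousWithinAt
    · intro t ht
      rw [interior_Ioo] at ht
      obtain ⟨d, hd, -⟩ := kap2_deriv ht.1 ht.2
      exact hd.differentiableAt.differentiableWithinAt
    · intro t ht
      rw [interior_Ioo] at ht
      obtain ⟨d, hd, hd0⟩ := kap2_deriv ht.1 ht.2
      rwa [hd.deriv]
  exact hm ⟨ha, hab.trans_lt hb⟩ ⟨ha.trans_le hab, hb⟩ hab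

theorem calc_kd_strictMono : StrictMonoOn kd (Ioo 0 1) := by
  refine strictMonoOn_of_deriv_pos (convex_Ioo 0 1) ?_ ?_
  · exact fun t ht => (calc_hasDerivAt_kd ht.1 ht.2).continuousAt.continuousWithinAt
  · intro t ht
    rw [interior_Ioo] at ht
    rw [(calc_hasDerivAt_kd ht.1 ht.2).deriv]; exact kk_pos ht.1 ht.2

/-- Tangent bound: `kk` as a function of `kd` has a convex derivative. -/
theorem kk_diff_ge {x y r : ℝ} (hx : 0 < x) (hxy : x ≤ y) (hy : y < 1) (hr0 : 0 < r) (hr1 : r < 1)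
    (hr : kd r = (kd x + kd y) / 2) : kap1 r * (kd y - kd x) ≤ kk y - kk x := by
  have hxI : x ∈ Ioo (0:ℝ) 1 := ⟨hx, hxy.trans_lt hy⟩
  have hyI : y ∈ Ioo (0:ℝ) 1 := ⟨hx.trans_le hxy, hy⟩
  have hmono := calc_kd_strictMono.monotoneOn hxI hyI hxy
  have hxr : x ≤ r := (calc_kd_strictMono.le_iff_le hxI ⟨hr0, hr1⟩).1 (by linarith)
  have hry : r ≤ y := (calc_kd_strictMono.le_iff_le ⟨hr0, hr1⟩ hyI).1 (by linarith)
  have hd : ∀ t ∈ Ioo (0:ℝ) 1, HasDerivAt (fun t => kap1 t - kap1 r - kap2 r * (kd t - kd r))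
      (kk t * (kap2 t - kap2 r)) t := fun t ht =>
    (((hasDerivAt_kap1 ht.1 ht.2).sub_const _).sub
      (((calc_hasDerivAt_kd ht.1 ht.2).sub_const _).const_mul _)).congr_deriv (by ring)
  have hpsi : ∀ t ∈ Ioo (0:ℝ) 1, 0 ≤ kap1 t - kap1 r - kap2 r * (kd t - kd r) := by
    intro t ht
    rcases le_total r t with hrt | hrt
    · have h := le_of_deriv_nonneg hrt
        (fun u hu => hd u ⟨hr0.trans_le hu.1, hu.2.trans_lt ht.2⟩)
        (fun u hu => mul_nonneg (kk_pos (hr0.trans hu.1) (hu.2.trans ht.2)).le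
          (sub_nonneg.2 (kap2_le hr0 hu.1.le (hu.2.trans ht.2))))
      simpa using h
    · have h := le_of_deriv_nonneg hrt
        (fun u hu => (hd u ⟨ht.1.trans_le hu.1, hu.2.trans_lt hr1⟩).neg)
        (fun u hu => neg_nonneg.2 (mul_nonpos_of_nonneg_of_nonpos
          (kk_pos (ht.1.trans hu.1) (hu.2.trans hr1)).le
          (sub_nonpos.2 (kap2_le (ht.1.trans hu.1) hu.2.le hr1))))
      simpa using h
  have hd2 : ∀ t ∈ Ioo (0:ℝ) 1, HasDerivAt
      (fun t => kk t - kap1 r * kd t - kap2 r * (kd t - kd r) ^ 2 / 2)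
      (kk t * (kap1 t - kap1 r - kap2 r * (kd t - kd r))) t := fun t ht =>
    (((hasDerivAt_kk ht.1 ht.2).sub ((calc_hasDerivAt_kd ht.1 ht.2).const_mul _)).sub
      (((((calc_hasDerivAt_kd ht.1 ht.2).sub_const (kd r)).pow 2).const_mul (kap2 r)).div_const 2)
      ).congr_deriv (by push_cast; ring)
  have h := le_of_deriv_nonneg hxy
    (fun u hu => hd2 u ⟨hx.trans_le hu.1, hu.2.trans_lt hy⟩)
    (fun u hu => mul_nonneg (kk_pos (hx.trans hu.1) (hu.2.trans hy)).le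
      (hpsi u ⟨hx.trans hu.1, hu.2.trans hy⟩))
  have e : (kd x - kd r) ^ 2 = (kd y - kd r) ^ 2 := by rw [hr]; ring
  simp only [e] at h
  nlinarith [h]

theorem calc_h1_poly {s : ℝ} (h1 : 0 ≤ s) (h2 : s ≤ 1) :
    0 ≤ (5 + s + 2 * s * (1 - s ^ 2)) * (2 + 2 * s - 3 * s ^ 2) - 40 * s * (1 - s) := by
  obtain ⟨y, hy, hsy⟩ : ∃ y, 0 ≤ y ∧ y = 1 - s := ⟨1 - s, by linarith, rfl⟩
  have key : (5 + s + 2 * s * (1 - s ^ 2)) * (2 + 2 * s - 3 * s ^ 2) - 40 * s * (1 - s) = (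
    10 * y^5 + 26 * s * y^4 + 35 * s^2 * y^3 + 36 * s^3 * y^2 + 17 * s^4 * y + 6 * s^5) := by
    rw [hsy]; ring
  rw [key]; positivity

theorem calc_h2_poly {s : ℝ} (h1 : 0 ≤ s) (h2 : s ≤ 1) :
    let Dn := 1 + 4 * s + s ^ 2
    0 ≤ (30 + Dn * (1 + 2 * (1 - s ^ 2))) * (2 * (1 + s) * Dn - 3 * s ^ 2 * (1 + 5 * s))
      - 40 * (1 - s) * (1 + 5 * s) * (1 + 5 * s) := by
  intro Dn
  obtain ⟨y, hy, hsy⟩ : ∃ y, 0 ≤ y ∧ y = 1 - s := ⟨1 - s, by linarith, rfl⟩
  have key : (30 + Dn * (1 + 2 * (1 - s ^ 2))) * (2 * (1 + s) * Dn - 3 * s ^ 2 * (1 + 5 * s))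
      - 40 * (1 - s) * (1 + 5 * s) * (1 + 5 * s) = (
    26 * y^7 + 176 * s * y^6 + 263 * s^2 * y^5 + 234 * s^3 * y^4 + 683 * s^4 * y^3 +
    1092 * s^5 * y^2 + 720 * s^6 * y + 216 * s^7) := by
    simp only [Dn, hsy]; ring
  rw [key]; positivity

/-- The derivative of `gG`. -/
def gGd (r : ℝ) : ℝ := kd r / 2 + 1 / 20 + r ^ 2 / 10

theorem calc_hasDerivAt_gG {r : ℝ} (h0 : 0 < r) (h1 : r < 1) : HasDerivAt gG (gGd r) r :=
  ((((hasDerivAt_kf h0 h1).div_const 2).add ((hasDerivAt_id r).div_const 20)).add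
    ((hasDerivAt_pow 3 r).div_const 30)).congr_deriv (by simp [gGd]; ring)

theorem gGd_kap1 {r : ℝ} (h0 : 0 < r) (h1 : r < 1) : 2 * kk r ≤ gGd r * kap1 r := by
  obtain ⟨s, hs1, hs2, hr⟩ : ∃ s : ℝ, 0 < s ∧ s < 1 ∧ r ^ 2 = 1 - s ^ 2 := by
    refine ⟨√(1 - r ^ 2), by apply Real.sqrt_pos.2; nlinarith, ?_, ?_⟩
    · rw [Real.sqrt_lt' one_pos]; nlinarith
    · rw [Real.sq_sqrt (by nlinarith)]; ring
  have hz := sq_mem h0 h1
  have hJ := mJ_one_pos hz.1 hz.2
  set E := mJ 0 (r ^ 2) with hE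
  have hden : 0 < 1 + 4 * s + s ^ 2 := by positivity
  have hz2 : 0 < 1 - s ^ 2 := by nlinarith
  have hEhi : E ≤ 1 / s := by
    have h := neg_log_sq_le hs1 hs2.le
    have e : E = -log (s ^ 2) / (1 - s ^ 2) := by
      simp only [hE, mJ, hr, sub_sub_cancel]
    rw [e, div_le_iff₀ hz2]
    refine h.trans (le_of_eq ?_)
    ring
  have hElo : 6 / (1 + 4 * s + s ^ 2) ≤ E := by
    have hx : 0 ≤ (1 - s) / s := div_nonneg (by linarith) hs1.le
    have h := log_one_add_ge' hx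
    have e1 : 1 + (1 - s) / s = s⁻¹ := by field_simp; ring
    have e2 : 3 * ((1 - s) / s) * (2 + (1 - s) / s) /
        (6 + 6 * ((1 - s) / s) + ((1 - s) / s) ^ 2) = 3 * (1 - s ^ 2) / (1 + 4 * s + s ^ 2) := by
      have : 6 + 6 * ((1 - s) / s) + ((1 - s) / s) ^ 2 = (1 + 4 * s + s ^ 2) / s ^ 2 := by
        field_simp; ring
      rw [this]; field_simp; ring
    rw [e1, log_inv, e2] at h
    have e : E = -log (s ^ 2) / (1 - s ^ 2) := by
      simp only [hE, mJ, hr, sub_sub_cancel]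
    rw [e, log_pow, le_div_iff₀ hz2]
    push_cast
    have : 6 / (1 + 4 * s + s ^ 2) * (1 - s ^ 2)
        = 2 * (3 * (1 - s ^ 2) / (1 + 4 * s + s ^ 2)) := by ring
    linarith
  -- the inequality, as a concave quadratic in `E`
  let H : ℝ → ℝ := fun e => (e / 4 + 1 / 20 + (1 - s ^ 2) / 10)
    * (1 - 3 / 2 * s ^ 2 * ((1 - s ^ 2 * e) / (1 - s ^ 2)))
    - (1 - s ^ 2) * ((1 - s ^ 2 * e) / (1 - s ^ 2)) ^ 2
  have hH1 : 0 ≤ H (1 / s) := by
    have e : H (1 / s) = ((5 + s + 2 * s * (1 - s ^ 2)) * (2 + 2 * s - 3 * s ^ 2)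
        - 40 * s * (1 - s)) / (40 * s * (1 + s)) := by
      simp only [H]
      have : (1 - s ^ 2 * (1 / s)) / (1 - s ^ 2) = 1 / (1 + s) := by
        rw [div_eq_div_iff hz2.ne' (by positivity)]; field_simp; ring
      rw [this]; field_simp; ring
    rw [e]; exact div_nonneg (calc_h1_poly hs1.le hs2.le) (by positivity)
  have hH2 : 0 ≤ H (6 / (1 + 4 * s + s ^ 2)) := by
    have hp := calc_h2_poly hs1.le hs2.le
    simp only at hp
    have e : H (6 / (1 + 4 * s + s ^ 2)) =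
        ((30 + (1 + 4 * s + s ^ 2) * (1 + 2 * (1 - s ^ 2)))
          * (2 * (1 + s) * (1 + 4 * s + s ^ 2) - 3 * s ^ 2 * (1 + 5 * s))
          - 40 * (1 - s) * (1 + 5 * s) * (1 + 5 * s))
          / (40 * (1 + s) * (1 + 4 * s + s ^ 2) ^ 2) := by
      simp only [H]
      have : (1 - s ^ 2 * (6 / (1 + 4 * s + s ^ 2))) / (1 - s ^ 2)
          = (1 + 5 * s) / ((1 + s) * (1 + 4 * s + s ^ 2)) := by
        rw [div_eq_div_iff hz2.ne' (by positivity)]; field_simp; ring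
      rw [this]; field_simp; ring
    rw [e]; exact div_nonneg hp (by positivity)
  have hHE : 0 ≤ H E := by
    set a := 6 / (1 + 4 * s + s ^ 2)
    set b := 1 / s
    have e : H E * (b - a) = H a * (b - E) + H b * (E - a)
        + 5 / 8 * (s ^ 2) ^ 2 / (1 - s ^ 2) * ((E - a) * (b - E) * (b - a)) := by
      simp only [H]; field_simp; ring
    rcases eq_or_lt_of_le (hElo.trans hEhi) with hab | hab
    · rw [show E = b by linarith]; exact hH1
    · have : 0 ≤ H E * (b - a) := by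
        rw [e]
        have := mul_nonneg hH2 (sub_nonneg.2 hEhi)
        have := mul_nonneg hH1 (sub_nonneg.2 hElo)
        have : 0 ≤ 5 / 8 * (s ^ 2) ^ 2 / (1 - s ^ 2) * ((E - a) * (b - E) * (b - a)) :=
          mul_nonneg (by positivity) (mul_nonneg (mul_nonneg (by linarith) (by linarith))
            (by linarith))
        linarith
      exact nonneg_of_mul_nonneg_left this (by linarith)
  have e : gGd r * kap1 r - 2 * kk r = 2 / (r * mJ 1 (r ^ 2) * (s ^ 2) ^ 2) * H E := by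
    have hkd : kd r = E / 2 := by simp [hE, mJ, kd]; ring
    have hJ2 : mJ 2 (r ^ 2) = ((s ^ 2)⁻¹ ^ 2 / 2 - mJ 1 (r ^ 2)) / (1 - s ^ 2) := by
      simp [mJ, hr]; norm_num
    have hJ1 : mJ 1 (r ^ 2) = (1 - s ^ 2 * E) / (1 - s ^ 2) / s ^ 2 := by
      simp [mJ, hr, hE]; field_simp
    simp only [gGd, kap1, mR, kk, H, hkd, hJ2]
    generalize hj : mJ 1 (r ^ 2) = j at hJ hJ1
    have hj' : (1 - s ^ 2 * E) / (1 - s ^ 2) = j * s ^ 2 := by rw [hJ1]; field_simp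
    rw [hj']
    have hr2 : 1 - s ^ 2 = r ^ 2 := hr.symm
    rw [hr2]
    field_simp
    ring
  have : 0 ≤ gGd r * kap1 r - 2 * kk r := by rw [e]; positivity
  linarith

theorem endpoint_bound {x y r : ℝ} (hx1 : 0 < x) (hx2 : x < 1) (hy1 : 0 < y) (hy2 : y < 1)
    (hr1 : 0 < r) (hr2 : r < 1) (hr : kd r = (kd x + kd y) / 2) :
    kf x + kf y - 2 * kf ((x + y) / 2) ≤ gG r - gG ((x + y) / 2) := by
  wlog hxy : x ≤ y generalizing x y
  · have := this hy1 hy2 hx1 hx2 (by rw [hr]; ring) (le_of_not_ge hxy)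
    rw [add_comm y x] at this; linarith
  set M := (x + y) / 2 with hM
  set d₀ := (y - x) / 2 with hd₀
  set g := Function.invFunOn kd (Ioo (0:ℝ) 1) with hg
  have hgl : ∀ t ∈ Ioo (0:ℝ) 1, g (kd t) = t :=
    fun t ht => calc_kd_strictMono.injOn.leftInvOn_invFunOn ht
  have hmem : ∀ d ∈ Icc 0 d₀, M - d ∈ Ioo (0:ℝ) 1 ∧ M + d ∈ Ioo (0:ℝ) 1 := by
    intro d hd
    refine ⟨⟨?_, ?_⟩, ⟨?_, ?_⟩⟩ <;> linarith [hd.1, hd.2]
  have hroot : ∀ a b : ℝ, a ∈ Ioo (0:ℝ) 1 → b ∈ Ioo (0:ℝ) 1 → a ≤ b →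
      ∀ v ∈ Icc (kd a) (kd b), ∃ t ∈ Ioo (0:ℝ) 1, kd t = v := by
    intro a b ha hb hab v hv
    have hc : ContinuousOn kd (Icc a b) := fun t ht =>
      (calc_hasDerivAt_kd (ha.1.trans_le ht.1) (ht.2.trans_lt hb.2)).continuousAt.continuousWithinAt
    obtain ⟨t, ht, htv⟩ := intermediate_value_Icc hab hc hv
    exact ⟨t, ⟨ha.1.trans_le ht.1, ht.2.trans_lt hb.2⟩, htv⟩
  have hgd : ∀ t ∈ Ioo (0:ℝ) 1, HasDerivAt g (kk t)⁻¹ (kd t) := by
    intro t ht
    have hcont : ContinuousAt g (kd t) := by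
      rw [ContinuousAt, hgl t ht, Metric.tendsto_nhds]
      intro ε hε
      obtain ⟨δ, hδ, hδε, hδ0, hδ1⟩ : ∃ δ > 0, δ < ε ∧ 0 < t - δ ∧ t + δ < 1 := by
        refine ⟨min (ε / 2) (min (t / 2) ((1 - t) / 2)), ?_, ?_, ?_, ?_⟩
        · have := ht.1; have := ht.2
          exact lt_min (by linarith) (lt_min (by linarith) (by linarith))
        · exact (min_le_left _ _).trans_lt (by linarith)
        · linarith [min_le_right (ε / 2) (min (t / 2) ((1 - t) / 2)),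
            min_le_left (t / 2) ((1 - t) / 2), ht.1]
        · linarith [min_le_right (ε / 2) (min (t / 2) ((1 - t) / 2)),
            min_le_right (t / 2) ((1 - t) / 2), ht.2]
      have hl : t - δ ∈ Ioo (0:ℝ) 1 := ⟨hδ0, by linarith [ht.2]⟩
      have hh : t + δ ∈ Ioo (0:ℝ) 1 := ⟨by linarith [ht.1], hδ1⟩
      filter_upwards [Ioo_mem_nhds (calc_kd_strictMono hl ht (by linarith))
        (calc_kd_strictMono ht hh (by linarith))] with v hv
      obtain ⟨u, hu, huv⟩ := hroot _ _ hl hh (by linarith) v (Ioo_subset_Icc_self hv)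
      rw [← huv] at hv
      have h1 := (calc_kd_strictMono.lt_iff_lt hl hu).1 hv.1
      have h2 := (calc_kd_strictMono.lt_iff_lt hu hh).1 hv.2
      rw [← huv, hgl u hu, Real.dist_eq, abs_lt]
      constructor <;> linarith
    refine HasDerivAt.of_local_left_inverse (f := kd) hcont ?_ (kk_pos ht.1 ht.2).ne' ?_
    · rw [hgl t ht]; exact calc_hasDerivAt_kd ht.1 ht.2
    · obtain ⟨a, b, ha, hb, hat, htb⟩ : ∃ a b : ℝ, a ∈ Ioo (0:ℝ) 1 ∧ b ∈ Ioo (0:ℝ) 1 ∧
          a < t ∧ t < b :=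
        ⟨t / 2, (1 + t) / 2, ⟨by linarith [ht.1], by linarith [ht.1, ht.2]⟩,
          ⟨by linarith [ht.1], by linarith [ht.2]⟩, by linarith [ht.1], by linarith [ht.2]⟩
      filter_upwards [Ioo_mem_nhds (calc_kd_strictMono ha ht hat) (calc_kd_strictMono ht hb htb)] with v hv
      obtain ⟨u, hu, huv⟩ := hroot _ _ ha hb (hat.trans htb).le v (Ioo_subset_Icc_self hv)
      rw [← huv, hgl u hu]
  have havg : ∀ d ∈ Icc 0 d₀, ∃ t ∈ Ioo (0:ℝ) 1, kd t = (kd (M - d) + kd (M + d)) / 2 := by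
    intro d hd
    obtain ⟨ha, hb⟩ := hmem d hd
    have := calc_kd_strictMono.monotoneOn ha hb (by linarith [hd.1])
    exact hroot _ _ ha hb (by linarith [hd.1]) _ ⟨by linarith, by linarith⟩
  let ρ : ℝ → ℝ := fun d => g ((kd (M - d) + kd (M + d)) / 2)
  have key := le_of_deriv_nonneg (a := 0) (x := d₀)
    (f := fun d => gG (ρ d) - gG M - (kf (M + d) + kf (M - d) - 2 * kf M))
    (f' := fun d => gGd (ρ d) * ((kk (ρ d))⁻¹ * ((kk (M + d) - kk (M - d)) / 2))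
      - (kd (M + d) - kd (M - d)))
    (by linarith) ?_ ?_
  · have e0 : ρ 0 = M := by
      simp only [ρ, sub_zero, add_zero, add_self_div_two]
      exact hgl M ⟨by linarith, by linarith⟩
    have ed : ρ d₀ = r := by
      simp only [ρ]
      rw [show M - d₀ = x by linarith, show M + d₀ = y by linarith, ← hr]
      exact hgl r ⟨hr1, hr2⟩
    simp only [e0, ed, add_zero, sub_zero] at key
    rw [show M - d₀ = x by linarith, show M + d₀ = y by linarith] at key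
    linarith
  · intro d hd
    obtain ⟨ha, hb⟩ := hmem d hd
    obtain ⟨t, ht, htv⟩ := havg d hd
    have hρ : ρ d = t := by simp only [ρ]; rw [← htv]; exact hgl t ht
    have dm : HasDerivAt (fun u => M - u) (-1) d := by simpa using (hasDerivAt_id d).const_sub M
    have dp : HasDerivAt (fun u => M + u) 1 d := by simpa using (hasDerivAt_id d).const_add M
    have h1 := (((calc_hasDerivAt_kd ha.1 ha.2).comp d dm).add
      ((calc_hasDerivAt_kd hb.1 hb.2).comp d dp)).div_const 2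
    have h2 : HasDerivAt ρ ((kk t)⁻¹ * ((kk (M + d) - kk (M - d)) / 2)) d := by
      have hg' := hgd t ht
      rw [htv] at hg'
      refine (hg'.comp d h1).congr_deriv ?_
      ring
    have h3 : HasDerivAt (fun u => gG (ρ u))
        (gGd t * ((kk t)⁻¹ * ((kk (M + d) - kk (M - d)) / 2))) d := by
      have hG := calc_hasDerivAt_gG ht.1 ht.2
      rw [← hρ] at hG
      exact (hG.comp d h2).congr_deriv (by rw [hρ])
    refine ((h3.sub_const _).sub ((((hasDerivAt_kf hb.1 hb.2).comp d dp).add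
      ((hasDerivAt_kf ha.1 ha.2).comp d dm)).sub_const _)).congr_deriv ?_
    rw [hρ]; ring
  · intro d hd
    have hd' := Ioo_subset_Icc_self hd
    obtain ⟨ha, hb⟩ := hmem d hd'
    obtain ⟨t, ht, htv⟩ := havg d hd'
    have hρ : ρ d = t := by simp only [ρ]; rw [← htv]; exact hgl t ht
    have hh := kk_diff_ge ha.1 (by linarith [hd.1] : M - d ≤ M + d) hb.2 ht.1 ht.2 htv
    have hG := gGd_kap1 ht.1 ht.2
    have hk := kk_pos ht.1 ht.2
    have hs : 0 ≤ kd (M + d) - kd (M - d) :=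
      sub_nonneg.2 (calc_kd_strictMono.monotoneOn ha hb (by linarith [hd.1]))
    have hGd0 : 0 ≤ gGd t := by
      have hq := one_sub_sq_pos (by linarith [ht.1] : -1 < t) ht.2
      have : log (1 - t ^ 2) ≤ 0 := log_nonpos hq.le (by nlinarith)
      have : 0 ≤ kd t := div_nonneg (by linarith) (by positivity)
      unfold gGd; positivity
    rw [hρ, sub_nonneg]
    calc kd (M + d) - kd (M - d)
        ≤ gGd t * kap1 t / (2 * kk t) * (kd (M + d) - kd (M - d)) := by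
          refine le_mul_of_one_le_left hs ?_
          rw [one_le_div (by positivity)]; exact hG
      _ = gGd t * ((kk t)⁻¹ * (kap1 t * (kd (M + d) - kd (M - d)) / 2)) := by
          field_simp
      _ ≤ _ := by gcongr

end Vale.P322
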