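import Vale.Agent.P322.CalcLog

/-!
# `cE * gg` is antitone and at most `log 2`
-/

noncomputable section

namespace Vale.P322

open Real Set Filter Topology

theorem calc_le_ath {r : ℝ} (h1 : 0 ≤ r) (h2 : r < 1) : r ≤ ath r := by
  have h := le_of_deriv_nonneg (f := fun t => ath t - t) (f' := fun t => 1 / (1 - t ^ 2) - 1)
    (a := 0) h1 ?_ ?_
  · simp at h; linarith
  · exact fun t ht => (hasDerivAt_ath (by linarith [ht.1]) (by linarith [ht.2])).sub (hasDerivAt_id t)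
  · intro t ht
    rw [sub_nonneg, le_div_iff₀ (one_sub_sq_pos (by linarith [ht.1]) (by linarith [ht.2]))]
    nlinarith

theorem calc_ath_pos {r : ℝ} (h1 : 0 < r) (h2 : r < 1) : 0 < ath r :=
  h1.trans_le (calc_le_ath h1.le h2)

/-- Upper bound on `ath` used below. -/
theorem ath_le_aux {s : ℝ} (h1 : 0 < s) (h2 : s ≤ 1) :
    ath (1 - s ^ 2) ≤ (1 - s ^ 2) * ((6 + (1 - s ^ 2)) * s + (6 + 4 * (1 - s ^ 2))) /
      (2 * s * (6 + 4 * (1 - s ^ 2))) := by
  have hr : 0 ≤ 1 - s ^ 2 := by nlinarith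
  have a := neg_log_sq_le h1 h2
  have b := log_one_add_le hr
  have e : ath (1 - s ^ 2) = (log (1 + (1 - s ^ 2)) + -log (s ^ 2)) / 2 := by
    simp only [ath, sub_sub_cancel]; ring
  have e' : (1 - s ^ 2) * ((6 + (1 - s ^ 2)) * s + (6 + 4 * (1 - s ^ 2))) /
      (2 * s * (6 + 4 * (1 - s ^ 2))) =
      ((1 - s ^ 2) * (6 + (1 - s ^ 2)) / (6 + 4 * (1 - s ^ 2)) + (1 - s ^ 2) / s) / 2 := by
    have hd : (6 + 4 * (1 - s ^ 2)) ≠ 0 := by linarith
    field_simp
  rw [e, e']; linarith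

theorem cg_poly {s : ℝ} (h1 : 0 ≤ s) (h2 : s ≤ 1) :
    let r := 1 - s ^ 2
    let An := r * ((6 + r) * s + (6 + 4 * r))
    let Ad := 2 * s * (6 + 4 * r)
    let Dd := 12 * (1 + r) * (3 + r)
    let Dn := 24 * (1 + r) + s ^ 4
    s ^ 2 * An ^ 2 * Dd - r * An * Ad * Dd + Dn * Ad * ((1 + r ^ 2) * An - r * Ad) ≤ 0 := by
  intro r An Ad Dd Dn
  obtain ⟨y, hy, hsy⟩ : ∃ y, 0 ≤ y ∧ y = 1 - s := ⟨1 - s, by linarith, rfl⟩
  have key : s ^ 2 * An ^ 2 * Dd - r * An * Ad * Dd + Dn * Ad * ((1 + r ^ 2) * An - r * Ad) =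
      -(s ^ 2 * y ^ 3 * (
    9600 * y^11 + 116160 * s * y^10 + 618336 * s^2 * y^9 + 1904048 * s^3 * y^8 +
    3752272 * s^4 * y^7 + 4945920 * s^5 * y^6 + 4429564 * s^6 * y^5 + 2686488 * s^7 * y^4 +
    1080612 * s^8 * y^3 + 275352 * s^9 * y^2 + 40052 * s^10 * y + 2472 * s^11)) := by
    simp only [r, An, Ad, Dd, Dn, hsy]; ring
  rw [key, neg_nonpos]
  positivity

theorem cg_key {r : ℝ} (h1 : 0 < r) (h2 : r < 1) :
    cE r * ((1 + r ^ 2) * ath r - r) ≤ (1 - r ^ 2) * ath r ^ 2 * r := by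
  obtain ⟨s, hs1, hs2, rfl⟩ : ∃ s : ℝ, 0 < s ∧ s < 1 ∧ r = 1 - s ^ 2 := by
    refine ⟨√(1 - r), by apply Real.sqrt_pos.2; linarith, ?_, ?_⟩
    · rw [Real.sqrt_lt' one_pos]; linarith
    · rw [Real.sq_sqrt (by linarith)]; ring
  have hr := h1
  have hA := calc_le_ath h1.le h2
  have hAh := ath_le_aux hs1 hs2.le
  have hp := cg_poly hs1.le hs2.le
  simp only at hp
  have hD := log_two_sub_le h1.le h2.le
  set r := 1 - s ^ 2 with hrdef
  set A := ath r with hAdef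
  set D := log 2 - log (1 + r) with hDdef
  have hc : cE r = D + (1 - r) * A := by
    simp only [hDdef, hAdef, cE, phiE, ath]; ring
  set An := r * ((6 + r) * s + (6 + 4 * r)) with hAn
  set Ad := 2 * s * (6 + 4 * r) with hAd
  set Dd := 12 * (1 + r) * (3 + r) with hDd
  set Dn := 24 * (1 + r) + s ^ 4 with hDn
  have hDdp : 0 < Dd := by positivity
  have hAdp : 0 < Ad := by positivity
  have hDh : D ≤ s ^ 2 * Dn / Dd := by
    refine hD.trans (le_of_eq ?_)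
    simp only [hDn, hDd, hrdef]; ring
  have hN : 0 ≤ (1 + r ^ 2) * A - r := by nlinarith
  have step1 : D * ((1 + r ^ 2) * A - r) ≤ s ^ 2 * Dn / Dd * ((1 + r ^ 2) * A - r) :=
    mul_le_mul_of_nonneg_right hDh hN
  have hend : s ^ 2 * Dn / Dd * ((1 + r ^ 2) * (An / Ad) - r)
      + s ^ 2 * (An / Ad) * (s ^ 2 * (An / Ad) - r) ≤ 0 := by
    have e : s ^ 2 * Dn / Dd * ((1 + r ^ 2) * (An / Ad) - r)
        + s ^ 2 * (An / Ad) * (s ^ 2 * (An / Ad) - r) = s ^ 2 / (Dd * Ad ^ 2) *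
        (s ^ 2 * An ^ 2 * Dd - r * An * Ad * Dd + Dn * Ad * ((1 + r ^ 2) * An - r * Ad)) := by
      field_simp; ring
    rw [e]; exact mul_nonpos_of_nonneg_of_nonpos (by positivity) hp
  have hAhp : 0 < An / Ad := by linarith
  have h0 : 0 ≤ s ^ 2 * Dn / Dd * r := by positivity
  have step2 : s ^ 2 * Dn / Dd * ((1 + r ^ 2) * A - r) + s ^ 2 * A * (s ^ 2 * A - r) ≤ 0 := by
    by_contra hcon
    push Not at hcon
    nlinarith [mul_le_mul_of_nonneg_left hend (show (0:ℝ) ≤ A by linarith),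
      mul_nonneg (sub_nonneg.2 hAh) h0, mul_pos hcon hAhp,
      mul_nonneg (mul_nonneg (show (0:ℝ) ≤ A by linarith) hAhp.le)
        (mul_nonneg (sub_nonneg.2 hAh) (pow_nonneg hs1.le 4))]
  have hs2' : 1 - r = s ^ 2 := by simp [hrdef]
  rw [hc, hs2']
  nlinarith [step1, step2]

theorem hasDerivAt_cg {r : ℝ} (h1 : 0 < r) (h2 : r < 1) :
    HasDerivAt (fun r => cE r * gg r)
      ((cE r * ((1 + r ^ 2) * ath r - r) - (1 - r ^ 2) * ath r ^ 2 * r)
        / ((1 - r ^ 2) * ath r) ^ 2) r := by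
  have hq := one_sub_sq_pos (by linarith : -1 < r) h2
  have hA := calc_ath_pos h1 h2
  have hden : (1 - r ^ 2) * ath r ≠ 0 := by positivity
  have := (hasDerivAt_cE (by linarith) h2).mul ((hasDerivAt_id r).div
    (((hasDerivAt_pow 2 r).const_sub 1).mul (hasDerivAt_ath (by linarith) h2)) hden)
  refine this.congr_deriv ?_
  simp only [id_eq, Pi.mul_apply, Pi.div_apply, Nat.cast_ofNat]
  field_simp
  ring

theorem cg_antitone : AntitoneOn (fun r => cE r * gg r) (Ioo 0 1) := by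
  refine antitoneOn_of_hasDerivWithinAt_nonpos (convex_Ioo 0 1)
    (f' := fun r => (cE r * ((1 + r ^ 2) * ath r - r) - (1 - r ^ 2) * ath r ^ 2 * r)
        / ((1 - r ^ 2) * ath r) ^ 2) ?_ ?_ ?_
  · exact fun r hr => (hasDerivAt_cg hr.1 hr.2).continuousAt.continuousWithinAt
  · intro r hr
    rw [interior_Ioo] at hr
    exact (hasDerivAt_cg hr.1 hr.2).hasDerivWithinAt
  · intro r hr
    rw [interior_Ioo] at hr
    exact div_nonpos_of_nonpos_of_nonneg (sub_nonpos.2 (cg_key hr.1 hr.2)) (sq_nonneg _)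

theorem cg_le_log_two {r : ℝ} (h1 : 0 < r) (h2 : r < 1) : cE r * gg r ≤ log 2 := by
  have ht : Tendsto (fun t : ℝ => log 2 / (1 - t ^ 2)) (𝓝[>] 0) (𝓝 (log 2)) := by
    have : ContinuousAt (fun t : ℝ => log 2 / (1 - t ^ 2)) 0 :=
      continuousAt_const.div (continuousAt_const.sub (continuous_pow 2).continuousAt) (by simp)
    simpa using this.tendsto.mono_left nhdsWithin_le_nhds
  refine ge_of_tendsto ht ?_
  filter_upwards [Ioo_mem_nhdsGT h1] with t ht'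
  obtain ⟨t1, t2⟩ := ht'
  have t3 : t < 1 := t2.trans h2
  refine (cg_antitone ⟨t1, t3⟩ ⟨h1, h2⟩ t2.le).trans ?_
  have hq := one_sub_sq_pos (by linarith : -1 < t) t3
  have hphi : 0 ≤ phiE t := by
    have h := le_of_deriv_nonneg (f := phiE) (f' := ath) (a := 0) t1.le
      (fun u hu => hasDerivAt_phiE (by linarith [hu.1]) (by linarith [hu.2]))
      (fun u hu => (calc_ath_pos hu.1 (by linarith [hu.2])).le)
    simpa using h
  have hc : cE t ≤ log 2 := by simp only [cE]; linarith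
  have hg : gg t ≤ 1 / (1 - t ^ 2) := by
    simp only [gg]
    rw [div_le_div_iff₀ (mul_pos hq (calc_ath_pos t1 t3)) hq]
    nlinarith [calc_le_ath t1.le t3]
  have hg0 : 0 ≤ gg t := by
    simp only [gg]; exact div_nonneg t1.le (mul_pos hq (calc_ath_pos t1 t3)).le
  calc cE t * gg t ≤ log 2 * gg t := mul_le_mul_of_nonneg_right hc hg0
    _ ≤ log 2 * (1 / (1 - t ^ 2)) := mul_le_mul_of_nonneg_left hg (log_nonneg (by norm_num))
    _ = _ := by ring

end Vale.P322
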