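import Vale.Agent.P322.Defs

/-!
# Elementary bounds on logarithms used by the scalar lemmas
-/

noncomputable section

namespace Vale.P322

open Real Set

/-- A function with nonnegative derivative on `Ioo a b` is monotone on `Icc a c` for `c < b`. -/
theorem le_of_deriv_nonneg {f f' : ℝ → ℝ} {a x : ℝ} (hx : a ≤ x)
    (hf : ∀ t ∈ Icc a x, HasDerivAt f (f' t) t) (h : ∀ t ∈ Ioo a x, 0 ≤ f' t) : f a ≤ f x := by
  have hm : MonotoneOn f (Icc a x) := by
    refine monotoneOn_of_hasDerivWithinAt_nonneg (f' := f') (convex_Icc a x) ?_ ?_ ?_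
    · exact fun t ht => (hf t ht).continuousAt.continuousWithinAt
    · intro t ht
      rw [interior_Icc] at ht
      exact (hf t (Ioo_subset_Icc_self ht)).hasDerivWithinAt
    · intro t ht
      rw [interior_Icc] at ht
      exact h t ht
  exact hm (left_mem_Icc.2 hx) (right_mem_Icc.2 hx) hx

/-- `log y <= (y - 1) / sqrt y`, in the variable `w = sqrt y >= 1`. -/
theorem two_log_le {w : ℝ} (hw : 1 ≤ w) : 2 * log w ≤ (w ^ 2 - 1) / w := by
  have key := le_of_deriv_nonneg (f := fun t => t - t⁻¹ - 2 * log t)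
    (f' := fun t => 1 + (t ^ 2)⁻¹ - 2 * t⁻¹) (a := 1) hw ?_ ?_
  · simp at key
    have : (w ^ 2 - 1) / w = w - w⁻¹ := by field_simp
    linarith
  · intro t ht
    have ht0 : t ≠ 0 := by linarith [ht.1]
    exact (((hasDerivAt_id t).sub (hasDerivAt_inv ht0)).sub
      ((hasDerivAt_log ht0).const_mul 2)).congr_deriv (by ring)
  · intro t ht
    have : 1 + (t ^ 2)⁻¹ - 2 * t⁻¹ = (1 - t⁻¹) ^ 2 := by ring
    rw [this]; positivity

/-- `-log (s^2) <= (1 - s^2) / s` for `0 < s <= 1`. -/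
theorem neg_log_sq_le {s : ℝ} (h1 : 0 < s) (h2 : s ≤ 1) : -log (s ^ 2) ≤ (1 - s ^ 2) / s := by
  have h := two_log_le (w := s⁻¹) ((one_le_inv₀ h1).2 h2)
  rw [log_inv] at h
  rw [log_pow]
  have e : (s⁻¹ ^ 2 - 1) / s⁻¹ = (1 - s ^ 2) / s := by field_simp
  push_cast
  linarith [e]

/-- `2 x / (2 + x) <= log (1 + x)` for `0 <= x`. -/
theorem log_one_add_ge {x : ℝ} (hx : 0 ≤ x) : 2 * x / (2 + x) ≤ log (1 + x) := by
  have h := le_of_deriv_nonneg (f := fun t => log (1 + t) - 2 * t / (2 + t))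
    (f' := fun t => 1 / (1 + t) - 4 / (2 + t) ^ 2) (a := 0) hx ?_ ?_
  · simp at h; linarith
  · intro t ht
    have a : (2 + t) ≠ 0 := by linarith [ht.1]
    exact ((hasDerivAt_log_one_add (by linarith [ht.1])).sub
      (((hasDerivAt_id t).const_mul 2).div ((hasDerivAt_id t).const_add 2) a)).congr_deriv
      (by simp only [id_eq]; field_simp; ring)
  · intro t ht
    rw [sub_nonneg, div_le_div_iff₀ (by nlinarith [ht.1]) (by linarith [ht.1])]
    nlinarith [sq_nonneg t]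

/-- `log (1 + x) <= x (6 + x) / (6 + 4 x)` for `0 <= x`. -/
theorem log_one_add_le {x : ℝ} (hx : 0 ≤ x) : log (1 + x) ≤ x * (6 + x) / (6 + 4 * x) := by
  have h := le_of_deriv_nonneg (f := fun t => t * (6 + t) / (6 + 4 * t) - log (1 + t))
    (f' := fun t => ((6 + 2 * t) * (6 + 4 * t) - 4 * (t * (6 + t))) / (6 + 4 * t) ^ 2 - 1 / (1 + t))
    (a := 0) hx ?_ ?_
  · simp at h; linarith
  · intro t ht
    have a : (6 + 4 * t) ≠ 0 := by linarith [ht.1]
    exact ((((hasDerivAt_id t).mul ((hasDerivAt_id t).const_add 6)).div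
      (((hasDerivAt_id t).const_mul 4).const_add 6) a).sub
      (hasDerivAt_log_one_add (by linarith [ht.1]))).congr_deriv
      (by simp only [id_eq, Pi.mul_apply]; ring)
  · intro t ht
    rw [sub_nonneg, div_le_div_iff₀ (by linarith [ht.1]) (by nlinarith [ht.1])]
    nlinarith [pow_nonneg ht.1.le 2, pow_nonneg ht.1.le 3]

/-- `3 x (2 + x) / (6 + 6 x + x^2) <= log (1 + x)` for `0 <= x`. -/
theorem log_one_add_ge' {x : ℝ} (hx : 0 ≤ x) :
    3 * x * (2 + x) / (6 + 6 * x + x ^ 2) ≤ log (1 + x) := by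
  have h := le_of_deriv_nonneg (f := fun t => log (1 + t) - 3 * t * (2 + t) / (6 + 6 * t + t ^ 2))
    (f' := fun t => 1 / (1 + t) -
      ((6 + 6 * t) * (6 + 6 * t + t ^ 2) - 3 * t * (2 + t) * (6 + 2 * t)) / (6 + 6 * t + t ^ 2) ^ 2)
    (a := 0) hx ?_ ?_
  · simp at h; linarith
  · intro t ht
    have a : (6 + 6 * t + t ^ 2) ≠ 0 := by nlinarith [ht.1]
    exact ((hasDerivAt_log_one_add (by linarith [ht.1])).sub
      ((((hasDerivAt_id t).const_mul 3).mul ((hasDerivAt_id t).const_add 2)).div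
      ((((hasDerivAt_id t).const_mul 6).const_add 6).add (hasDerivAt_pow 2 t)) a)).congr_deriv
      (by simp; ring)
  · intro t ht
    rw [sub_nonneg, div_le_div_iff₀ (by nlinarith [ht.1, sq_nonneg t]) (by linarith [ht.1])]
    nlinarith [pow_nonneg ht.1.le 2, pow_nonneg ht.1.le 3, pow_nonneg ht.1.le 4]

/-- `log (2 / (1 + r)) <= 2 (1-r)/(3+r) + (1-r)^3 / (12 (1+r) (3+r))` for `0 <= r <= 1`. -/
theorem log_two_sub_le {r : ℝ} (h1 : 0 ≤ r) (h2 : r ≤ 1) :
    log 2 - log (1 + r) ≤ (24 * (1 - r) * (1 + r) + (1 - r) ^ 3) / (12 * (1 + r) * (3 + r)) := by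
  have h := le_of_deriv_nonneg
    (f := fun t => log 2 - log (1 + t) -
      (24 * (1 - t) * (1 + t) + (1 - t) ^ 3) / (12 * (1 + t) * (3 + t)))
    (f' := fun t => -(1 / (1 + t)) -
      ((-48 * t - 3 * (1 - t) ^ 2) * (12 * (1 + t) * (3 + t)) -
        (24 * (1 - t) * (1 + t) + (1 - t) ^ 3) * (12 * (4 + 2 * t))) / (12 * (1 + t) * (3 + t)) ^ 2)
    (a := r) (x := 1) h2 ?_ ?_
  · norm_num at h; linarith
  · intro t ht
    have ht0 : 0 ≤ t := h1.trans ht.1
    have a : (12 * (1 + t) * (3 + t)) ≠ 0 := ne_of_gt (by positivity)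
    exact (((hasDerivAt_log_one_add (by linarith)).const_sub (log 2)).sub
      ((((((hasDerivAt_id t).const_sub 1).const_mul 24).mul ((hasDerivAt_id t).const_add 1)).add
        (((hasDerivAt_id t).const_sub 1).pow 3)).div
      ((((hasDerivAt_id t).const_add 1).const_mul 12).mul ((hasDerivAt_id t).const_add 3)) a)
      ).congr_deriv (by simp; ring)
  · intro t ht
    have ht0 : 0 ≤ t := h1.trans ht.1.le
    have p1 : 0 < 1 + t := by linarith
    have e : -(1 / (1 + t)) -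
      ((-48 * t - 3 * (1 - t) ^ 2) * (12 * (1 + t) * (3 + t)) -
        (24 * (1 - t) * (1 + t) + (1 - t) ^ 3) * (12 * (4 + 2 * t))) / (12 * (1 + t) * (3 + t)) ^ 2
        = ((1 + t) * (-(12 * (1 + t) * (3 + t) ^ 2 * 12)
          - ((-48 * t - 3 * (1 - t) ^ 2) * (12 * (1 + t) * (3 + t)) -
            (24 * (1 - t) * (1 + t) + (1 - t) ^ 3) * (12 * (4 + 2 * t)))))
          / ((1 + t) * (12 * (1 + t) * (3 + t)) ^ 2) := by
      field_simp
    rw [e]
    apply div_nonneg _ (by positivity)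
    apply mul_nonneg p1.le
    nlinarith [pow_nonneg ht0 2, pow_nonneg ht0 3, pow_nonneg ht0 4, sq_nonneg (1 - t),
      mul_nonneg (mul_nonneg ht0 ht0) (sq_nonneg (1 - t)), mul_nonneg ht0 (sq_nonneg (1 - t)),
      pow_two_nonneg ((1-t) * (1 - t))]

end Vale.P322
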