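import Vale.Agent.P322.CalcCg

/-!
# The slope bound
-/

noncomputable section

namespace Vale.P322

open Real Set

/-- Rational lower bound for `log 2`. -/
def l2 : ℝ := 6931471803 / 10000000000

/-- Constant part of `slopeB`. -/
def sb0 (r : ℝ) : ℝ := 1 - (1 - r ^ 2) / 20 - (1 - r ^ 2) * r ^ 2 / 10

/-- Upper bound on `log 2 - log (1 + r)`. -/
def sDh (r : ℝ) : ℝ := (24 * (1 - r) * (1 + r) + (1 - r) ^ 3) / (12 * (1 + r) * (3 + r))

/-- Left side of the normalised inequality, as a function of `u = q l / r^2`. -/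
def sP (r u : ℝ) : ℝ := (sb0 r - u / 4) * ((sb0 r * r ^ 2 + l2 * (1 - r ^ 2)) / r ^ 2 + u / 4)

/-- `u` as a function of `t = -log (1 - r) / 2`. -/
def su (r t : ℝ) : ℝ := (1 - r ^ 2) * (2 * t - 2 * r / (2 + r)) / r ^ 2

/-- Lower bound for `ath` as a function of `t`. -/
def sA (r t : ℝ) : ℝ := t + r / (2 + r)

theorem div_step {a b c d e f r : ℝ} (hb : 0 < b) (hd : 0 < d) (hr : 0 < r) (hf : 0 < f)
    (h : 0 ≤ a * c * f ^ 2 - b * d * e ^ 2 * r ^ 2) :
    (e / f) ^ 2 ≤ a / b * (c / (d * r ^ 2)) := by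
  rw [div_mul_div_comm, div_pow, div_le_div_iff₀ (by positivity) (by positivity)]
  linarith

theorem lo_poly {r : ℝ} (h1 : 0 ≤ r) (h2 : r ≤ 1) :
    let q := 1 - r ^ 2
    let ld := (2 - r) * (2 + r)
    let Dd := 12 * (1 + r) * (3 + r)
    let Dn := 24 * (1 - r) * (1 + r) + (1 - r) ^ 3
    let b := 1 - q / 20 - q * r ^ 2 / 10
    let e1 := 4 * b * ld - 4 * q
    let e2 := 4 * (b * r ^ 2 + l2 * q) * ld + 4 * q * r ^ 2
    let sn := 8 * r * Dd + Dn * (2 * ld)
    let sd := 8 * r * Dd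
    0 ≤ e1 * e2 * sd ^ 2 - 4 * ld * (4 * ld) * sn ^ 2 * r ^ 2 := by
  intro q ld Dd Dn b e1 e2 sn sd
  obtain ⟨y, hy, hry⟩ : ∃ y, 0 ≤ y ∧ y = 1 - r := ⟨1 - r, by linarith, rfl⟩
  have key : e1 * e2 * sd ^ 2 - 4 * ld * (4 * ld) * sn ^ 2 * r ^ 2 = r ^ 2 * (
    (3058497574528 / 48828125) * y^18 + (76542283206912 / 48828125) * r * y^17 +
    (165381310180624 / 9765625) * r^2 * y^16 + (5431756269844608 / 48828125) * r^3 * y^15 +
    (24967147699976004 / 48828125) * r^4 * y^14 + (85998264810331416 / 48828125) * r^5 * y^13 +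
    (229155469873430612 / 48828125) * r^6 * y^12 +
    (477940089819921648 / 48828125) * r^7 * y^11 +
    (781164580511921692 / 48828125) * r^8 * y^10 + (996363109230088152 / 48828125) * r^9 * y^9 +
    (984266001534369516 / 48828125) * r^10 * y^8 + (149025407842009536 / 9765625) * r^11 * y^7 +
    (426349390322182992 / 48828125) * r^12 * y^6 + (1450009510612128 / 390625) * r^13 * y^5 +
    (56125775627799552 / 48828125) * r^14 * y^4 + (12365890436628864 / 48828125) * r^15 * y^3 +
    (1846142240707584 / 48828125) * r^16 * y^2 + (30103994456064 / 9765625) * r^17 * y) := by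
    simp only [q, ld, Dd, Dn, b, e1, e2, sn, sd, hry, l2]; ring
  rw [key]
  positivity

theorem hi_poly {s : ℝ} (h1 : 0 ≤ s) (h2 : s ≤ 1) :
    let r := 1 - s ^ 2
    let q := 1 - r ^ 2
    let t := 2 * (2 + r) - 4 * s
    let ld := 2 * s * (2 + r)
    let Dd := 12 * (1 + r) * (3 + r)
    let Dn := 24 * (1 - r) * (1 + r) + (1 - r) ^ 3
    let b := 1 - q / 20 - q * r ^ 2 / 10
    let e1 := 4 * b * ld * r - q * t
    let e2 := 4 * (b * r ^ 2 + l2 * q) * ld + q * r * t
    let An := r * (2 * (2 + r) + 4 * s)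
    let sn := An * Dd + Dn * (2 * ld)
    let sd := An * Dd
    0 ≤ e1 * e2 * sd ^ 2 - 4 * ld * r * (4 * ld) * sn ^ 2 * r ^ 2 := by
  intro r q t ld Dd Dn b e1 e2 An sn sd
  obtain ⟨y, hy, hsy⟩ : ∃ y, 0 ≤ y ∧ y = 1 - s := ⟨1 - s, by linarith, rfl⟩
  have key : e1 * e2 * sd ^ 2 - 4 * ld * r * (4 * ld) * sn ^ 2 * r ^ 2 = s ^ 4 * y ^ 3 * (
    (1000853987526144 / 9765625) * y^37 + (7392930498130176 / 1953125) * s * y^36 +
    (3278451835731746304 / 48828125) * s^2 * y^35 +
    (37194916139564494464 / 48828125) * s^3 * y^34 +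
    (303250846716503626464 / 48828125) * s^4 * y^33 +
    (378543592119266919504 / 9765625) * s^5 * y^32 +
    (9407779789290771385296 / 48828125) * s^6 * y^31 +
    (38252671265233350233712 / 48828125) * s^7 * y^30 +
    (129716931644792006843736 / 48828125) * s^8 * y^29 +
    (372212325650736741858552 / 48828125) * s^9 * y^28 +
    (914006204330529160875708 / 48828125) * s^10 * y^27 +
    (1938330452606333383967904 / 48828125) * s^11 * y^26 +
    (3577182181035527417183304 / 48828125) * s^12 * y^25 +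
    (1156691687456451329901501 / 9765625) * s^13 * y^24 +
    (1648354809916789817817768 / 9765625) * s^14 * y^23 +
    (10412749066217072291388099 / 48828125) * s^15 * y^22 +
    (2345843884301426062716897 / 9765625) * s^16 * y^21 +
    (11842881731059560615501813 / 48828125) * s^17 * y^20 +
    (10768844432082599010707094 / 48828125) * s^18 * y^19 +
    (8848579739805750303994707 / 48828125) * s^19 * y^18 +
    (6578552700683786311692739 / 48828125) * s^20 * y^17 +
    (4418844637009503359307491 / 48828125) * s^21 * y^16 +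
    (2669844884726654549976994 / 48828125) * s^22 * y^15 +
    (1440686351367048124225593 / 48828125) * s^23 * y^14 +
    (687994300786487572873539 / 48828125) * s^24 * y^13 +
    (287762494427200152764607 / 48828125) * s^25 * y^12 +
    (20859709102249150090342 / 9765625) * s^26 * y^11 +
    (32436642323730288147673 / 48828125) * s^27 * y^10 +
    (8595727068175256401757 / 48828125) * s^28 * y^9 +
    (1940991692140443509968 / 48828125) * s^29 * y^8 +
    (75713808103951417678 / 9765625) * s^30 * y^7 +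
    (65777124682233330472 / 48828125) * s^31 * y^6 + (84073717063709352 / 390625) * s^32 * y^5 +
    (305173060883284224 / 9765625) * s^33 * y^4 + (185952267555164064 / 48828125) * s^34 * y^3 +
    (16790395938018176 / 48828125) * s^35 * y^2 + (950986965129856 / 48828125) * s^36 * y +
    (24467980596224 / 48828125) * s^37) := by
    simp only [r, q, t, ld, Dd, Dn, b, e1, e2, An, sn, sd, hsy, l2]; ring
  rw [key]
  positivity

theorem lo_end {r : ℝ} (h1 : 0 < r) (h2 : r < 1) :
    (1 + sDh r / sA r (r / (2 - r))) ^ 2 ≤ sP r (su r (r / (2 - r))) := by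
  have ha : 0 < 2 - r := by linarith
  have hb : 0 < 2 + r := by linarith
  have hdd : 0 < 12 * (1 + r) * (3 + r) := by positivity
  have h := div_step (b := 4 * ((2 - r) * (2 + r))) (d := 4 * ((2 - r) * (2 + r)))
    (f := 8 * r * (12 * (1 + r) * (3 + r))) (by positivity) (by positivity) h1 (by positivity)
    (lo_poly h1.le h2.le)
  refine le_trans (le_of_eq ?_) (h.trans (le_of_eq ?_))
  · simp only [sDh, sA]
    have : r / (2 - r) + r / (2 + r) = 4 * r / ((2 - r) * (2 + r)) := by field_simp; ring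
    rw [this]
    field_simp
    ring
  · simp only [sP, su, sb0]
    field_simp
    ring

theorem hi_end {s : ℝ} (h1 : 0 < s) (h2 : s < 1) :
    (1 + sDh (1 - s ^ 2) / sA (1 - s ^ 2) ((1 - s ^ 2) / (2 * s))) ^ 2
      ≤ sP (1 - s ^ 2) (su (1 - s ^ 2) ((1 - s ^ 2) / (2 * s))) := by
  have hp := hi_poly h1.le h2.le
  simp only at hp
  obtain ⟨r, hr⟩ : ∃ r, r = 1 - s ^ 2 := ⟨_, rfl⟩
  rw [← hr] at hp ⊢
  have hr1 : 0 < r := by nlinarith
  have hdd : 0 < 12 * (1 + r) * (3 + r) := by positivity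
  have hAn : 0 < r * (2 * (2 + r) + 4 * s) := by positivity
  have h := div_step (b := 4 * (2 * s * (2 + r)) * r) (d := 4 * (2 * s * (2 + r)))
    (f := r * (2 * (2 + r) + 4 * s) * (12 * (1 + r) * (3 + r))) (by positivity) (by positivity) hr1
    (by positivity) hp
  refine le_trans (le_of_eq ?_) (h.trans (le_of_eq ?_))
  · simp only [sDh, sA]
    have : r / (2 * s) + r / (2 + r) = r * (2 * (2 + r) + 4 * s) / (2 * (2 * s * (2 + r))) := by
      field_simp; ring
    rw [this]
    field_simp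
  · simp only [sP, su, sb0]
    field_simp
    ring

theorem sDh_nonneg {r : ℝ} (h1 : 0 ≤ r) (h2 : r ≤ 1) : 0 ≤ sDh r := by
  have : 0 ≤ 1 - r := by linarith
  unfold sDh; positivity

/-- The normalised inequality holds between the endpoints, by concavity. -/
theorem between {r t a b : ℝ} (h1 : 0 < r) (h2 : r < 1) (ha : 0 ≤ a) (hat : a ≤ t) (htb : t ≤ b)
    (A : (1 + sDh r / sA r a) ^ 2 ≤ sP r (su r a))
    (B : (1 + sDh r / sA r b) ^ 2 ≤ sP r (su r b)) :
    (1 + sDh r / sA r t) ^ 2 ≤ sP r (su r t) := by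
  rcases eq_or_lt_of_le (hat.trans htb) with hab | hab
  · rw [show t = a by linarith]; exact A
  obtain ⟨θ, hθ0, hθ1, ht⟩ : ∃ θ, 0 ≤ θ ∧ θ ≤ 1 ∧ t = (1 - θ) * a + θ * b := by
    refine ⟨(t - a) / (b - a), div_nonneg (by linarith) (by linarith),
      (div_le_one (by linarith)).2 (by linarith), ?_⟩
    field_simp; ring
  have hθ1' : 0 ≤ 1 - θ := by linarith
  have hp : (1 - θ) * sP r (su r a) + θ * sP r (su r b) ≤ sP r (su r t) := by
    have e : sP r (su r t) - ((1 - θ) * sP r (su r a) + θ * sP r (su r b))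
        = θ * (1 - θ) * (su r b - su r a) ^ 2 / 16 := by
      simp only [sP, su, ht]; ring
    have : 0 ≤ θ * (1 - θ) * (su r b - su r a) ^ 2 / 16 := by positivity
    linarith
  have hc : 0 < r / (2 + r) := by positivity
  have pa : 0 < sA r a := by unfold sA; linarith
  have pb : 0 < sA r b := by unfold sA; linarith
  have pt : 0 < sA r t := by unfold sA; linarith
  have hlin : sA r t = (1 - θ) * sA r a + θ * sA r b := by simp only [sA, ht]; ring
  have hinv : 1 / sA r t ≤ (1 - θ) / sA r a + θ / sA r b := by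
    rw [div_add_div _ _ pa.ne' pb.ne', div_le_div_iff₀ pt (mul_pos pa pb), hlin]
    nlinarith [mul_nonneg (mul_nonneg hθ0 hθ1') (sq_nonneg (sA r a - sA r b))]
  have hD := sDh_nonneg h1.le h2.le
  have hx : 1 + sDh r / sA r t
      ≤ (1 - θ) * (1 + sDh r / sA r a) + θ * (1 + sDh r / sA r b) := by
    have := mul_le_mul_of_nonneg_left hinv hD
    simp only [div_eq_mul_inv, one_mul] at this ⊢
    nlinarith
  have h0 : 0 ≤ 1 + sDh r / sA r t := by positivity
  calc (1 + sDh r / sA r t) ^ 2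
      ≤ ((1 - θ) * (1 + sDh r / sA r a) + θ * (1 + sDh r / sA r b)) ^ 2 := pow_le_pow_left₀ h0 hx 2
    _ ≤ (1 - θ) * (1 + sDh r / sA r a) ^ 2 + θ * (1 + sDh r / sA r b) ^ 2 := by
        nlinarith [mul_nonneg (mul_nonneg hθ0 hθ1')
          (sq_nonneg (sDh r / sA r a - sDh r / sA r b))]
    _ ≤ _ := le_trans (by gcongr) hp

theorem slope_core {r : ℝ} (h1 : 0 < r) (h2 : r < 1) :
    0 < slopeB r ∧
      xX r ^ 2 * r ^ 2 ≤ slopeB r * ath r ^ 2 * (slopeB r * r ^ 2 + (1 - r ^ 2) * xX r) := by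
  obtain ⟨s, hs1, hs2, hr⟩ : ∃ s : ℝ, 0 < s ∧ s < 1 ∧ r = 1 - s ^ 2 := by
    refine ⟨√(1 - r), by apply Real.sqrt_pos.2; linarith, ?_, ?_⟩
    · rw [Real.sqrt_lt' one_pos]; linarith
    · rw [Real.sq_sqrt (by linarith)]; ring
  obtain ⟨t, ht⟩ : ∃ t, t = -log (1 - r) / 2 := ⟨_, rfl⟩
  have ha : 0 ≤ r / (2 - r) := div_nonneg h1.le (by linarith)
  have hta : r / (2 - r) ≤ t := by
    have hx : 0 ≤ r / (1 - r) := div_nonneg h1.le (by linarith)
    have h := log_one_add_ge hx
    have n1 : (1 - r) ≠ 0 := by linarith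
    have n2 : (2 - r) ≠ 0 := by linarith
    have e1 : 1 + r / (1 - r) = (1 - r)⁻¹ := by field_simp; ring
    have n3 : 2 + r / (1 - r) = (2 - r) / (1 - r) := by field_simp; ring
    have e2 : 2 * (r / (1 - r)) / (2 + r / (1 - r)) = 2 * (r / (2 - r)) := by
      rw [n3]; field_simp
    rw [e1, log_inv, e2] at h
    linarith
  have htb : t ≤ r / (2 * s) := by
    have h := neg_log_sq_le hs1 hs2.le
    rw [ht, hr, sub_sub_cancel, show (1 - s ^ 2) / (2 * s) = (1 - s ^ 2) / s / 2 by field_simp]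
    linarith
  have B := hi_end hs1 hs2
  rw [← hr] at B
  have hmid := between h1 h2 ha hta htb (lo_end h1 h2) B
  -- positivity of the first factor
  have hq := one_sub_sq_pos (by linarith : -1 < r) h2
  have hu0 : 0 ≤ (-log (1 - r ^ 2)) * (1 - r ^ 2) / r ^ 2 := by
    have : log (1 - r ^ 2) ≤ 0 := log_nonpos hq.le (by nlinarith)
    have : 0 ≤ -log (1 - r ^ 2) := by linarith
    positivity
  have hg := log_one_add_ge h1.le
  have hl : -log (1 - r ^ 2) = 2 * t - log (1 + r) := by
    rw [log_one_sub_sq (by linarith) h2, ht]; ring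
  set u := (-log (1 - r ^ 2)) * (1 - r ^ 2) / r ^ 2 with hu
  have huu : u ≤ su r t := by
    rw [hu, hl]; simp only [su]
    apply div_le_div_of_nonneg_right _ (by positivity)
    rw [mul_comm]; gcongr
  have hP : sP r (su r t) ≤ sP r u := by
    have e : sP r u - sP r (su r t) = (su r t - u) / 4 *
        ((u + su r t) / 4 + l2 * (1 - r ^ 2) / r ^ 2) := by
      simp only [sP]; field_simp; ring
    have hl2 : 0 ≤ l2 := by unfold l2; norm_num
    have : 0 ≤ (su r t - u) / 4 * ((u + su r t) / 4 + l2 * (1 - r ^ 2) / r ^ 2) :=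
      mul_nonneg (by linarith) (add_nonneg (by linarith) (by positivity))
    linarith
  have hA0 : 0 < sA r t := by
    unfold sA; have : 0 < r / (2 + r) := by positivity
    linarith
  have hsb : 0 ≤ sb0 r := by unfold sb0; nlinarith
  have hPpos : 0 < sP r u := by
    have : 0 < (1 + sDh r / sA r t) ^ 2 := by
      have := sDh_nonneg h1.le h2.le; positivity
    linarith
  have hf2 : 0 < (sb0 r * r ^ 2 + l2 * (1 - r ^ 2)) / r ^ 2 + u / 4 := by
    have hl2 : 0 < l2 := by unfold l2; norm_num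
    positivity
  have hBeq : slopeB r = sb0 r - u / 4 := by
    simp only [slopeB, kd, sb0, hu]; field_simp; ring
  have hBpos : 0 < slopeB r := by
    rw [hBeq]
    exact (pos_iff_pos_of_mul_pos hPpos).2 hf2
  refine ⟨hBpos, ?_⟩
  have hath : sA r t ≤ ath r := by
    simp only [sA, ath, ht]
    have : r / (2 + r) = 2 * r / (2 + r) / 2 := by ring
    rw [this]; linarith
  have hA := calc_ath_pos h1 h2
  have hX : xX r ≤ ath r * (1 + sDh r / sA r t) := by
    have hD := log_two_sub_le h1.le h2.le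
    have : xX r = ath r + (log 2 - log (1 + r)) := by
      rw [xX_eq (by linarith) h2, log_one_sub_sq (by linarith) h2]; simp only [ath]; ring
    have hd : sDh r ≤ ath r * (sDh r / sA r t) := by
      rw [← mul_div_assoc, le_div_iff₀ hA0]
      nlinarith [sDh_nonneg h1.le h2.le]
    rw [this, mul_add, mul_one]
    exact add_le_add le_rfl (hD.trans hd)
  have hX0 : 0 ≤ xX r := by
    rw [xX_eq (by linarith) h2]
    have : log (1 - r ^ 2) ≤ 0 := log_nonpos hq.le (by nlinarith)
    have := log_nonneg (show (1:ℝ) ≤ 2 by norm_num)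
    linarith
  have hb1 : ((sb0 r * r ^ 2 + l2 * (1 - r ^ 2)) / r ^ 2 + u / 4) * r ^ 2
      ≤ slopeB r * r ^ 2 + (1 - r ^ 2) * xX r := by
    have hl2 : l2 ≤ log 2 := by
      have := Real.log_two_gt_d9; unfold l2; norm_num at this ⊢; linarith
    have e1 : slopeB r * r ^ 2 + (1 - r ^ 2) * xX r
        = ((sb0 r * r ^ 2 + log 2 * (1 - r ^ 2)) / r ^ 2 + u / 4) * r ^ 2 := by
      rw [hBeq, xX_eq (by linarith) h2, hu]; field_simp; ring
    rw [e1]; gcongr
  calc xX r ^ 2 * r ^ 2 ≤ (ath r * (1 + sDh r / sA r t)) ^ 2 * r ^ 2 := by gcongr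
    _ ≤ ath r ^ 2 * sP r u * r ^ 2 := by
        rw [mul_pow]; gcongr; exact hmid.trans hP
    _ = slopeB r * ath r ^ 2 *
        (((sb0 r * r ^ 2 + l2 * (1 - r ^ 2)) / r ^ 2 + u / 4) * r ^ 2) := by
        rw [hBeq, sP]; ring
    _ ≤ _ := by gcongr

theorem slope_bound {r M : ℝ} (h1 : 0 < r) (h2 : r < 1) (hM : 0 < M) :
    M * xX r / ath r ≤ slopeB r ∨
      xX r / (M * ath r) - (1 - r ^ 2) * xX r / r ^ 2 ≤ slopeB r := by
  obtain ⟨hB, hcore⟩ := slope_core h1 h2
  have hA := calc_ath_pos h1 h2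
  by_cases h : M * xX r / ath r ≤ slopeB r
  · exact Or.inl h
  refine Or.inr ?_
  push Not at h
  rw [lt_div_iff₀ hA] at h
  have hX : 0 < xX r := by
    have : 0 < M * xX r := lt_of_le_of_lt (by positivity) h
    exact (pos_iff_pos_of_mul_pos this).1 hM
  have e : xX r / (M * ath r) ≤ xX r ^ 2 / (slopeB r * ath r ^ 2) := by
    rw [div_le_div_iff₀ (by positivity) (by positivity)]
    nlinarith [mul_le_mul_of_nonneg_left h.le (mul_pos hX hA).le]
  have e2 : xX r ^ 2 / (slopeB r * ath r ^ 2)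
      ≤ slopeB r + (1 - r ^ 2) * xX r / r ^ 2 := by
    rw [div_le_iff₀ (by positivity)]
    have : (slopeB r + (1 - r ^ 2) * xX r / r ^ 2) * (slopeB r * ath r ^ 2)
        = slopeB r * ath r ^ 2 * (slopeB r * r ^ 2 + (1 - r ^ 2) * xX r) / r ^ 2 := by
      field_simp
    rw [this, le_div_iff₀ (by positivity)]
    exact hcore
  linarith

end Vale.P322
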