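import Vale.Agent.P322.Scalar

/-!
# Shape of `kf`, `kd`, `ff`, `gg`
-/

noncomputable section

namespace Vale.P322

open Real Set

/-- The derivative of `kd`. -/
def kdd (x : ℝ) : ℝ := (x ^ 2 / (1 - x ^ 2) + log (1 - x ^ 2)) / x ^ 3

/-- If `F'` changes sign at `c` from `-` to `+` then `c` is a minimum. -/
theorem le_of_deriv_sign {F F' : ℝ → ℝ} {D : Set ℝ} (hD : Convex ℝ D) (hc : ContinuousOn F D)
    (hd : ∀ t ∈ interior D, HasDerivAt F (F' t) t) {c x : ℝ} (hcD : c ∈ D) (hxD : x ∈ D)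
    (hs : ∀ t ∈ interior D, (t ≤ c → F' t ≤ 0) ∧ (c ≤ t → 0 ≤ F' t)) : F c ≤ F x := by
  rcases le_total c x with h | h
  · have hsub : Icc c x ⊆ D := hD.ordConnected.out hcD hxD
    have hm : MonotoneOn F (Icc c x) := by
      refine monotoneOn_of_hasDerivWithinAt_nonneg (f' := F') (convex_Icc c x) (hc.mono hsub) ?_ ?_
      · intro t ht; exact (hd t (interior_mono hsub ht)).hasDerivWithinAt
      · intro t ht
        exact (hs t (interior_mono hsub ht)).2 (interior_subset ht).1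
    exact hm ⟨le_refl c, h⟩ ⟨h, le_refl x⟩ h
  · have hsub : Icc x c ⊆ D := hD.ordConnected.out hxD hcD
    have hm : AntitoneOn F (Icc x c) := by
      refine antitoneOn_of_hasDerivWithinAt_nonpos (f' := F') (convex_Icc x c) (hc.mono hsub) ?_ ?_
      · intro t ht; exact (hd t (interior_mono hsub ht)).hasDerivWithinAt
      · intro t ht
        exact (hs t (interior_mono hsub ht)).1 (interior_subset ht).2
    exact hm ⟨le_refl x, h⟩ ⟨h, le_refl c⟩ h

/-- Tangent line bound for a function with monotone derivative on `(0,1)`. -/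
theorem tangent_le {P P' : ℝ → ℝ} (hd : ∀ t, 0 < t → t < 1 → HasDerivAt P (P' t) t)
    (hm : ∀ s t, 0 < s → s ≤ t → t < 1 → P' s ≤ P' t)
    {c x : ℝ} (hc1 : 0 < c) (hc2 : c < 1) (hx1 : 0 < x) (hx2 : x < 1) :
    P c + P' c * (x - c) ≤ P x := by
  have := le_of_deriv_sign (F := fun t => P t - P' c * t) (F' := fun t => P' t - P' c)
    (convex_Ioo 0 1)
    (fun t ht => (((hd t ht.1 ht.2).continuousAt).sub
      (continuousAt_const.mul continuousAt_id)).continuousWithinAt)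
    (fun t ht => by
      rw [interior_Ioo] at ht
      exact (((hd t ht.1 ht.2)).sub ((hasDerivAt_id t).const_mul (P' c))).congr_deriv (by simp))
    (c := c) (x := x) ⟨hc1, hc2⟩ ⟨hx1, hx2⟩
    (fun t ht => by
      rw [interior_Ioo] at ht
      exact ⟨fun h => sub_nonpos.2 (hm t c ht.1 h hc2),
        fun h => sub_nonneg.2 (hm c t hc1 h ht.2)⟩)
  linarith [mul_sub (P' c) x c]

/-- Midpoint convexity from a monotone derivative. -/
theorem midpoint_le {P P' : ℝ → ℝ} (hd : ∀ t, 0 < t → t < 1 → HasDerivAt P (P' t) t)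
    (hm : ∀ s t, 0 < s → s ≤ t → t < 1 → P' s ≤ P' t)
    {x y : ℝ} (hx1 : 0 < x) (hx2 : x < 1) (hy1 : 0 < y) (hy2 : y < 1) :
    2 * P ((x + y) / 2) ≤ P x + P y := by
  have a := tangent_le hd hm (c := (x + y) / 2) (x := x) (by linarith) (by linarith) hx1 hx2
  have b := tangent_le hd hm (c := (x + y) / 2) (x := y) (by linarith) (by linarith) hy1 hy2
  nlinarith

theorem mono_of_deriv {P P' : ℝ → ℝ} (hd : ∀ t, 0 < t → t < 1 → HasDerivAt P (P' t) t)
    (hp : ∀ t, 0 < t → t < 1 → 0 ≤ P' t) {s t : ℝ} (hs : 0 < s) (hst : s ≤ t) (ht : t < 1) :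
    P s ≤ P t := by
  have hm : MonotoneOn P (Ioo 0 1) := by
    refine monotoneOn_of_hasDerivWithinAt_nonneg (f' := P') (convex_Ioo 0 1)
      (fun y hy => (hd y hy.1 hy.2).continuousAt.continuousWithinAt) ?_ ?_
    · intro y hy; rw [interior_Ioo] at hy; exact (hd y hy.1 hy.2).hasDerivWithinAt
    · intro y hy; rw [interior_Ioo] at hy; exact hp y hy.1 hy.2
  exact hm ⟨hs, by linarith⟩ ⟨by linarith, ht⟩ hst

theorem hasDerivAt_log_one_sub_sq {x : ℝ} (h1 : -1 < x) (h2 : x < 1) :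
    HasDerivAt (fun t => log (1 - t ^ 2)) (-(2 * x) / (1 - x ^ 2)) x := by
  refine (((hasDerivAt_pow 2 x).const_sub 1).log (ne_of_gt (one_sub_sq_pos h1 h2))).congr_deriv ?_
  norm_num

theorem hasDerivAt_kd {x : ℝ} (h1 : 0 < x) (h2 : x < 1) : HasDerivAt kd (kdd x) x := by
  have hw := one_sub_sq_pos (by linarith : -1 < x) h2
  refine (((hasDerivAt_log_one_sub_sq (by linarith) h2).neg).div
    ((hasDerivAt_pow 2 x).const_mul 2) (by positivity)).congr_deriv ?_
  simp [kdd]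
  field_simp

theorem neg_log_one_sub_sq {x : ℝ} (h1 : -1 < x) (h2 : x < 1) :
    -log (1 - x ^ 2) = log (1 + x ^ 2 / (1 - x ^ 2)) := by
  have hw := one_sub_sq_pos h1 h2
  rw [← Real.log_inv]; congr 1; field_simp; ring

/-- `2 * (u - log (1+u)) ≤ u ^ 2`. -/
theorem two_mul_sub_log_le {u : ℝ} (h : 0 ≤ u) : 2 * (u - log (1 + u)) ≤ u ^ 2 := by
  have := Real.le_log_one_add_of_nonneg h
  have h2 : u - 2 * u / (u + 2) = u ^ 2 / (u + 2) := by field_simp; ring
  have h3 : u ^ 2 / (u + 2) ≤ u ^ 2 / 2 := by gcongr; linarith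
  linarith

theorem kdd_nonneg {x : ℝ} (h1 : 0 < x) (h2 : x < 1) : 0 ≤ kdd x := by
  have hw := one_sub_sq_pos (by linarith : -1 < x) h2
  refine div_nonneg ?_ (by positivity)
  have := Real.log_le_sub_one_of_pos (x := 1 + x ^ 2 / (1 - x ^ 2)) (by positivity)
  rw [← neg_log_one_sub_sq (by linarith) h2] at this
  linarith

theorem kdd_mono {s t : ℝ} (hs : 0 < s) (hst : s ≤ t) (ht : t < 1) : kdd s ≤ kdd t := by
  refine mono_of_deriv (P' := fun x =>
    (2 * (x ^ 2 / (1 - x ^ 2)) ^ 2 - 3 * (x ^ 2 / (1 - x ^ 2) + log (1 - x ^ 2))) / x ^ 4)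
    ?_ ?_ hs hst ht
  · intro x h1 h2
    have hw := one_sub_sq_pos (by linarith : -1 < x) h2
    refine ((((hasDerivAt_pow 2 x).div ((hasDerivAt_pow 2 x).const_sub 1) hw.ne').add
      (hasDerivAt_log_one_sub_sq (by linarith) h2)).div (hasDerivAt_pow 3 x)
        (by positivity)).congr_deriv ?_
    simp
    field_simp
    ring
  · intro x h1 h2
    have hw := one_sub_sq_pos (by linarith : -1 < x) h2
    refine div_nonneg ?_ (by positivity)
    have := two_mul_sub_log_le (u := x ^ 2 / (1 - x ^ 2)) (by positivity)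
    rw [← neg_log_one_sub_sq (by linarith) h2] at this
    nlinarith [sq_nonneg (x ^ 2 / (1 - x ^ 2))]

theorem kd_mono {s t : ℝ} (hs : 0 < s) (hst : s ≤ t) (ht : t < 1) : kd s ≤ kd t :=
  mono_of_deriv (fun _ a b => hasDerivAt_kd a b) (fun _ a b => kdd_nonneg a b) hs hst ht

theorem kd_lt {s t : ℝ} (hs : 0 < s) (hst : s < t) (ht : t < 1) : kd s < kd t := by
  rcases (kd_mono hs hst.le ht).lt_or_eq with h | h
  · exact h
  exfalso
  -- `kd` would be constant on `[s, t]`, but `kdd > 0` there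
  have hpos : ∀ x, 0 < x → x < 1 → 0 < kdd x := by
    intro x h1 h2
    have hw := one_sub_sq_pos (by linarith : -1 < x) h2
    refine div_pos ?_ (by positivity)
    have hu : (0:ℝ) < x ^ 2 / (1 - x ^ 2) := by positivity
    have := Real.log_lt_sub_one_of_pos (x := 1 + x ^ 2 / (1 - x ^ 2)) (by positivity) (by linarith)
    rw [← neg_log_one_sub_sq (by linarith) h2] at this
    linarith
  have hm : StrictMonoOn kd (Icc s t) := by
    refine strictMonoOn_of_hasDerivWithinAt_pos (f' := kdd) (convex_Icc s t)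
      (fun y hy => (hasDerivAt_kd (hs.trans_le hy.1) (hy.2.trans_lt ht)).continuousAt.continuousWithinAt)
      ?_ ?_
    · intro y hy; rw [interior_Icc] at hy
      exact (hasDerivAt_kd (hs.trans hy.1) (hy.2.trans ht)).hasDerivWithinAt
    · intro y hy; rw [interior_Icc] at hy
      exact hpos y (hs.trans hy.1) (hy.2.trans ht)
  exact (hm ⟨le_refl s, hst.le⟩ ⟨hst.le, le_refl t⟩ hst).ne h

theorem continuousOn_kd : ContinuousOn kd (Ioo 0 1) :=
  fun _ hx => (hasDerivAt_kd hx.1 hx.2).continuousAt.continuousWithinAt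

theorem continuousOn_kf : ContinuousOn kf (Ioo 0 1) :=
  fun _ hx => (hasDerivAt_kf hx.1 hx.2).continuousAt.continuousWithinAt

theorem kd_mid {x y : ℝ} (hx1 : 0 < x) (hx2 : x < 1) (hy1 : 0 < y) (hy2 : y < 1) :
    2 * kd ((x + y) / 2) ≤ kd x + kd y :=
  midpoint_le (fun _ a b => hasDerivAt_kd a b) (fun _ _ a b c => kdd_mono a b c) hx1 hx2 hy1 hy2

theorem kf_mid {x y : ℝ} (hx1 : 0 < x) (hx2 : x < 1) (hy1 : 0 < y) (hy2 : y < 1) :
    2 * kf ((x + y) / 2) ≤ kf x + kf y :=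
  midpoint_le (fun _ a b => hasDerivAt_kf a b) (fun _ _ a b c => kd_mono a b c) hx1 hx2 hy1 hy2

theorem ath_mid {x y : ℝ} (hx1 : 0 < x) (hx2 : x < 1) (hy1 : 0 < y) (hy2 : y < 1) :
    2 * ath ((x + y) / 2) ≤ ath x + ath y :=
  midpoint_le (fun _ a b => hasDerivAt_ath (by linarith) b)
    (fun s t a b c => by
      have := one_sub_sq_pos (by linarith : -1 < t) c
      gcongr)
    hx1 hx2 hy1 hy2

theorem hasDerivAt_ff {x : ℝ} (h1 : 0 < x) (h2 : x < 1) : HasDerivAt ff (x * kdd x) x := by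
  refine ((hasDerivAt_ath (by linarith) h2).sub ((hasDerivAt_kf h1 h2).const_mul 2)).congr_deriv ?_
  have hw := one_sub_sq_pos (by linarith : -1 < x) h2
  simp only [kd, kdd]
  field_simp
  ring

theorem ff_mid {x y : ℝ} (hx1 : 0 < x) (hx2 : x < 1) (hy1 : 0 < y) (hy2 : y < 1) :
    2 * ff ((x + y) / 2) ≤ ff x + ff y :=
  midpoint_le (fun _ a b => hasDerivAt_ff a b)
    (fun s t a b c => mul_le_mul b (kdd_mono a b c) (kdd_nonneg a (by linarith)) (by linarith))
    hx1 hx2 hy1 hy2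

/-- `4 * kdd x ≤ 2x/(1-x^2)^2`, the convexity of `ath - 4 kf`. -/
theorem four_kdd_le {x : ℝ} (h1 : 0 < x) (h2 : x < 1) :
    4 * kdd x ≤ 2 * x / (1 - x ^ 2) ^ 2 := by
  have hw := one_sub_sq_pos (by linarith : -1 < x) h2
  have h := two_mul_sub_log_le (u := x ^ 2 / (1 - x ^ 2)) (by positivity)
  rw [← neg_log_one_sub_sq (by linarith) h2] at h
  rw [kdd, mul_div_assoc', div_le_iff₀ (by positivity)]
  rw [show 2 * x / (1 - x ^ 2) ^ 2 * x ^ 3 = 2 * (x ^ 2 / (1 - x ^ 2)) ^ 2 by field_simp]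
  linarith

theorem hasDerivAt_inv_w {x : ℝ} (h1 : -1 < x) (h2 : x < 1) :
    HasDerivAt (fun t => 1 / (1 - t ^ 2)) (2 * x / (1 - x ^ 2) ^ 2) x := by
  simp only [one_div]
  refine (((hasDerivAt_pow 2 x).const_sub 1).inv (ne_of_gt (one_sub_sq_pos h1 h2))).congr_deriv ?_
  simp

theorem ath_sub_four_kf_mid {x y : ℝ} (hx1 : 0 < x) (hx2 : x < 1) (hy1 : 0 < y) (hy2 : y < 1) :
    2 * (ath ((x + y) / 2) - 4 * kf ((x + y) / 2)) ≤ ath x - 4 * kf x + (ath y - 4 * kf y) :=
  midpoint_le (P := fun t => ath t - 4 * kf t) (P' := fun t => 1 / (1 - t ^ 2) - 4 * kd t)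
    (fun t a b => (hasDerivAt_ath (by linarith) b).sub ((hasDerivAt_kf a b).const_mul 4))
    (fun s t a b c => mono_of_deriv
      (fun u p q => (hasDerivAt_inv_w (by linarith) q).sub ((hasDerivAt_kd p q).const_mul 4))
      (fun u p q => sub_nonneg.2 (four_kdd_le p q)) a b c)
    hx1 hx2 hy1 hy2

/-- The derivative of `gG`. -/
theorem hasDerivAt_gG {x : ℝ} (h1 : 0 < x) (h2 : x < 1) :
    HasDerivAt gG (kd x / 2 + 1 / 20 + x ^ 2 / 10) x := by
  refine (((hasDerivAt_kf h1 h2).div_const 2).add ((hasDerivAt_id x).div_const 20) |>.add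
    ((hasDerivAt_pow 3 x).div_const 30)).congr_deriv ?_
  simp; ring

theorem kd_pos {x : ℝ} (h1 : 0 < x) (h2 : x < 1) : 0 < kd x := by
  have hw := one_sub_sq_pos (by linarith : -1 < x) h2
  have : log (1 - x ^ 2) < 0 := Real.log_neg hw (by nlinarith)
  simp only [kd]
  exact div_pos (by linarith) (by positivity)

theorem gG_mono {s t : ℝ} (hs : 0 < s) (hst : s ≤ t) (ht : t < 1) : gG s ≤ gG t :=
  mono_of_deriv (fun _ a b => hasDerivAt_gG a b)
    (fun x a b => by have := kd_pos a b; positivity) hs hst ht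

theorem kf_mono {s t : ℝ} (hs : 0 < s) (hst : s ≤ t) (ht : t < 1) : kf s ≤ kf t :=
  mono_of_deriv (fun _ a b => hasDerivAt_kf a b) (fun _ a b => (kd_pos a b).le) hs hst ht

/-- Monotonicity of `ff' - gG'`. -/
theorem ff_gG_deriv_mono {s t : ℝ} (hs : 0 < s) (hst : s ≤ t) (ht : t < 1) :
    s * kdd s - (kd s / 2 + 1 / 20 + s ^ 2 / 10) ≤
      t * kdd t - (kd t / 2 + 1 / 20 + t ^ 2 / 10) := by
  have key := mono_of_deriv
    (P := fun u => 1 / (1 - u ^ 2) - 2 * kd u - (kd u / 2 + 1 / 20 + u ^ 2 / 10))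
    (fun u p q => ((hasDerivAt_inv_w (by linarith) q).sub ((hasDerivAt_kd p q).const_mul 2)).sub
      ((((hasDerivAt_kd p q).div_const 2).add_const (1/20)).add ((hasDerivAt_pow 2 u).div_const 10)))
    (fun u p q => by
      have h := four_kdd_le p q
      have hw := one_sub_sq_pos (by linarith : -1 < u) q
      have h2 : 2 * u ≤ 2 * u / (1 - u ^ 2) ^ 2 := by
        rw [le_div_iff₀ (by positivity)]
        nlinarith [sq_nonneg (1 - u ^ 2), mul_le_of_le_one_right (by linarith : (0:ℝ) ≤ 2 * u)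
          (show (1 - u ^ 2) ^ 2 ≤ 1 by nlinarith)]
      simp
      linarith)
    hs hst ht
  have e : ∀ u, 0 < u → u < 1 → u * kdd u = 1 / (1 - u ^ 2) - 2 * kd u := by
    intro u p q
    have hw := one_sub_sq_pos (by linarith : -1 < u) q
    simp only [kd, kdd]
    field_simp
    ring
  rw [e s hs (by linarith), e t (by linarith) ht]
  simpa using key

end Vale.P322
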