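import Vale.Agent.P322.Step

/-!
# The one-step inequality for the second hypothesis
-/

noncomputable section

namespace Vale.P322

open Real Set

theorem phiE_sub_eq {x m : ℝ} (hm : m ∈ Ioo (-1:ℝ) 1) (hx : x ∈ Ioo (-1:ℝ) 1) :
    phiE x - phiE m - ath m * (x - m) =
      ((1 + x) * log ((1 + x) / (1 + m)) + (1 - x) * log ((1 - x) / (1 - m))) / 2 := by
  rw [Real.log_div (by linarith [hx.1]) (by linarith [hm.1]),
    Real.log_div (by linarith [hx.2]) (by linarith [hm.2])]
  simp only [phiE, ath]; ring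

/-- Relative entropy is at most the chi-squared divergence. -/
theorem phiE_sub_le {x m : ℝ} (hm : m ∈ Ioo (-1:ℝ) 1) (hx : x ∈ Ioo (-1:ℝ) 1) :
    phiE x - phiE m - ath m * (x - m) ≤ (x - m) ^ 2 / (1 - m ^ 2) := by
  have m1 : 0 < 1 + m := by linarith [hm.1]
  have m2 : 0 < 1 - m := by linarith [hm.2]
  have x1 : 0 < 1 + x := by linarith [hx.1]
  have x2 : 0 < 1 - x := by linarith [hx.2]
  rw [phiE_sub_eq hm hx]
  have a := mul_le_mul_of_nonneg_left
    (Real.log_le_sub_one_of_pos (div_pos x1 m1)) x1.le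
  have b := mul_le_mul_of_nonneg_left
    (Real.log_le_sub_one_of_pos (div_pos x2 m2)) x2.le
  have e : (x - m) ^ 2 / (1 - m ^ 2) =
      ((1 + x) * ((1 + x) / (1 + m) - 1) + (1 - x) * ((1 - x) / (1 - m) - 1)) / 2 := by
    rw [show 1 - m ^ 2 = (1 + m) * (1 - m) by ring]
    field_simp
    ring
  rw [e]; linarith

/-- Convexity of `phiE`. -/
theorem phiE_sub_nonneg {x m : ℝ} (hm : m ∈ Ioo (-1:ℝ) 1) (hx : x ∈ Ioo (-1:ℝ) 1) :
    0 ≤ phiE x - phiE m - ath m * (x - m) := by
  have m1 : 0 < 1 + m := by linarith [hm.1]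
  have m2 : 0 < 1 - m := by linarith [hm.2]
  have x1 : 0 < 1 + x := by linarith [hx.1]
  have x2 : 0 < 1 - x := by linarith [hx.2]
  rw [phiE_sub_eq hm hx]
  have a := mul_le_mul_of_nonneg_left
    (Real.one_sub_inv_le_log_of_pos (div_pos x1 m1)) x1.le
  have b := mul_le_mul_of_nonneg_left
    (Real.one_sub_inv_le_log_of_pos (div_pos x2 m2)) x2.le
  have e : (1 + x) * (1 - ((1 + x) / (1 + m))⁻¹) + (1 - x) * (1 - ((1 - x) / (1 - m))⁻¹) = 0 := by
    field_simp; ring
  linarith

theorem phiE_avg_le {Ω : Type*} [Fintype Ω] [Nonempty Ω] {g : Ω → ℝ}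
    (hg : ∀ x, g x ∈ Ioo (-1:ℝ) 1) : phiE (avg g) ≤ avg fun x => phiE (g x) := by
  have h := avg_le (f := fun _ => (0:ℝ))
    (g := fun x => phiE (g x) - phiE (avg g) - ath (avg g) * (g x - avg g))
    fun x => phiE_sub_nonneg (avg_mem_Ioo hg) (hg x)
  rw [avg_sub, avg_sub, avg_const, avg_const, avg_smul, avg_sub, avg_const] at h
  linarith

theorem pow_three_le_ff {x : ℝ} (h1 : 0 < x) (h2 : x < 1) : x ^ 3 / 6 ≤ ff x := by
  have := nonneg_of_deriv_nonneg (F := fun t => Fe t - t ^ 4 / 6)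
    (F' := fun t => t / (1 - t ^ 2) - ath t - 2 * t ^ 3 / 3) (by simp)
    (fun t a b => ((hasDerivAt_Fe (by linarith) b).sub ((hasDerivAt_pow 4 t).div_const 6)).congr_deriv
      (by simp; ring))
    (fun t a b => by
      have hw := one_sub_sq_pos (by linarith : -1 < t) b
      have := ath_le a.le b
      have e : t / (1 - t ^ 2) = t + t ^ 3 / (1 - t ^ 2) := by field_simp; ring
      have e2 : t ^ 3 / (3 * (1 - t ^ 2)) = t ^ 3 / (1 - t ^ 2) / 3 := by field_simp
      have e3 : t ^ 3 ≤ t ^ 3 / (1 - t ^ 2) := by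
        rw [le_div_iff₀ hw]; nlinarith [pow_pos a 3, pow_pos a 5]
      linarith) h1.le h2
  have e : Fe x = x * ff x := by simp only [Fe, ff, kf]; field_simp
  rw [e] at this
  nlinarith

theorem kf_le {x : ℝ} (h1 : 0 < x) (h2 : x < 1) : kf x ≤ x / 2 + (log 2 - 1 / 2) * x ^ 3 := by
  have hp : ∀ t, 0 < t → t < 1 → 0 ≤ t * ath t - 4 * phiE t + t ^ 2 := fun t a b =>
    nonneg_of_deriv_nonneg (F := fun t => t * ath t - 4 * phiE t + t ^ 2)
      (F' := fun t => t / (1 - t ^ 2) - 3 * ath t + 2 * t) (by simp)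
      (fun t a b => ((((hasDerivAt_id t).mul (hasDerivAt_ath (by linarith) b)).sub
        ((hasDerivAt_phiE (by linarith) b).const_mul 4)).add (hasDerivAt_pow 2 t)).congr_deriv
          (by simp; ring))
      (fun t a b => by
        have hw := one_sub_sq_pos (by linarith : -1 < t) b
        have := ath_le a.le b
        have e : t / (1 - t ^ 2) = t + t ^ 3 / (1 - t ^ 2) := by field_simp; ring
        have e2 : t ^ 3 / (3 * (1 - t ^ 2)) = t ^ 3 / (1 - t ^ 2) / 3 := by field_simp
        linarith) a.le b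
  have hm : MonotoneOn (fun t => (phiE t - t ^ 2 / 2) / t ^ 4) (Icc x 1) := by
    refine monotoneOn_of_hasDerivWithinAt_nonneg
      (f' := fun t => (t * ath t - 4 * phiE t + t ^ 2) / t ^ 5) (convex_Icc x 1)
      ((continuous_phiE.sub ((continuous_pow 2).div_const 2)).continuousOn.div
        (continuous_pow 4).continuousOn
        (fun y hy => by have : 0 < y := h1.trans_le hy.1; positivity)) ?_ ?_
    · intro y hy; rw [interior_Icc] at hy
      have hy0 : 0 < y := h1.trans hy.1
      refine (((((hasDerivAt_phiE (by linarith) hy.2).sub ((hasDerivAt_pow 2 y).div_const 2)).div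
        (hasDerivAt_pow 4 y) (by positivity))).congr_deriv ?_).hasDerivWithinAt
      simp
      field_simp
      ring
    · intro y hy; rw [interior_Icc] at hy
      have hy0 : 0 < y := h1.trans hy.1
      exact div_nonneg (hp y hy0 hy.2) (by positivity)
  have := hm ⟨le_refl x, h2.le⟩ ⟨h2.le, le_refl 1⟩ h2.le
  simp only [phiE_one, one_pow, div_one] at this
  rw [div_le_iff₀ (by positivity)] at this
  rw [kf, div_le_iff₀ h1]
  nlinarith

theorem gg_three_tenths : gg (3 / 10) - 1 ≤ 67 / 1000 := by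
  have h := le_ath (x := 3 / 10) (by norm_num) (by norm_num)
  have ha : 0 < ath (3 / 10) := ath_pos (by norm_num) (by norm_num)
  rw [gg, sub_le_iff_le_add, div_le_iff₀ (by positivity)]
  nlinarith

theorem persp_phiE_split {h m : ℝ} (h1 : 1 + m ≠ 0) (h2 : 1 - m ≠ 0) :
    persp phiE h m = persp (fun u => phiE u - u ^ 2 / 2) h m + h ^ 2 / (1 - m ^ 2) / 2 := by
  rw [show 1 - m ^ 2 = (1 + m) * (1 - m) by ring]
  simp only [persp]
  field_simp
  ring

variable {Ω : Type*} [Fintype Ω] [Nonempty Ω] {a b : Ω → ℝ}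

/-- The gain in edge entropy forced by spread-out midpoints. -/
theorem gain (ha : ∀ x, a x ∈ Ioo (-1:ℝ) 1) (hb : ∀ x, b x ∈ Ioo (-1:ℝ) 1) {h m M : ℝ}
    (heq : h = |avg a - avg b| / 2) (hm : m = (avg a + avg b) / 2) (hM : M * (1 - m ^ 2) = h) :
    h * M / 2 * (avg (fun x => phiE (md a b x)) - phiE m) ≤
      avg (fun x => persp phiE (hh a b x) (md a b x)) - persp phiE h m := by
  have hmd : ∀ x, md a b x ∈ Ioo (-1:ℝ) 1 := fun x => by
    simp only [md, mem_Ioo]; constructor <;> linarith [(ha x).1, (ha x).2, (hb x).1, (hb x).2]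
  have hmI : m ∈ Ioo (-1:ℝ) 1 := by
    have := avg_mem_Ioo ha
    have := avg_mem_Ioo hb
    rw [hm]; simp only [mem_Ioo] at *; constructor <;> linarith
  have avm : avg (md a b) = m := by
    rw [hm]; unfold md; rw [avg_div, avg_add]
  have w1 := one_sub_sq_pos hmI.1 hmI.2
  set T := avg (fun x => 1 - md a b x ^ 2) with hT
  have hT0 : 0 < T := by
    have := avg_lt (f := fun _ => (0:ℝ)) (g := fun x => 1 - md a b x ^ 2)
      fun x => one_sub_sq_pos (hmd x).1 (hmd x).2
    rwa [avg_const] at this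
  set V := (1 - m ^ 2) - T with hV
  have hV1 : avg (fun x => (md a b x - m) ^ 2) = V := by
    have e : (fun x => (md a b x - m) ^ 2) =
        fun x => (1 + m ^ 2) - (1 - md a b x ^ 2) - 2 * m * md a b x := funext fun x => by ring
    rw [e, avg_sub, avg_sub, avg_const, avg_smul, avm, ← hT]; rw [hV]; ring
  have hV0 : 0 ≤ V := by
    rw [← hV1]
    have := avg_le (f := fun _ => (0:ℝ)) (g := fun x => (md a b x - m) ^ 2) fun x => sq_nonneg _
    rwa [avg_const] at this
  have hVI : avg (fun x => phiE (md a b x)) - phiE m ≤ V / (1 - m ^ 2) := by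
    have := avg_le fun x => phiE_sub_le hmI (hmd x)
    rw [avg_sub, avg_sub, avg_const, avg_smul, avg_sub, avm, avg_const, avg_div, hV1] at this
    linarith
  have hh0 : 0 ≤ h := by rw [heq]; positivity
  have hav : h ≤ avg (fun x => hh a b x) := by
    have := avg_abs_ge (fun x => a x - b x)
    rw [avg_sub] at this
    unfold hh
    rw [avg_div, heq]; linarith
  have hsq : h ^ 2 / T ≤ avg (fun x => hh a b x ^ 2 / (1 - md a b x ^ 2)) := by
    have key : ∀ x, 2 * (h / T) * hh a b x - (h / T) ^ 2 * (1 - md a b x ^ 2) ≤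
        hh a b x ^ 2 / (1 - md a b x ^ 2) := fun x => by
      have := one_sub_sq_pos (hmd x).1 (hmd x).2
      rw [le_div_iff₀ this]
      nlinarith [sq_nonneg (hh a b x - h / T * (1 - md a b x ^ 2))]
    have := avg_le key
    rw [avg_sub, avg_smul, avg_smul, ← hT] at this
    have h2 := mul_le_mul_of_nonneg_left hav (by positivity : 0 ≤ 2 * (h / T))
    have e : 2 * (h / T) * h - (h / T) ^ 2 * T = h ^ 2 / T := by field_simp; ring
    linarith
  have hψ := avg_persp_ge ha hb (P := fun u => phiE u - u ^ 2 / 2) fun c h1 h2 => tangent_psi h1 h2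
  rw [← heq, ← hm] at hψ
  have e1 : avg (fun x => persp phiE (hh a b x) (md a b x)) =
      avg (fun x => persp (fun u => phiE u - u ^ 2 / 2) (hh a b x) (md a b x)) +
        avg (fun x => hh a b x ^ 2 / (1 - md a b x ^ 2)) / 2 := by
    rw [← avg_div, ← avg_add]
    exact congrArg avg (funext fun x =>
      persp_phiE_split (by linarith [(hmd x).1]) (by linarith [(hmd x).2]))
  rw [e1, persp_phiE_split (by linarith [hmI.1] : 1 + m ≠ 0) (by linarith [hmI.2] : 1 - m ≠ 0)]
  have hTV : T = (1 - m ^ 2) - V := by rw [hV]; ring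
  have h3 : h ^ 2 / (1 - m ^ 2) + h ^ 2 * V / (1 - m ^ 2) ^ 2 ≤ h ^ 2 / T := by
    rw [div_add_div _ _ w1.ne' (by positivity), div_le_div_iff₀ (by positivity) hT0, hTV]
    nlinarith [mul_nonneg (mul_nonneg (sq_nonneg h) (sq_nonneg V)) w1.le]
  have h4 : h * M / 2 * (avg (fun x => phiE (md a b x)) - phiE m) ≤
      h ^ 2 * V / (1 - m ^ 2) ^ 2 / 2 := by
    have hhM : 0 ≤ h * M / 2 := by
      have : 0 ≤ M * (1 - m ^ 2) := hM ▸ hh0
      have := nonneg_of_mul_nonneg_left this w1
      positivity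
    calc h * M / 2 * (avg (fun x => phiE (md a b x)) - phiE m)
        ≤ h * M / 2 * (V / (1 - m ^ 2)) := by gcongr
      _ = h ^ 2 * V / (1 - m ^ 2) ^ 2 / 2 := by rw [← hM]; field_simp
  linarith

/-- In the small-excess case the product constraint holds. -/
theorem small_case {x y h M : ℝ} (x1 : 0 < x) (x2 : x < 1) (y1 : 0 < y) (y2 : y < 1)
    (hM : M = (x + y) / 2) (hhM : h ≤ M)
    (hcase : (ff x + ff y) / 2 ≤ 67 / 1000 * ((kf x + kf y) / 2)) :
    8 / 5 * ((kf x + kf y) / 2) * (1 + h * M / 2) ≤ M := by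
  have hx3 := pow_three_le_ff x1 x2
  have hy3 := pow_three_le_ff y1 y2
  have kx := kf_le x1 x2
  have ky := kf_le y1 y2
  set K := (kf x + kf y) / 2 with hK
  have hK0 : 0 ≤ K := by
    have a := phiE_nonneg (by linarith : -1 ≤ x) x2.le
    have b := phiE_nonneg (by linarith : -1 ≤ y) y2.le
    rw [hK]; simp only [kf]
    exact div_nonneg (add_nonneg (div_nonneg a x1.le) (div_nonneg b y1.le)) (by norm_num)
  have hL : log 2 - 1 / 2 ≤ 1932 / 10000 := by linarith [Real.log_two_lt_d9]
  have h3 : (x ^ 3 + y ^ 3) / 2 ≤ 402 / 1000 * K := by linarith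
  have hKM : K ≤ 543 / 1000 * M := by
    have := mul_le_mul hL h3 (by positivity) (by norm_num)
    have : K ≤ M / 2 + (log 2 - 1 / 2) * ((x ^ 3 + y ^ 3) / 2) := by rw [hK, hM]; linarith
    linarith
  have hM3 : M ^ 3 ≤ (x ^ 3 + y ^ 3) / 2 := by
    rw [hM]; nlinarith [mul_nonneg (add_nonneg x1.le y1.le) (sq_nonneg (x - y))]
  have hM0 : 0 < M := by rw [hM]; positivity
  have hM2 : M ^ 2 ≤ 2183 / 10000 := by
    have : M ^ 2 * M ≤ 2183 / 10000 * M := by linarith
    exact le_of_mul_le_mul_right this hM0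
  have hhM2 : h * M ≤ M ^ 2 := by rw [pow_two]; gcongr
  calc 8 / 5 * K * (1 + h * M / 2) ≤ 8 / 5 * K * (1 + 2183 / 10000 / 2) := by
        gcongr; linarith
    _ ≤ 8 / 5 * (543 / 1000 * M) * (1 + 2183 / 10000 / 2) := by gcongr
    _ ≤ M := by linarith

/-- One-step inequality of the second hypothesis. -/
theorem stepB (ha : ∀ x, a x ∈ Ioo (-1:ℝ) 1) (hb : ∀ x, b x ∈ Ioo (-1:ℝ) 1) :
    Rt (avg (fun x => (phiE (a x) + phiE (b x)) / 2) - phiE ((avg a + avg b) / 2)) -
      Rt (avg (fun x => (phiE (a x) + phiE (b x)) / 2) - (phiE (avg a) + phiE (avg b)) / 2) ≤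
      avg (fun x => qE (a x) (b x)) -
        2 * ((phiE (avg a) + phiE (avg b)) / 2 - phiE ((avg a + avg b) / 2)) := by
  have hA := avg_mem_Ioo ha
  have hB := avg_mem_Ioo hb
  set E := avg (fun x => (phiE (a x) + phiE (b x)) / 2) with hE
  by_cases hab : avg a = avg b
  · rw [hab, add_self_div_two, add_self_div_two, sub_self, sub_self, mul_zero, sub_zero]
    have := avg_le (f := fun _ => (0:ℝ)) (g := fun x => qE (a x) (b x))
      fun x => qE_nonneg (ha x) (hb x)
    rwa [avg_const] at this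
  set h := |avg a - avg b| / 2 with hh'
  set m := (avg a + avg b) / 2 with hm
  have h0 : 0 < h := by
    rw [hh']; have : 0 < |avg a - avg b| := abs_pos.2 (sub_ne_zero.2 hab)
    positivity
  obtain ⟨⟨hd1, hd2⟩, hδ, -⟩ := pair_decomp hA hB
  rw [← hh', ← hm] at hd1 hd2 hδ
  have p1 : 0 < 1 + m := by linarith
  have p2 : 0 < 1 - m := by linarith
  set I := E - (phiE (avg a) + phiE (avg b)) / 2 with hI
  have hI0 : 0 ≤ I := by
    have i1 := phiE_avg_le ha
    have i2 := phiE_avg_le hb
    have : E = (avg (fun x => phiE (a x)) + avg (fun x => phiE (b x))) / 2 := by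
      rw [hE, avg_div, avg_add]
    rw [hI]; linarith
  set d := (phiE (avg a) + phiE (avg b)) / 2 - phiE m with hd
  have eId : E - phiE m = I + d := by rw [hI, hd]; ring
  rw [eId]
  have hP := avg_persp_ge ha hb (P := phiE) fun c h1 h2 => tangent_phiE h1 h2
  have hF := avg_persp_ge ha hb (P := Fe) fun c h1 h2 => tangent_Fe h1 h2
  rw [← hh', ← hm] at hP hF
  have eF : avg (fun x => persp Fe (hh a b x) (md a b x)) =
      avg (fun x => qE (a x) (b x)) - 2 * avg (fun x => persp phiE (hh a b x) (md a b x)) := by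
    rw [← avg_smul, ← avg_sub]
    exact congrArg avg (funext fun x => (pair_chi ha hb x).symm)
  rw [eF] at hF
  have hdp : d = persp phiE h m := hδ
  have eMid : avg (fun x => phiE (md a b x)) =
      E - avg (fun x => persp phiE (hh a b x) (md a b x)) := by
    rw [hE, ← avg_sub]
    exact congrArg avg (funext fun x => by rw [← pair_delta ha hb x]; ring)
  have hinc : Rt (I + d) - Rt I ≤ 67 / 1000 * d := by
    have := Rt_subgrad (I + d) I
    have hd0 : 0 ≤ d := by
      have := phiE_avg_le (Ω := Bool) (g := fun c => if c then avg a else avg b) (by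
        intro c; cases c <;> assumption)
      have eB : ∀ F : Bool → ℝ, avg F = (F true + F false) / 2 := fun F => by simp [avg]
      rw [eB, eB] at this
      simp at this
      rw [hd, hm]; linarith
    have := mul_le_mul_of_nonneg_right ((St_le (I + d)).trans gg_three_tenths) hd0
    linarith
  set x := h / (1 + m) with hx
  set y := h / (1 - m) with hy
  have x1 : 0 < x := by positivity
  have x2 : x < 1 := (div_lt_one p1).2 hd1
  have y1 : 0 < y := by positivity
  have y2 : y < 1 := (div_lt_one p2).2 hd2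
  have eFf : persp Fe h m = h * ((ff x + ff y) / 2) := by
    simp only [persp, Fe, ff, kf, hx, hy]
    field_simp
  have edK : persp phiE h m = h * ((kf x + kf y) / 2) := by
    simp only [persp, kf, hx, hy]
    field_simp
  by_cases hcase : 67 / 1000 * ((kf x + kf y) / 2) ≤ (ff x + ff y) / 2
  · have := mul_le_mul_of_nonneg_left hcase h0.le
    rw [hdp, edK] at hinc ⊢
    rw [edK] at hP
    rw [eFf] at hF
    linarith
  rw [not_le] at hcase
  set M := (x + y) / 2 with hM
  have hMw : M * (1 - m ^ 2) = h := by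
    rw [hM, hx, hy]; field_simp; ring
  have hg := gain ha hb hh' hm hMw
  set K := (kf x + kf y) / 2 with hK
  have hM0 : 0 < M := by positivity
  have hm2 : 1 - m ^ 2 ≤ 1 := by linarith [sq_nonneg m]
  have hfac : 8 / 5 * K * (1 + h * M / 2) ≤ M :=
    small_case x1 x2 y1 y2 hM (hMw ▸ mul_le_of_le_one_right hM0.le hm2) hcase.le
  have hK0 : 0 ≤ K := by
    have a := phiE_nonneg (by linarith : -1 ≤ x) x2.le
    have b := phiE_nonneg (by linarith : -1 ≤ y) y2.le
    rw [hK]; simp only [kf]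
    exact div_nonneg (add_nonneg (div_nonneg a x1.le) (div_nonneg b y1.le)) (by norm_num)
  set δb := avg (fun x => persp phiE (hh a b x) (md a b x)) with hδb
  have hΔ : 8 / 5 * I * d ≤ 2 * (δb - d) := by
    rw [eMid, show E - δb - phiE m = I - (δb - d) by rw [hI, hd]; ring, ← hdp] at hg
    have g1 : h * M / 2 * I ≤ (δb - d) * (1 + h * M / 2) := by linarith
    have g2 : 8 / 5 * I * d * (1 + h * M / 2) ≤ 2 * (δb - d) * (1 + h * M / 2) := by
      calc 8 / 5 * I * d * (1 + h * M / 2) = I * h * (8 / 5 * K * (1 + h * M / 2)) := by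
            rw [hdp, edK]; ring
        _ ≤ I * h * M := by gcongr
        _ ≤ _ := by linarith
    exact le_of_mul_le_mul_right g2 (by positivity)
  have hd0 : 0 ≤ d := by rw [hdp, edK]; exact mul_nonneg h0.le hK0
  have hRd : Rt d ≤ persp Fe h m := by
    have t1 := Fe_tangent (s := x) ⟨x1.le, x2⟩ (tt_mem' d)
    have t2 := Fe_tangent (s := y) ⟨y1.le, y2⟩ (tt_mem' d)
    simp only [cE] at t1 t2
    have t1' := mul_le_mul_of_nonneg_left t1 p1.le
    have t2' := mul_le_mul_of_nonneg_left t2 p2.le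
    have hd2' : d = ((1 + m) * phiE x + (1 - m) * phiE y) / 2 := hdp
    simp only [Rt, persp, ← hx, ← hy]
    generalize ge (tt d) - 1 = σ at t1' t2' ⊢
    generalize tt d = s at t1' t2' ⊢
    rw [hd2']
    linarith
  have := Rt_add_le hI0 hd0
  linarith

end Vale.P322
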