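import Vale.Agent.P322.CubeDefs
import Vale.Agent.P322.Step2

/-!
# Induction on the cube
-/

noncomputable section

namespace Vale.P322

open Real Set Finset

variable {n : ℕ}

/-- One of the two halves of a function on the cube. -/
def half (g : Cube (n + 1) → ℝ) (c : Bool) (x : Cube n) : ℝ := g (Fin.cons c x)

theorem sum_cube_succ {M : Type*} [AddCommMonoid M] (g : Cube (n + 1) → M) :
    ∑ x, g x = ∑ x, g (Fin.cons true x) + ∑ x, g (Fin.cons false x) := by
  rw [← (Fin.consEquiv fun _ => Bool).sum_comp g, Fintype.sum_prod_type, Fintype.sum_bool]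
  rfl

theorem avg_succ (g : Cube (n + 1) → ℝ) :
    avg g = (avg (half g true) + avg (half g false)) / 2 := by
  simp only [avg, half]
  rw [sum_cube_succ]
  simp only [Fintype.card_fun, Fintype.card_bool, Fintype.card_fin, Nat.cast_pow, Nat.cast_ofNat]
  rw [pow_succ]
  ring

theorem avg_zero (g : Cube 0 → ℝ) (x : Cube 0) : avg g = g x := by
  rw [avg, Fintype.sum_subsingleton _ x]; simp

/-- Sum of the discrete derivatives. -/
def Sn : (n : ℕ) → (Cube n → ℝ) → Cube n → ℝ
  | 0, _, _ => 0
  | n + 1, g, y =>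
    Sn n (half g (y 0)) (Fin.tail y) + (g y - g (Fin.cons (!(y 0)) (Fin.tail y))) / 2

theorem Sn_cons (g : Cube (n + 1) → ℝ) (c : Bool) (x : Cube n) :
    Sn (n + 1) g (Fin.cons c x) = Sn n (half g c) x + (half g c x - half g (!c) x) / 2 := by
  simp [Sn, half]

theorem Sn_lin : ∀ (n : ℕ) (u v : ℝ) (g k : Cube n → ℝ) (y : Cube n),
    Sn n (fun z => u * g z + v * k z) y = u * Sn n g y + v * Sn n k y := by
  intro n
  induction n with
  | zero => simp [Sn]
  | succ n ih =>
    intro u v g k y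
    rw [← Fin.cons_self_tail y]
    simp only [Sn_cons]
    have e : ∀ c, half (fun z => u * g z + v * k z) c = fun z => u * half g c z + v * half k c z :=
      fun _ => rfl
    simp only [e, ih]
    ring

/-- The dissipation `E[ath(g) * S g]`. -/
def Jn (g : Cube n → ℝ) : ℝ := avg fun y => ath (g y) * Sn n g y

theorem Jn_succ (g : Cube (n + 1) → ℝ) :
    Jn g = (Jn (half g true) + Jn (half g false)) / 2 +
      avg (fun x => qE (half g true x) (half g false x)) := by
  simp only [Jn]
  rw [avg_succ, ← avg_add, ← avg_add, ← avg_div, ← avg_div, ← avg_add]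
  refine congrArg avg (funext fun x => ?_)
  rw [half, half]
  simp only [Sn_cons, qE, Bool.not_true, Bool.not_false]
  simp only [half]
  ring

theorem half_mem {g : Cube (n + 1) → ℝ} (hg : ∀ x, g x ∈ Ioo (-1:ℝ) 1) (c : Bool) :
    ∀ x, half g c x ∈ Ioo (-1:ℝ) 1 := fun _ => hg _

theorem avg_phi_succ (g : Cube (n + 1) → ℝ) :
    avg (fun x => phiE (g x)) =
      (avg (fun x => phiE (half g true x)) + avg (fun x => phiE (half g false x))) / 2 :=
  avg_succ fun x => phiE (g x)

/-- First hypothesis. -/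
theorem hypA : ∀ (n : ℕ) (g : Cube n → ℝ), (∀ x, g x ∈ Ioo (-1:ℝ) 1) →
    2 * (avg (fun x => phiE (g x)) - phiE (avg g)) +
      (1 - avg g ^ 2) * Rh ((log 2 - avg (fun x => phiE (g x))) / (1 - avg g ^ 2)) ≤ Jn g := by
  intro n
  induction n with
  | zero =>
    intro g hg
    obtain ⟨x⟩ : Nonempty (Cube 0) := inferInstance
    rw [avg_zero g x, avg_zero _ x, Jn, avg_zero _ x]
    simp only [Sn, mul_zero, sub_self, zero_add]
    have hw := one_sub_sq_pos (hg x).1 (hg x).2
    have hl : log 2 ≤ (log 2 - phiE (g x)) / (1 - g x ^ 2) := by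
      rw [le_div_iff₀ hw]
      exact log_two_mul_le_cE (hg x).1.le (hg x).2.le
    rw [Rh, cinv_of_ge hl, Fe_zero, mul_zero]
  | succ n ih =>
    intro g hg
    rw [Jn_succ, avg_phi_succ, avg_succ g]
    have ga := half_mem hg true
    have gb := half_mem hg false
    generalize half g true = a at *
    generalize half g false = b at *
    have iA := ih a ga
    have iB := ih b gb
    have st := stepA ga gb
    have eE : avg (fun x => (phiE (a x) + phiE (b x)) / 2) =
        (avg (fun x => phiE (a x)) + avg (fun x => phiE (b x))) / 2 := by rw [avg_div, avg_add]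
    rw [eE] at st
    have hma := avg_mem_Ioo ga
    have hmb := avg_mem_Ioo gb
    have hEa := avg_lt (f := fun x => phiE (a x)) (g := fun _ => log 2)
      fun x => phiE_lt_log_two (ga x).1 (ga x).2
    have hEb := avg_lt (f := fun x => phiE (b x)) (g := fun _ => log 2)
      fun x => phiE_lt_log_two (gb x).1 (gb x).2
    rw [avg_const] at hEa hEb
    generalize avg (fun x => phiE (a x)) = Ea at *
    generalize avg (fun x => phiE (b x)) = Eb at *
    generalize avg a = ma at *
    generalize avg b = mb at *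
    have wa := one_sub_sq_pos hma.1 hma.2
    have wb := one_sub_sq_pos hmb.1 hmb.2
    have w' : 0 < 1 - (ma ^ 2 + mb ^ 2) / 2 := by linarith
    have D0 : 0 < log 2 - (Ea + Eb) / 2 := by linarith
    have ht := Rh_eq_tangent (div_pos D0 w')
    set z := (log 2 - (Ea + Eb) / 2) / (1 - (ma ^ 2 + mb ^ 2) / 2) with hz
    have hzD : (1 - (ma ^ 2 + mb ^ 2) / 2) * z = log 2 - (Ea + Eb) / 2 := by
      rw [hz, mul_div_cancel₀ _ w'.ne']
    have tm := cinv_mem_Ico (div_pos D0 w')
    have ta := mul_le_mul_of_nonneg_left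
      (Rh_ge_tangent (div_pos (by linarith : 0 < log 2 - Ea) wa) tm) wa.le
    have tb := mul_le_mul_of_nonneg_left
      (Rh_ge_tangent (div_pos (by linarith : 0 < log 2 - Eb) wb) tm) wb.le
    rw [← hz] at ta tb
    have ea : (1 - ma ^ 2) * ((log 2 - Ea) / (1 - ma ^ 2)) = log 2 - Ea := by field_simp
    have eb : (1 - mb ^ 2) * ((log 2 - Eb) / (1 - mb ^ 2)) = log 2 - Eb := by field_simp
    generalize (log 2 - Ea) / (1 - ma ^ 2) = za at *
    generalize (log 2 - Eb) / (1 - mb ^ 2) = zb at *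
    generalize Fe (cinv z) = F0 at *
    generalize ge (cinv z) = G0 at *
    generalize cE (cinv z) = C0 at *
    have key : (1 - (ma ^ 2 + mb ^ 2) / 2) * Rh z ≤
        ((1 - ma ^ 2) * Rh za + (1 - mb ^ 2) * Rh zb) / 2 := by
      rw [ht]
      linear_combination (ta + tb) / 2 + (G0 - 1) / 2 * ea + (G0 - 1) / 2 * eb - (G0 - 1) * hzD
    linarith

/-- Second hypothesis. -/
theorem hypB : ∀ (n : ℕ) (g : Cube n → ℝ), (∀ x, g x ∈ Ioo (-1:ℝ) 1) →
    2 * (avg (fun x => phiE (g x)) - phiE (avg g)) +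
      Rt (avg (fun x => phiE (g x)) - phiE (avg g)) ≤ Jn g := by
  intro n
  induction n with
  | zero =>
    intro g hg
    obtain ⟨x⟩ : Nonempty (Cube 0) := inferInstance
    rw [avg_zero g x, avg_zero _ x, Jn, avg_zero _ x]
    simp [Sn, Rt_zero]
  | succ n ih =>
    intro g hg
    rw [Jn_succ, avg_phi_succ, avg_succ g]
    have ga := half_mem hg true
    have gb := half_mem hg false
    generalize half g true = a at *
    generalize half g false = b at *
    have iA := ih a ga
    have iB := ih b gb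
    have st := stepB ga gb
    have eE : avg (fun x => (phiE (a x) + phiE (b x)) / 2) =
        (avg (fun x => phiE (a x)) + avg (fun x => phiE (b x))) / 2 := by rw [avg_div, avg_add]
    rw [eE] at st
    generalize avg (fun x => phiE (a x)) = Ea at *
    generalize avg (fun x => phiE (b x)) = Eb at *
    generalize phiE (avg a) = pa at *
    generalize phiE (avg b) = pb at *
    generalize hI : (Ea + Eb) / 2 - (pa + pb) / 2 = I at *
    have t1 := Rt_subgrad I (Ea - pa)
    have t2 := Rt_subgrad I (Eb - pb)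
    have : St I * (Ea - pa - I) + St I * (Eb - pb - I) = 0 := by rw [← hI]; ring
    linarith

/-- The semigroup on a split cube. -/
theorem Tn_cons (ρ : ℝ) (f : Cube (n + 1) → ℝ) (c : Bool) (y : Cube n) :
    Tn ρ f (Fin.cons c y) =
      (1 + ρ) / 2 * Tn ρ (half f c) y + (1 - ρ) / 2 * Tn ρ (half f (!c)) y := by
  simp only [Tn, sum_cube_succ, Fin.prod_univ_succ, Fin.cons_zero, Fin.cons_succ, half,
    Finset.mul_sum]
  cases c <;> simp only [sgn, Bool.not_true, Bool.not_false] <;>
    rw [← Finset.sum_add_distrib, ← Finset.sum_add_distrib] <;>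
    refine Finset.sum_congr rfl fun x _ => ?_ <;> simp <;> ring

theorem avg_Tn : ∀ (n : ℕ) (ρ : ℝ) (f : Cube n → ℝ), avg (Tn ρ f) = avg f := by
  intro n
  induction n with
  | zero =>
    intro ρ f
    obtain ⟨x⟩ : Nonempty (Cube 0) := inferInstance
    rw [avg_zero _ x, avg_zero _ x, Tn, Fintype.sum_subsingleton _ x]
    simp
  | succ n ih =>
    intro ρ f
    rw [avg_succ, avg_succ f]
    have e : ∀ c, avg (half (Tn ρ f) c) =
        (1 + ρ) / 2 * avg (half f c) + (1 - ρ) / 2 * avg (half f (!c)) := fun c => by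
      rw [show half (Tn ρ f) c = fun y => (1 + ρ) / 2 * Tn ρ (half f c) y +
          (1 - ρ) / 2 * Tn ρ (half f (!c)) y from funext fun y => Tn_cons ρ f c y,
        avg_add, avg_smul, avg_smul, ih, ih]
    rw [e, e]
    simp only [Bool.not_true, Bool.not_false]
    ring

theorem Tn_const : ∀ (n : ℕ) (ρ k : ℝ) (y : Cube n), Tn ρ (fun _ => k) y = k := by
  intro n
  induction n with
  | zero => intro ρ k y; rw [Tn, Fintype.sum_subsingleton _ y]; simp
  | succ n ih =>
    intro ρ k y
    rw [← Fin.cons_self_tail y, Tn_cons]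
    have : ∀ c, half (fun _ : Cube (n + 1) => k) c = fun _ => k := fun _ => rfl
    rw [this, this, ih]
    ring

theorem Tn_one : ∀ (n : ℕ) (f : Cube n → ℝ) (y : Cube n), Tn 1 f y = f y := by
  intro n
  induction n with
  | zero => intro f y; rw [Tn, Fintype.sum_subsingleton _ y]; simp
  | succ n ih =>
    intro f y
    rw [← Fin.cons_self_tail y, Tn_cons, ih]
    simp [half]

theorem Tn_zero : ∀ (n : ℕ) (f : Cube n → ℝ) (y : Cube n), Tn 0 f y = avg f := by
  intro n
  induction n with
  | zero => intro f y; rw [Tn, Fintype.sum_subsingleton _ y, avg_zero _ y]; simp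
  | succ n ih =>
    intro f y
    rw [← Fin.cons_self_tail y, Tn_cons, ih, ih, avg_succ f]
    cases y 0 <;> simp <;> ring

theorem continuous_Tn (f : Cube n → ℝ) (y : Cube n) : Continuous fun ρ => Tn ρ f y := by
  unfold Tn; fun_prop

theorem hasDerivAt_Tn : ∀ (n : ℕ) (ρ : ℝ) (f : Cube n → ℝ) (y : Cube n),
    ∃ d, HasDerivAt (fun r => Tn r f y) d ρ ∧ ρ * d = Sn n (Tn ρ f) y := by
  intro n
  induction n with
  | zero =>
    intro ρ f y
    refine ⟨0, ?_, by simp [Sn]⟩
    have : (fun r => Tn r f y) = fun _ => f y := funext fun r => by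
      rw [Tn, Fintype.sum_subsingleton _ y]; simp
    rw [this]; exact hasDerivAt_const ρ _
  | succ n ih =>
    intro ρ f y
    rw [← Fin.cons_self_tail y]
    generalize y 0 = c
    generalize Fin.tail y = x
    obtain ⟨da, ha, ea⟩ := ih ρ (half f c) x
    obtain ⟨db, hb, eb⟩ := ih ρ (half f (!c)) x
    refine ⟨_, ((((hasDerivAt_id ρ).const_add 1).div_const 2).mul ha).add
      ((((hasDerivAt_id ρ).const_sub 1).div_const 2).mul hb) |>.congr_of_eventuallyEq
        (Filter.Eventually.of_forall fun r => Tn_cons r f c x), ?_⟩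
    have e : ∀ d, half (Tn ρ f) d = fun z => (1 + ρ) / 2 * Tn ρ (half f d) z +
        (1 - ρ) / 2 * Tn ρ (half f (!d)) z := fun d => funext fun z => Tn_cons ρ f d z
    rw [Sn_cons, e, e, Sn_lin, ← ea, ← eb, Bool.not_not]
    simp only [id_eq]
    ring

theorem kernel_pos {ρ : ℝ} (h1 : -1 < ρ) (h2 : ρ < 1) (x y : Cube n) :
    0 < ∏ i, (1 + ρ * (sgn (x i) * sgn (y i))) / 2 := by
  refine Finset.prod_pos fun i _ => ?_
  cases x i <;> cases y i <;> simp [sgn] <;> linarith

theorem Tn_mem {ρ : ℝ} (h1 : -1 < ρ) (h2 : ρ < 1) {f : Cube n → ℝ}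
    (hf : ∀ x, f x ∈ Icc (-1:ℝ) 1) {p q : Cube n} (hp : f p < 1) (hq : -1 < f q) (y : Cube n) :
    Tn ρ f y ∈ Ioo (-1:ℝ) 1 := by
  have hk : ∑ x : Cube n, (∏ i, (1 + ρ * (sgn (x i) * sgn (y i))) / 2) * (1:ℝ) = 1 := Tn_const n ρ 1 y
  constructor
  · have h : 0 < ∑ x : Cube n, (∏ i, (1 + ρ * (sgn (x i) * sgn (y i))) / 2) * (f x + 1) :=
      Finset.sum_pos' (fun x _ => mul_nonneg (kernel_pos h1 h2 x y).le (by linarith [(hf x).1]))
        ⟨q, Finset.mem_univ q, mul_pos (kernel_pos h1 h2 q y) (by linarith)⟩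
    simp only [mul_add, Finset.sum_add_distrib, hk] at h
    rw [Tn]; linarith
  · have h : 0 < ∑ x : Cube n, (∏ i, (1 + ρ * (sgn (x i) * sgn (y i))) / 2) * (1 - f x) :=
      Finset.sum_pos' (fun x _ => mul_nonneg (kernel_pos h1 h2 x y).le (by linarith [(hf x).2]))
        ⟨p, Finset.mem_univ p, mul_pos (kernel_pos h1 h2 p y) (by linarith)⟩
    simp only [mul_sub, Finset.sum_sub_distrib, hk] at h
    rw [Tn]; linarith

/-- The derivative of the entropy deficit along the semigroup. -/
theorem hasDerivAt_energy {ρ : ℝ} {f : Cube n → ℝ}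
    (h : ∀ y, Tn ρ f y ∈ Ioo (-1:ℝ) 1) :
    ∃ d, HasDerivAt (fun r => avg fun y => phiE (Tn r f y)) d ρ ∧ ρ * d = Jn (Tn ρ f) := by
  choose d hd he using fun y => hasDerivAt_Tn n ρ f y
  refine ⟨avg fun y => ath (Tn ρ f y) * d y, ?_, ?_⟩
  · unfold avg
    exact (HasDerivAt.fun_sum fun y _ => (hasDerivAt_phiE (h y).1 (h y).2).comp ρ (hd y)).div_const _
  · rw [← avg_smul]
    exact congrArg avg (funext fun y => by rw [← he y]; ring)

end Vale.P322
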