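import Vale.Agent.P322.Defs
import Mathlib.Analysis.SpecialFunctions.Log.Base
import Mathlib.Analysis.SpecialFunctions.BinaryEntropy

/-!
# Courtade-Kumar: definitions on the cube

`Cube n = Fin n → Bool` models `{-1,1}^n` (`true` is `+1`).
-/

noncomputable section

namespace Vale.P322

open Real Finset

/-- The discrete cube. -/
abbrev Cube (n : ℕ) := Fin n → Bool

/-- The sign of a Boolean. -/
def sgn (b : Bool) : ℝ := if b then 1 else -1

/-- The noise operator: `T ρ f (y) = E[f(X) | Y = y]`. -/
def Tn {n : ℕ} (ρ : ℝ) (f : Cube n → ℝ) (y : Cube n) : ℝ :=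
  ∑ x, (∏ i, (1 + ρ * (sgn (x i) * sgn (y i))) / 2) * f x

/-- The joint law of `(f(X), Y)`: `X` is uniform on the cube and `Y` is obtained from `X` by
flipping every coordinate independently with probability `ε`. -/
def jointLaw {n : ℕ} (f : Cube n → Bool) (ε : ℝ) (b : Bool) (y : Cube n) : ℝ :=
  ∑ x, if f x = b then (1 / 2 ^ n) * ∏ i, (if x i = y i then 1 - ε else ε) else 0

/-- The mutual information of a joint law, in bits. -/
def mutualInfo {α β : Type*} [Fintype α] [Fintype β] (P : α → β → ℝ) : ℝ :=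
  ∑ a, ∑ b, P a b * Real.logb 2 (P a b / ((∑ b', P a b') * ∑ a', P a' b))

end Vale.P322
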