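import Mathlib.Analysis.SpecialFunctions.Log.Deriv
import Mathlib.Analysis.Calculus.Deriv.MeanValue
import Mathlib.Analysis.Convex.Deriv
import Mathlib.Analysis.Complex.ExponentialBounds
import Mathlib.Tactic

/-!
# Courtade-Kumar: scalar functions

All logarithms are natural. For `x` in `(-1,1)`:
`phiE x = log 2 - entropy((1+x)/2)`, `cE x = log 2 - phiE x`,
`ath x = artanh x`, `kf x = phiE x / x`, `kd = kf'`, `ff = ath - 2 kf`.
-/

noncomputable section

namespace Vale.P322

open Real Set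

/-- `((1+x) log (1+x) + (1-x) log (1-x)) / 2`, the entropy deficit in nats. -/
def phiE (x : ℝ) : ℝ := ((1 + x) * log (1 + x) + (1 - x) * log (1 - x)) / 2

/-- The entropy `log 2 - phiE x`. -/
def cE (x : ℝ) : ℝ := log 2 - phiE x

/-- Inverse hyperbolic tangent. -/
def ath (x : ℝ) : ℝ := (log (1 + x) - log (1 - x)) / 2

/-- `phiE x / x`. -/
def kf (x : ℝ) : ℝ := phiE x / x

/-- The derivative of `kf` on `(0,1)`. -/
def kd (x : ℝ) : ℝ := -log (1 - x ^ 2) / (2 * x ^ 2)

/-- `ath x - 2 * phiE x / x`. -/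
def ff (x : ℝ) : ℝ := ath x - 2 * kf x

/-- The slack function of the one-step lemma. -/
def gG (r : ℝ) : ℝ := kf r / 2 + r / 20 + r ^ 3 / 30

/-- `x * ath x + cE x`, equal to `log (2 cosh (ath x))`. -/
def xX (x : ℝ) : ℝ := x * ath x + cE x

/-- `x / ((1 - x^2) ath x)`. -/
def gg (x : ℝ) : ℝ := x / ((1 - x ^ 2) * ath x)

/-- Bound on the slope of the normalised excess increment. -/
def slopeB (r : ℝ) : ℝ := 1 - (1 - r ^ 2) * (kd r / 2 + 1 / 20 + r ^ 2 / 10)

/-- Auxiliary coefficient of the supersolution. -/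
def kc (r : ℝ) : ℝ := 37 / 25 + 13 / 25 * r ^ 2

/-- The supersolution correction `1 - kc * cE`. -/
def eta (r : ℝ) : ℝ := 1 - kc r * cE r

/-- The derivative of `eta`. -/
def etaD (r : ℝ) : ℝ := kc r * ath r - cE r * (26 / 25 * r)

theorem hasDerivAt_log_one_add {x : ℝ} (h1 : -1 < x) :
    HasDerivAt (fun t => log (1 + t)) (1 / (1 + x)) x := by
  simpa using ((hasDerivAt_id x).const_add 1).log (by simp; linarith)

theorem hasDerivAt_log_one_sub {x : ℝ} (h2 : x < 1) :
    HasDerivAt (fun t => log (1 - t)) (-1 / (1 - x)) x := by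
  simpa using ((hasDerivAt_id x).const_sub 1).log (by simp; linarith)

theorem one_sub_sq_pos {x : ℝ} (h1 : -1 < x) (h2 : x < 1) : 0 < 1 - x ^ 2 := by nlinarith

theorem hasDerivAt_ath {x : ℝ} (h1 : -1 < x) (h2 : x < 1) :
    HasDerivAt ath (1 / (1 - x ^ 2)) x := by
  have := ((hasDerivAt_log_one_add h1).sub (hasDerivAt_log_one_sub h2)).div_const 2
  refine this.congr_deriv ?_
  have a : (1 + x) ≠ 0 := by linarith
  have b : (1 - x) ≠ 0 := by linarith
  have c : (1 - x ^ 2) ≠ 0 := ne_of_gt (one_sub_sq_pos h1 h2)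
  field_simp
  ring

theorem hasDerivAt_phiE {x : ℝ} (h1 : -1 < x) (h2 : x < 1) :
    HasDerivAt phiE (ath x) x := by
  have p := ((hasDerivAt_id x).const_add 1).mul (hasDerivAt_log_one_add h1)
  have q := ((hasDerivAt_id x).const_sub 1).mul (hasDerivAt_log_one_sub h2)
  refine ((p.add q).div_const 2).congr_deriv ?_
  have a : (1 + x) ≠ 0 := by linarith
  have b : (1 - x) ≠ 0 := by linarith
  simp only [id_eq, ath]
  field_simp
  ring

theorem hasDerivAt_cE {x : ℝ} (h1 : -1 < x) (h2 : x < 1) :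
    HasDerivAt cE (-ath x) x := by
  exact (hasDerivAt_phiE h1 h2).const_sub (log 2)

@[simp] theorem phiE_zero : phiE 0 = 0 := by simp [phiE]

@[simp] theorem cE_zero : cE 0 = log 2 := by simp [cE]

@[simp] theorem ath_zero : ath 0 = 0 := by simp [ath]

theorem phiE_neg (x : ℝ) : phiE (-x) = phiE x := by
  simp [phiE, sub_eq_add_neg, add_comm]

theorem ath_neg (x : ℝ) : ath (-x) = -ath x := by
  simp [ath, sub_eq_add_neg]; ring

theorem log_one_sub_sq {x : ℝ} (h1 : -1 < x) (h2 : x < 1) :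
    log (1 - x ^ 2) = log (1 + x) + log (1 - x) := by
  rw [← log_mul (by linarith) (by linarith)]; congr 1; ring

theorem xX_eq {x : ℝ} (h1 : -1 < x) (h2 : x < 1) :
    xX x = log 2 - log (1 - x ^ 2) / 2 := by
  rw [log_one_sub_sq h1 h2]; simp only [xX, cE, phiE, ath]; ring

theorem hasDerivAt_kf {x : ℝ} (h1 : 0 < x) (h2 : x < 1) :
    HasDerivAt kf (kd x) x := by
  have h := (hasDerivAt_phiE (by linarith) h2).div (hasDerivAt_id x) (by simpa using h1.ne')
  refine h.congr_deriv ?_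
  simp only [id_eq, kd, log_one_sub_sq (show -1 < x by linarith) h2, ath, phiE]
  field_simp
  ring

end Vale.P322
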