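import Vale.Agent.P322.Convexity
import Vale.Agent.P322.Calc

/-!
# The convex envelopes `Rh`, `Rt`
-/

noncomputable section

namespace Vale.P322

open Real Set Topology Filter

/-- `gg`, extended by its limit `1` at `0`. -/
def ge (r : ℝ) : ℝ := if r = 0 then 1 else gg r

theorem ge_of_ne {r : ℝ} (h : r ≠ 0) : ge r = gg r := if_neg h

@[simp] theorem ge_zero : ge 0 = 1 := if_pos rfl

theorem one_le_gg {r : ℝ} (h1 : 0 < r) (h2 : r < 1) : 1 ≤ gg r := by
  have hw := one_sub_sq_pos (by linarith : -1 < r) h2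
  have ha := ath_pos h1 h2
  rw [gg, le_div_iff₀ (by positivity), one_mul]
  have := ath_le_div h1.le h2
  rwa [le_div_iff₀ hw, mul_comm] at this

theorem gg_le {r : ℝ} (h1 : 0 < r) (h2 : r < 1) : gg r ≤ 1 / (1 - r ^ 2) := by
  have hw := one_sub_sq_pos (by linarith : -1 < r) h2
  have ha := ath_pos h1 h2
  rw [gg, div_le_div_iff₀ (by positivity) hw]
  nlinarith [self_le_ath h1.le h2]

theorem one_le_ge {r : ℝ} (h1 : 0 ≤ r) (h2 : r < 1) : 1 ≤ ge r := by
  rcases h1.lt_or_eq with h | h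
  · rw [ge_of_ne h.ne']; exact one_le_gg h h2
  · subst h; simp

/-- The derivative of `gg`. -/
theorem hasDerivAt_gg {r : ℝ} (h1 : 0 < r) (h2 : r < 1) :
    HasDerivAt gg (((1 + r ^ 2) * ath r - r) / ((1 - r ^ 2) * ath r) ^ 2) r := by
  have hw := one_sub_sq_pos (by linarith : -1 < r) h2
  have ha := ath_pos h1 h2
  refine ((hasDerivAt_id r).div ((((hasDerivAt_pow 2 r).const_sub 1)).mul
    (hasDerivAt_ath (by linarith) h2)) (mul_pos hw ha).ne').congr_deriv ?_
  simp
  field_simp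
  ring

theorem gg_mono {s t : ℝ} (hs : 0 < s) (hst : s ≤ t) (ht : t < 1) : gg s ≤ gg t :=
  mono_of_deriv (fun _ a b => hasDerivAt_gg a b)
    (fun x a b => by
      have := self_le_ath a.le b
      refine div_nonneg ?_ (sq_nonneg _)
      nlinarith [sq_nonneg x, ath_pos a b]) hs hst ht

theorem ge_mono {s t : ℝ} (hs : 0 ≤ s) (hst : s ≤ t) (ht : t < 1) : ge s ≤ ge t := by
  rcases hs.lt_or_eq with h | h
  · rw [ge_of_ne h.ne', ge_of_ne (h.trans_le hst).ne']; exact gg_mono h hst ht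
  · subst h; simpa using one_le_ge hst ht

theorem continuousWithinAt_ge_zero : ContinuousWithinAt ge (Ico 0 1) 0 := by
  have hb : Tendsto (fun r : ℝ => 1 / (1 - r ^ 2)) (𝓝[Ico 0 1] 0) (𝓝 1) := by
    have : ContinuousAt (fun r : ℝ => 1 / (1 - r ^ 2)) 0 :=
      continuousAt_const.div (by fun_prop) (by norm_num)
    simpa using tendsto_nhdsWithin_of_tendsto_nhds this.tendsto
  rw [ContinuousWithinAt, ge_zero]
  refine tendsto_of_tendsto_of_tendsto_of_le_of_le' tendsto_const_nhds hb ?_ ?_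
  · filter_upwards [self_mem_nhdsWithin] with r hr using one_le_ge hr.1 hr.2
  · filter_upwards [self_mem_nhdsWithin] with r hr
    rcases hr.1.lt_or_eq with h | h
    · rw [ge_of_ne h.ne']; exact gg_le h hr.2
    · subst h; simp

theorem continuousOn_ge : ContinuousOn ge (Ico 0 1) := by
  intro r hr
  rcases hr.1.lt_or_eq with h | h
  · refine (((hasDerivAt_gg h hr.2).continuousAt).congr ?_).continuousWithinAt
    filter_upwards [eventually_ne_nhds h.ne'] with s hs using (ge_of_ne hs).symm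
  · subst h; exact continuousWithinAt_ge_zero

/-- The inverse of `cE` on `[0,1]`, clamped. -/
def cinv (z : ℝ) : ℝ := Function.invFunOn cE (Icc 0 1) (max 0 (min z (log 2)))

theorem cinv_spec (z : ℝ) :
    cinv z ∈ Icc (0:ℝ) 1 ∧ cE (cinv z) = max 0 (min z (log 2)) := by
  have h : ∃ a ∈ Icc (0:ℝ) 1, cE a = max 0 (min z (log 2)) := by
    have hL := Real.log_two_gt_d9
    have := intermediate_value_Icc' (zero_le_one (α := ℝ)) continuous_cE.continuousOn
    rw [cE_one, cE_zero] at this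
    exact this ⟨le_max_left _ _, max_le (by linarith) (min_le_right _ _)⟩
  exact ⟨Function.invFunOn_mem h, Function.invFunOn_eq h⟩

theorem cE_cinv {z : ℝ} (h1 : 0 ≤ z) (h2 : z ≤ log 2) : cE (cinv z) = z := by
  rw [(cinv_spec z).2, min_eq_left h2, max_eq_right h1]

theorem cinv_cE {s : ℝ} (hs : s ∈ Icc (0:ℝ) 1) : cinv (cE s) = s :=
  strictAntiOn_cE.injOn (cinv_spec _).1 hs (cE_cinv (cE_mem hs).1 (cE_mem hs).2)

theorem cinv_of_ge {z : ℝ} (h : log 2 ≤ z) : cinv z = 0 := by
  refine strictAntiOn_cE.injOn (cinv_spec _).1 ⟨le_refl 0, zero_le_one⟩ ?_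
  rw [(cinv_spec z).2, min_eq_right h, cE_zero, max_eq_right]
  linarith [Real.log_two_gt_d9]

theorem cinv_of_nonpos {z : ℝ} (h : z ≤ 0) : cinv z = 1 := by
  refine strictAntiOn_cE.injOn (cinv_spec _).1 ⟨zero_le_one, le_refl 1⟩ ?_
  rw [(cinv_spec z).2, cE_one, max_eq_left]
  exact (min_le_left _ _).trans h

theorem cinv_lt_one {z : ℝ} (h : 0 < z) : cinv z < 1 := by
  refine (cinv_spec z).1.2.lt_of_ne fun e => ?_
  have := (cinv_spec z).2
  rw [e, cE_one] at this
  have : 0 < max 0 (min z (log 2)) := lt_max_of_lt_right (lt_min h (by linarith [Real.log_two_gt_d9]))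
  linarith

theorem cinv_pos {z : ℝ} (h : z < log 2) : 0 < cinv z := by
  refine (cinv_spec z).1.1.lt_of_ne fun e => ?_
  have := (cinv_spec z).2
  rw [← e, cE_zero] at this
  have : max 0 (min z (log 2)) < log 2 :=
    max_lt (by linarith [Real.log_two_gt_d9]) ((min_le_left _ _).trans_lt h)
  linarith

theorem antitone_cinv : Antitone cinv := by
  intro a b hab
  by_contra h
  rw [not_le] at h
  have := strictAntiOn_cE (cinv_spec a).1 (cinv_spec b).1 h
  rw [(cinv_spec a).2, (cinv_spec b).2] at this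
  have : max 0 (min a (log 2)) ≤ max 0 (min b (log 2)) := by gcongr
  linarith

theorem continuous_cinv : Continuous cinv := by
  rw [continuous_iff_continuousAt]
  intro z
  rw [ContinuousAt, tendsto_order]
  refine ⟨fun a ha => ?_, fun a ha => ?_⟩
  · rcases lt_or_ge a 0 with h | h
    · exact Eventually.of_forall fun y => h.trans_le (cinv_spec y).1.1
    · have ham : a ∈ Icc (0:ℝ) 1 := ⟨h, ha.le.trans (cinv_spec z).1.2⟩
      have := strictAntiOn_cE ham (cinv_spec z).1 ha
      rw [(cinv_spec z).2] at this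
      have hc : ContinuousAt (fun y => max 0 (min y (log 2))) z := by fun_prop
      filter_upwards [hc.eventually_lt continuousAt_const this] with y hy
      by_contra hh
      rw [not_lt] at hh
      have := strictAntiOn_cE.antitoneOn (cinv_spec y).1 ham hh
      rw [(cinv_spec y).2] at this
      linarith
  · rcases lt_or_ge 1 a with h | h
    · exact Eventually.of_forall fun y => (cinv_spec y).1.2.trans_lt h
    · have ham : a ∈ Icc (0:ℝ) 1 := ⟨(cinv_spec z).1.1.trans ha.le, h⟩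
      have := strictAntiOn_cE (cinv_spec z).1 ham ha
      rw [(cinv_spec z).2] at this
      have hc : ContinuousAt (fun y => max 0 (min y (log 2))) z := by fun_prop
      filter_upwards [continuousAt_const.eventually_lt hc this] with y hy
      by_contra hh
      rw [not_lt] at hh
      have := strictAntiOn_cE.antitoneOn ham (cinv_spec y).1 hh
      rw [(cinv_spec y).2] at this
      linarith

/-- Tangent-line bound for `Fe` as a function of `cE`. -/
theorem Fe_tangent {s t : ℝ} (hs : s ∈ Ico (0:ℝ) 1) (ht : t ∈ Ico (0:ℝ) 1) :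
    Fe t - (ge t - 1) * (cE s - cE t) ≤ Fe s := by
  have key : ∀ u, 0 < u → u < 1 → u / (1 - u ^ 2) - ath u - (ge t - 1) * ath u =
      ath u * (ge u - ge t) := by
    intro u a b
    have hw := one_sub_sq_pos (by linarith : -1 < u) b
    have ha := ath_pos a b
    rw [ge_of_ne a.ne', gg]
    field_simp
    ring
  have h := le_of_deriv_sign (F := fun u => Fe u + (ge t - 1) * cE u)
    (F' := fun u => u / (1 - u ^ 2) - ath u - (ge t - 1) * ath u)
    (convex_Ico 0 1)
    (fun u hu => ((hasDerivAt_Fe (by linarith [hu.1]) hu.2).continuousAt.add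
      (continuous_const.mul continuous_cE).continuousAt).continuousWithinAt)
    (fun u hu => by
      rw [interior_Ico] at hu
      exact ((hasDerivAt_Fe (by linarith [hu.1]) hu.2).add
        ((hasDerivAt_cE (by linarith [hu.1]) hu.2).const_mul (ge t - 1))).congr_deriv (by ring))
    ht hs
    (fun u hu => by
      rw [interior_Ico] at hu
      rw [key u hu.1 hu.2]
      exact ⟨fun h => mul_nonpos_of_nonneg_of_nonpos (ath_pos hu.1 hu.2).le
          (sub_nonpos.2 (ge_mono hu.1.le h ht.2)),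
        fun h => mul_nonneg (ath_pos hu.1 hu.2).le (sub_nonneg.2 (ge_mono ht.1 h hu.2))⟩)
  linarith

/-- A function with continuous subgradient is differentiable. -/
theorem hasDerivAt_of_subgrad {U σ : ℝ → ℝ} {s : Set ℝ} {x : ℝ} (hs : s ∈ 𝓝 x)
    (h : ∀ a ∈ s, ∀ b ∈ s, U a + σ a * (b - a) ≤ U b) (hc : ContinuousAt σ x) :
    HasDerivAt U (σ x) x := by
  rw [hasDerivAt_iff_isLittleO, Asymptotics.isLittleO_iff]
  intro c hcpos
  have h1 : ∀ᶠ y in 𝓝 x, dist (σ y) (σ x) < c := (Metric.tendsto_nhds.1 hc) c hcpos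
  filter_upwards [h1, hs] with y hy hys
  have a := h x (mem_of_mem_nhds hs) y hys
  have b := h y hys x (mem_of_mem_nhds hs)
  rw [Real.dist_eq] at hy
  simp only [Real.norm_eq_abs, smul_eq_mul]
  have e1 : 0 ≤ U y - U x - (y - x) * σ x := by linarith [mul_comm (y - x) (σ x)]
  rw [abs_of_nonneg e1]
  calc U y - U x - (y - x) * σ x ≤ (σ y - σ x) * (y - x) := by linarith [mul_comm (y - x) (σ x)]
    _ ≤ |(σ y - σ x) * (y - x)| := le_abs_self _
    _ ≤ c * |y - x| := by rw [abs_mul]; gcongr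

/-- The excess as a function of the normalised entropy. -/
def Rh (z : ℝ) : ℝ := Fe (cinv z)

/-- The slope of `Rh`. -/
def Sh (z : ℝ) : ℝ := -(ge (cinv z) - 1)

theorem cinv_mem_Ico {z : ℝ} (h : 0 < z) : cinv z ∈ Ico (0:ℝ) 1 :=
  ⟨(cinv_spec z).1.1, cinv_lt_one h⟩

theorem Rh_nonneg {z : ℝ} (h : 0 < z) : 0 ≤ Rh z :=
  Fe_nonneg (cinv_spec z).1.1 (cinv_lt_one h)

theorem Sh_nonpos {z : ℝ} (h : 0 < z) : Sh z ≤ 0 :=
  neg_nonpos.2 (sub_nonneg.2 (one_le_ge (cinv_spec z).1.1 (cinv_lt_one h)))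

theorem Rh_ge_tangent {t z : ℝ} (hz : 0 < z) (ht : t ∈ Ico (0:ℝ) 1) :
    Fe t - (ge t - 1) * (z - cE t) ≤ Rh z := by
  have h := Fe_tangent (cinv_mem_Ico hz) ht
  rcases le_or_gt z (log 2) with hl | hl
  · rwa [cE_cinv hz.le hl] at h
  · rw [cinv_of_ge hl.le, cE_zero] at h
    rw [Rh, cinv_of_ge hl.le]
    have := one_le_ge ht.1 ht.2
    nlinarith

theorem Rh_eq_tangent {z : ℝ} (hz : 0 < z) :
    Rh z = Fe (cinv z) - (ge (cinv z) - 1) * (z - cE (cinv z)) := by
  rcases le_or_gt z (log 2) with hl | hl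
  · rw [cE_cinv hz.le hl]; simp [Rh]
  · simp [Rh, cinv_of_ge hl.le]

theorem Rh_subgrad {a b : ℝ} (ha : 0 < a) (hb : 0 < b) : Rh a + Sh a * (b - a) ≤ Rh b := by
  have := Rh_ge_tangent hb (cinv_mem_Ico ha)
  rw [Rh_eq_tangent ha, Sh]; linarith

theorem continuousAt_Sh {z : ℝ} (hz : 0 < z) : ContinuousAt Sh z := by
  have : ContinuousOn Sh (Ioi 0) :=
    ((continuousOn_ge.comp continuous_cinv.continuousOn
      (fun y hy => cinv_mem_Ico hy)).sub continuousOn_const).neg
  exact this.continuousAt (Ioi_mem_nhds hz)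

theorem hasDerivAt_Rh {z : ℝ} (hz : 0 < z) : HasDerivAt Rh (Sh z) z :=
  hasDerivAt_of_subgrad (Ioi_mem_nhds hz) (fun _ ha _ hb => Rh_subgrad ha hb) (continuousAt_Sh hz)

theorem Rh_antitone {a b : ℝ} (ha : 0 < a) (hab : a ≤ b) : Rh b ≤ Rh a := by
  have := Rh_subgrad (ha.trans_le hab) ha
  nlinarith [Sh_nonpos (ha.trans_le hab)]

theorem Rh_cE {s : ℝ} (hs : s ∈ Ico (0:ℝ) 1) : Rh (cE s) = Fe s := by
  rw [Rh, cinv_cE ⟨hs.1, hs.2.le⟩]

/-- `z * ge (cinv z)` is monotone. -/
theorem mul_ge_mono {a b : ℝ} (ha : 0 < a) (hab : a ≤ b) :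
    a * ge (cinv a) ≤ b * ge (cinv b) := by
  have hb := ha.trans_le hab
  rcases lt_or_ge a (log 2) with h | h
  · have pa := cinv_pos h
    have e1 : a = cE (cinv a) := (cE_cinv ha.le h.le).symm
    rcases lt_or_ge b (log 2) with h' | h'
    · have pb := cinv_pos h'
      have e2 : b = cE (cinv b) := (cE_cinv hb.le h'.le).symm
      have := cg_antitone ⟨pb, cinv_lt_one hb⟩ ⟨pa, cinv_lt_one ha⟩ (antitone_cinv hab)
      simp only at this
      rw [← e1, ← e2] at this
      rwa [ge_of_ne pa.ne', ge_of_ne pb.ne']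
    · rw [ge_of_ne pa.ne', cinv_of_ge h', ge_zero, mul_one]
      have := cg_le_log_two pa (cinv_lt_one ha)
      rw [← e1] at this
      linarith
  · simpa [cinv_of_ge h, cinv_of_ge (h.trans hab)] using hab

/-- The truncated inverse of `phiE`. -/
def tt (u : ℝ) : ℝ := min (cinv (log 2 - u)) (3 / 10)

/-- The second convex excess function. -/
def Rt (u : ℝ) : ℝ := Fe (tt u) + (ge (tt u) - 1) * (u - phiE (tt u))

/-- The slope of `Rt`. -/
def St (u : ℝ) : ℝ := ge (tt u) - 1

theorem tt_mem (u : ℝ) : tt u ∈ Icc (0:ℝ) (3 / 10) :=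
  ⟨le_min (cinv_spec _).1.1 (by norm_num), min_le_right _ _⟩

theorem tt_mem' (u : ℝ) : tt u ∈ Ico (0:ℝ) 1 :=
  ⟨(tt_mem u).1, (tt_mem u).2.trans_lt (by norm_num)⟩

theorem St_nonneg (u : ℝ) : 0 ≤ St u := sub_nonneg.2 (one_le_ge (tt_mem' u).1 (tt_mem' u).2)

theorem St_le (u : ℝ) : St u ≤ gg (3 / 10) - 1 := by
  have := ge_mono (tt_mem u).1 (tt_mem u).2 (by norm_num : (3:ℝ)/10 < 1)
  rw [ge_of_ne (by norm_num : (3:ℝ)/10 ≠ 0)] at this
  simp only [St]; linarith

theorem phiE_tt (u : ℝ) : phiE (tt u) = max 0 (min u (phiE (3 / 10))) := by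
  have h3 : phiE (3/10) ∈ Icc (0:ℝ) (log 2) := by
    have := cE_mem (s := 3/10) ⟨by norm_num, by norm_num⟩
    simp only [cE, mem_Icc] at this ⊢
    constructor <;> linarith
  have e : phiE (cinv (log 2 - u)) = max 0 (min u (log 2)) := by
    have := (cinv_spec (log 2 - u)).2
    simp only [cE] at this
    rcases le_total u 0 with h | h
    · rw [max_eq_left ((min_le_left _ _).trans h)]
      rw [min_eq_right (by linarith), max_eq_right (by linarith [Real.log_two_gt_d9])] at this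
      linarith
    · rw [min_eq_left (by linarith)] at this
      rcases le_total u (log 2) with h' | h'
      · rw [min_eq_left h', max_eq_right h]
        rw [max_eq_right (by linarith)] at this; linarith
      · rw [min_eq_right h', max_eq_right (by linarith [Real.log_two_gt_d9])]
        rw [max_eq_left (by linarith)] at this; linarith
  have hm : phiE (tt u) = min (phiE (cinv (log 2 - u))) (phiE (3/10)) := by
    unfold tt
    rcases le_total (cinv (log 2 - u)) (3/10) with h | h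
    · rw [min_eq_left h, min_eq_left (strictMonoOn_phiE.monotoneOn (cinv_spec _).1
        ⟨by norm_num, by norm_num⟩ h)]
    · rw [min_eq_right h, min_eq_right (strictMonoOn_phiE.monotoneOn
        ⟨by norm_num, by norm_num⟩ (cinv_spec _).1 h)]
  rw [hm, e]
  rcases le_total u 0 with h | h
  · rw [max_eq_left ((min_le_left _ _).trans h), max_eq_left ((min_le_left _ _).trans h),
      min_eq_left h3.1]
  · rw [max_eq_right (le_min h (h3.1.trans h3.2)), max_eq_right (le_min h h3.1),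
      min_assoc, min_eq_right h3.2]

theorem Rt_ge_tangent {s : ℝ} (u : ℝ) (hs1 : 0 ≤ s) (hs2 : s ≤ 3 / 10) :
    Fe s + (ge s - 1) * (u - phiE s) ≤ Rt u := by
  have hs : s ∈ Ico (0:ℝ) 1 := ⟨hs1, hs2.trans_lt (by norm_num)⟩
  have h := Fe_tangent (tt_mem' u) hs
  simp only [cE] at h
  rw [Rt]
  have hp := phiE_tt u
  have b1 := one_le_ge hs.1 hs.2
  have b2 := one_le_ge (tt_mem' u).1 (tt_mem' u).2
  rcases lt_or_ge u 0 with hu | hu
  · rw [max_eq_left ((min_le_left _ _).trans hu.le)] at hp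
    have : tt u = 0 := strictMonoOn_phiE.injOn ⟨(tt_mem u).1, (tt_mem' u).2.le⟩
      ⟨le_refl 0, zero_le_one⟩ (hp.trans phiE_zero.symm)
    rw [this, phiE_zero, Fe_zero] at h
    simp only [this, ge_zero, Fe_zero, phiE_zero]
    nlinarith
  · rcases le_total u (phiE (3/10)) with h' | h'
    · rw [min_eq_left h', max_eq_right hu] at hp
      rw [hp] at h ⊢
      nlinarith
    · rw [min_eq_right h', max_eq_right (phiE_nonneg (by norm_num) (by norm_num))] at hp
      have : ge s ≤ ge (tt u) := by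
        refine ge_mono hs1 ?_ (tt_mem' u).2
        have : tt u = 3/10 := strictMonoOn_phiE.injOn ⟨(tt_mem u).1, (tt_mem' u).2.le⟩
          ⟨by norm_num, by norm_num⟩ hp
        rwa [this]
      rw [hp] at h ⊢
      nlinarith

theorem Rt_subgrad (a b : ℝ) : Rt a + St a * (b - a) ≤ Rt b := by
  have := Rt_ge_tangent b (tt_mem a).1 (tt_mem a).2
  simp only [Rt, St] at this ⊢; linarith

theorem continuous_tt : Continuous tt :=
  (continuous_cinv.comp (continuous_const.sub continuous_id)).min continuous_const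

theorem continuous_St : Continuous St :=
  (continuousOn_ge.comp_continuous continuous_tt tt_mem').sub continuous_const

theorem hasDerivAt_Rt (u : ℝ) : HasDerivAt Rt (St u) u :=
  hasDerivAt_of_subgrad univ_mem (fun a _ b _ => Rt_subgrad a b) continuous_St.continuousAt

theorem Rt_mono : Monotone Rt := by
  intro a b hab
  have := Rt_subgrad a b
  nlinarith [St_nonneg a]

theorem Rt_zero : Rt 0 = 0 := by
  have h := phiE_tt 0
  rw [min_eq_left (phiE_nonneg (by norm_num) (by norm_num)), max_self] at h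
  have : tt 0 = 0 := strictMonoOn_phiE.injOn ⟨(tt_mem 0).1, (tt_mem' 0).2.le⟩
    ⟨le_refl 0, zero_le_one⟩ (h.trans phiE_zero.symm)
  simp [Rt, this]

theorem Rt_phiE {r : ℝ} (h1 : 0 ≤ r) (h2 : r ≤ 3 / 10) : Rt (phiE r) = Fe r := by
  have h := phiE_tt (phiE r)
  rw [min_eq_left (strictMonoOn_phiE.monotoneOn ⟨h1, by linarith⟩ ⟨by norm_num, by norm_num⟩ h2),
    max_eq_right (phiE_nonneg (by linarith) (by linarith))] at h
  have : tt (phiE r) = r := strictMonoOn_phiE.injOn ⟨(tt_mem _).1, (tt_mem' _).2.le⟩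
    ⟨h1, by linarith⟩ h
  simp [Rt, this]

theorem Rt_phiE_le {r : ℝ} (h1 : 0 ≤ r) (h2 : r < 1) : Rt (phiE r) ≤ Fe r := by
  have h := Fe_tangent (s := r) ⟨h1, h2⟩ (tt_mem' (phiE r))
  simp only [cE] at h
  rw [Rt]; linarith

/-- `gg' ≤ 8/5 * ath` on `(0, 3/10]`. -/
theorem gg_deriv_le {r : ℝ} (h1 : 0 < r) (h2 : r ≤ 3 / 10) :
    ((1 + r ^ 2) * ath r - r) / ((1 - r ^ 2) * ath r) ^ 2 ≤ 8 / 5 * ath r := by
  have h2' : r < 1 := h2.trans_lt (by norm_num)
  have hw := one_sub_sq_pos (by linarith : -1 < r) h2'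
  have ha := ath_pos h1 h2'
  have lo := le_ath h1.le h2'
  have hi := ath_le h1.le h2'
  have hu : r ^ 2 ≤ 9 / 100 := by nlinarith
  rw [div_le_iff₀ (by positivity)]
  have e1 : (1 + r ^ 2) * ath r - r ≤ r ^ 3 * (7 / 5) := by
    have : r ^ 3 / (3 * (1 - r ^ 2)) * (1 + r ^ 2) ≤ r ^ 3 * (2/5) := by
      rw [div_mul_eq_mul_div, div_le_iff₀ (by positivity), mul_assoc]
      gcongr
      nlinarith
    nlinarith [mul_le_mul_of_nonneg_left hi (show (0:ℝ) ≤ 1 + r ^ 2 by positivity)]
  have e2 : r ^ 3 * (1 + r ^ 2) ≤ ath r ^ 3 :=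
    le_trans (by nlinarith [pow_pos h1 3, pow_pos h1 5, pow_pos h1 7, pow_pos h1 9])
      (pow_le_pow_left₀ (by positivity) lo 3)
  have e3 : (7:ℝ) / 5 ≤ 8 / 5 * ((1 - r ^ 2) ^ 2 * (1 + r ^ 2)) := by
    have a : (91:ℝ) / 100 ≤ 1 - r ^ 2 := by linarith
    have b : 1 - (9 / 100) ^ 2 ≤ 1 - (r ^ 2) ^ 2 := by gcongr
    have := mul_le_mul a b (by norm_num) hw.le
    nlinarith
  calc (1 + r ^ 2) * ath r - r ≤ r ^ 3 * (7 / 5) := e1
    _ ≤ r ^ 3 * (8 / 5 * ((1 - r ^ 2) ^ 2 * (1 + r ^ 2))) := by gcongr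
    _ = 8 / 5 * (1 - r ^ 2) ^ 2 * (r ^ 3 * (1 + r ^ 2)) := by ring
    _ ≤ 8 / 5 * (1 - r ^ 2) ^ 2 * ath r ^ 3 := by gcongr
    _ = 8 / 5 * ath r * ((1 - r ^ 2) * ath r) ^ 2 := by ring

theorem St_lipschitz {a b : ℝ} (hab : a ≤ b) : St b - St a ≤ 8 / 5 * (b - a) := by
  have hm : AntitoneOn (fun t => ge t - 8 / 5 * phiE t) (Icc 0 (3/10)) := by
    refine antitoneOn_of_hasDerivWithinAt_nonpos
      (f' := fun r => ((1 + r ^ 2) * ath r - r) / ((1 - r ^ 2) * ath r) ^ 2 - 8 / 5 * ath r)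
      (convex_Icc _ _) ?_ ?_ ?_
    · exact (continuousOn_ge.mono (fun x hx => ⟨hx.1, hx.2.trans_lt (by norm_num)⟩)).sub
        (continuous_const.mul continuous_phiE).continuousOn
    · intro t ht; rw [interior_Icc] at ht
      have ht1 : t < 1 := ht.2.trans (by norm_num)
      refine (((hasDerivAt_gg ht.1 ht1).congr_of_eventuallyEq ?_).sub
        ((hasDerivAt_phiE (by linarith [ht.1]) ht1).const_mul _)).hasDerivWithinAt
      filter_upwards [eventually_ne_nhds ht.1.ne'] with s hs using ge_of_ne hs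
    · intro t ht; rw [interior_Icc] at ht
      exact sub_nonpos.2 (gg_deriv_le ht.1 ht.2.le)
  have hmono : tt a ≤ tt b := min_le_min (antitone_cinv (by linarith)) le_rfl
  have := hm (tt_mem a) (tt_mem b) hmono
  simp only at this
  have hp : phiE (tt b) - phiE (tt a) ≤ b - a := by
    rw [phiE_tt, phiE_tt]
    simp only [max_def, min_def]
    split_ifs <;> linarith
  simp only [St]; linarith

/-- Increments of `Rt` over increments from `0`. -/
theorem Rt_add_le {a d : ℝ} (ha : 0 ≤ a) (hd : 0 ≤ d) :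
    Rt (a + d) - Rt a ≤ Rt d + 8 / 5 * a * d := by
  have hm : AntitoneOn (fun v => Rt (a + v) - Rt v - 8 / 5 * a * v) (Icc 0 d) := by
    refine antitoneOn_of_hasDerivWithinAt_nonpos (f' := fun v => St (a + v) - St v - 8 / 5 * a)
      (convex_Icc _ _) ?_ ?_ ?_
    · intro v _
      exact ((((hasDerivAt_Rt (a + v)).comp_const_add a v).sub (hasDerivAt_Rt v)).sub
        ((hasDerivAt_id v).const_mul (8 / 5 * a))).continuousAt.continuousWithinAt
    · intro v _
      exact ((((hasDerivAt_Rt (a + v)).comp_const_add a v).sub (hasDerivAt_Rt v)).sub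
        ((hasDerivAt_id v).const_mul (8 / 5 * a))).congr_deriv (by simp) |>.hasDerivWithinAt
    · intro v hv
      have := St_lipschitz (a := v) (b := a + v) (by linarith)
      linarith
  have := hm ⟨le_refl 0, hd⟩ ⟨hd, le_refl d⟩ hd
  simp only [add_zero, Rt_zero, mul_zero, sub_zero] at this
  linarith

end Vale.P322
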