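import Vale.Agent.P322.Envelope

/-!
# The supersolution correction `eta`
-/

noncomputable section

namespace Vale.P322

open Real Set

theorem hasDerivAt_eta {r : ℝ} (h1 : -1 < r) (h2 : r < 1) : HasDerivAt eta (etaD r) r := by
  refine ((((hasDerivAt_pow 2 r).const_mul (13 / 25)).const_add (37 / 25)).mul
    (hasDerivAt_cE h1 h2)).const_sub 1 |>.congr_deriv ?_
  simp [etaD, kc]
  ring

theorem continuous_eta : Continuous eta := by
  unfold eta kc
  exact continuous_const.sub ((by fun_prop : Continuous fun r : ℝ => 37 / 25 + 13 / 25 * r ^ 2).mul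
    continuous_cE)

theorem eta_one : eta 1 = 1 := by simp [eta, cE_one]

theorem eta_nonneg {r : ℝ} (h1 : 3 / 10 ≤ r) (h2 : r < 1) : 0 ≤ eta r := by
  have hu : (9:ℝ) / 100 ≤ r ^ 2 := by nlinarith
  have hu1 : r ^ 2 < 1 := by nlinarith
  have hp := half_sq_le_phiE (by linarith : -1 ≤ r) h2.le
  have hc : cE r ≤ 6931471808 / 10000000000 - r ^ 2 / 2 := by
    simp only [cE]; linarith [Real.log_two_lt_d9]
  have hk : 0 ≤ kc r := by simp only [kc]; positivity
  have h3 : kc r * cE r ≤ kc r * (6931471808 / 10000000000 - r ^ 2 / 2) := by gcongr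
  simp only [eta]
  simp only [kc] at *
  nlinarith

theorem eta_ineq {r : ℝ} (h1 : 3 / 10 ≤ r) (h2 : r < 1) :
    2 * eta r + 2 * (Fe r + cE r * (gg r - 1)) ≤ r * etaD r + (gg r - 1) * (1 - eta r) := by
  have r0 : 0 < r := by linarith
  have hw := one_sub_sq_pos (by linarith : -1 < r) h2
  have hA := ath_pos r0 h2
  have hc := cE_pos (by linarith : -1 < r) h2
  have e : r * etaD r + (gg r - 1) * (1 - eta r) - (2 * eta r + 2 * (Fe r + cE r * (gg r - 1))) =
      4 * log 2 - 2 - 13 / 25 *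
        ((1 - r ^ 2) * r * ath r + cE r * (r / ath r) + cE r * (1 + r ^ 2)) := by
    simp only [etaD, eta, kc, Fe, gg, cE]
    field_simp
    ring
  rw [← sub_nonneg, e]
  have hc2 : cE r ≤ log 2 - r ^ 2 / 2 - (r ^ 2) ^ 2 / 12 := by
    have := half_sq_le_phiE' r0.le h2
    simp only [cE]; linarith [show (r ^ 2) ^ 2 = r ^ 4 by ring]
  have hd : r / ath r ≤ 1 - r ^ 2 / 3 + (r ^ 2) ^ 2 / 9 := by
    rw [div_le_iff₀ hA]
    have hq : 0 ≤ 1 - r ^ 2 / 3 + (r ^ 2) ^ 2 / 9 := by nlinarith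
    have := mul_le_mul_of_nonneg_left (le_ath r0.le h2) hq
    nlinarith [pow_pos r0 7]
  have ha : (1 - r ^ 2) * r * ath r ≤ r ^ 2 - 2 / 3 * (r ^ 2) ^ 2 := by
    have := mul_le_mul_of_nonneg_left (ath_le r0.le h2) (mul_nonneg hw.le r0.le)
    have e2 : (1 - r ^ 2) * r * (r + r ^ 3 / (3 * (1 - r ^ 2))) = r ^ 2 - 2 / 3 * (r ^ 2) ^ 2 := by
      field_simp; ring
    linarith
  have hu1 : r ^ 2 < 1 := by nlinarith
  have hu0 : 0 < r ^ 2 := by positivity
  generalize r ^ 2 = u at *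
  have h3 : cE r * (r / ath r) + cE r * (1 + u) ≤
      (log 2 - u / 2 - u ^ 2 / 12) * (2 + 2 / 3 * u + u ^ 2 / 9) := by
    calc cE r * (r / ath r) + cE r * (1 + u) ≤ cE r * (1 - u / 3 + u ^ 2 / 9) + cE r * (1 + u) := by
          gcongr
      _ = cE r * (2 + 2 / 3 * u + u ^ 2 / 9) := by ring
      _ ≤ _ := by gcongr
  have hL := Real.log_two_gt_d9
  nlinarith [mul_le_mul_of_nonneg_left hL.le
    (show (0:ℝ) ≤ 100 / 13 - (2 + 2 / 3 * u + u ^ 2 / 9) by nlinarith),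
    mul_nonneg hu0.le (sq_nonneg (u - 1/4)), sq_nonneg (u - 1/4), mul_nonneg hu0.le hu0.le]

end Vale.P322
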