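import Vale.Agent.P322.Defs
import Mathlib.Analysis.SpecialFunctions.Log.NegMulLog

/-!
# Elementary facts about the scalar functions
-/

noncomputable section

namespace Vale.P322

open Real Set

theorem continuous_phiE : Continuous phiE := by
  unfold phiE
  have h := Real.continuous_mul_log
  exact ((h.comp (continuous_const.add continuous_id)).add
    (h.comp (continuous_const.sub continuous_id))).div_const 2

theorem continuous_cE : Continuous cE := continuous_const.sub continuous_phiE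

theorem phiE_one : phiE 1 = log 2 := by
  norm_num [phiE]

theorem cE_one : cE 1 = 0 := by simp [cE, phiE_one]

theorem continuousOn_ath : ContinuousOn ath (Ioo (-1) 1) :=
  fun _ hx => (hasDerivAt_ath hx.1 hx.2).continuousAt.continuousWithinAt

/-- A function with nonnegative derivative on `(0,1)`, continuous on `[0,1)`, vanishing at `0`. -/
theorem nonneg_of_deriv_nonneg {F F' : ℝ → ℝ} (h0 : F 0 = 0)
    (hd : ∀ x, 0 ≤ x → x < 1 → HasDerivAt F (F' x) x)
    (hp : ∀ x, 0 < x → x < 1 → 0 ≤ F' x) {x : ℝ} (h1 : 0 ≤ x) (h2 : x < 1) : 0 ≤ F x := by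
  have hm : MonotoneOn F (Ico 0 1) := by
    refine monotoneOn_of_hasDerivWithinAt_nonneg (f' := F') (convex_Ico 0 1)
      (fun y hy => (hd y hy.1 hy.2).continuousAt.continuousWithinAt) ?_ ?_
    · intro y hy; rw [interior_Ico] at hy
      exact (hd y hy.1.le hy.2).hasDerivWithinAt
    · intro y hy; rw [interior_Ico] at hy
      exact hp y hy.1 hy.2
  have := hm ⟨le_refl (0:ℝ), by norm_num⟩ ⟨h1, h2⟩ h1
  linarith

theorem le_ath {x : ℝ} (h1 : 0 ≤ x) (h2 : x < 1) : x + x ^ 3 / 3 ≤ ath x := by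
  have := nonneg_of_deriv_nonneg (F := fun t => ath t - (t + t ^ 3 / 3))
    (F' := fun t => 1 / (1 - t ^ 2) - (1 + t ^ 2)) (by simp)
    (fun t a b => ((hasDerivAt_ath (by linarith) b).sub
      ((hasDerivAt_id t).add ((hasDerivAt_pow 3 t).div_const 3))).congr_deriv (by simp))
    (fun t a b => by
      have hw := one_sub_sq_pos (by linarith : -1 < t) b
      rw [sub_nonneg, le_div_iff₀ hw]; nlinarith [sq_nonneg t, sq_nonneg (t^2)])
    h1 h2
  simpa using this

theorem self_le_ath {x : ℝ} (h1 : 0 ≤ x) (h2 : x < 1) : x ≤ ath x := by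
  have := le_ath h1 h2
  have : 0 ≤ x ^ 3 := by positivity
  linarith

theorem ath_nonneg {x : ℝ} (h1 : 0 ≤ x) (h2 : x < 1) : 0 ≤ ath x :=
  h1.trans (self_le_ath h1 h2)

theorem ath_pos {x : ℝ} (h1 : 0 < x) (h2 : x < 1) : 0 < ath x :=
  h1.trans_le (self_le_ath h1.le h2)

theorem ath_le {x : ℝ} (h1 : 0 ≤ x) (h2 : x < 1) :
    ath x ≤ x + x ^ 3 / (3 * (1 - x ^ 2)) := by
  have := nonneg_of_deriv_nonneg (F := fun t => (t + t ^ 3 / (3 * (1 - t ^ 2))) - ath t)
    (F' := fun t => 2 * t ^ 4 / (3 * (1 - t ^ 2) ^ 2)) (by simp)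
    (fun t a b => by
      have hw := one_sub_sq_pos (by linarith : -1 < t) b
      refine (((hasDerivAt_id t).add ((hasDerivAt_pow 3 t).div
        ((((hasDerivAt_pow 2 t).const_sub 1)).const_mul 3) (by positivity))).sub
        (hasDerivAt_ath (by linarith) b)).congr_deriv ?_
      field_simp
      simp
      ring)
    (fun t a b => by positivity) h1 h2
  simpa using this

theorem strictMonoOn_ath : StrictMonoOn ath (Ioo (-1) 1) := by
  refine strictMonoOn_of_hasDerivWithinAt_pos (f' := fun x => 1 / (1 - x ^ 2)) (convex_Ioo (-1) 1)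
    continuousOn_ath ?_ ?_
  · intro y hy; rw [interior_Ioo] at hy
    exact (hasDerivAt_ath hy.1 hy.2).hasDerivWithinAt
  · intro y hy; rw [interior_Ioo] at hy
    exact one_div_pos.2 (one_sub_sq_pos hy.1 hy.2)

theorem phiE_nonneg' {x : ℝ} (h1 : 0 ≤ x) (h2 : x < 1) : 0 ≤ phiE x :=
  nonneg_of_deriv_nonneg (F := phiE) phiE_zero
    (fun t a b => hasDerivAt_phiE (by linarith) b) (fun t a b => ath_nonneg a.le b) h1 h2

theorem half_sq_le_phiE' {x : ℝ} (h1 : 0 ≤ x) (h2 : x < 1) :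
    x ^ 2 / 2 + x ^ 4 / 12 ≤ phiE x := by
  have := nonneg_of_deriv_nonneg (F := fun t => phiE t - (t ^ 2 / 2 + t ^ 4 / 12))
    (F' := fun t => ath t - (t + t ^ 3 / 3)) (by simp)
    (fun t a b => ((hasDerivAt_phiE (by linarith) b).sub
      (((hasDerivAt_pow 2 t).div_const 2).add ((hasDerivAt_pow 4 t).div_const 12))).congr_deriv
        (by simp; ring))
    (fun t a b => sub_nonneg.2 (le_ath a.le b)) h1 h2
  simpa using this

theorem half_sq_le_phiE {x : ℝ} (h1 : -1 ≤ x) (h2 : x ≤ 1) : x ^ 2 / 2 ≤ phiE x := by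
  have key : ∀ y, 0 ≤ y → y ≤ 1 → y ^ 2 / 2 ≤ phiE y := by
    intro y hy hy'
    rcases hy'.lt_or_eq with h | h
    · have := half_sq_le_phiE' hy h
      nlinarith [sq_nonneg (y ^ 2)]
    · subst h; rw [phiE_one]; linarith [Real.log_two_gt_d9]
  rcases le_total 0 x with h | h
  · exact key x h h2
  · have := key (-x) (by linarith) (by linarith)
    rw [phiE_neg] at this; simpa using this

theorem phiE_nonneg {x : ℝ} (h1 : -1 ≤ x) (h2 : x ≤ 1) : 0 ≤ phiE x :=
  le_trans (by positivity) (half_sq_le_phiE h1 h2)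

/-- `x * ath x - 2 * phiE x`. -/
def Fe (x : ℝ) : ℝ := x * ath x - 2 * phiE x

@[simp] theorem Fe_zero : Fe 0 = 0 := by simp [Fe]

theorem hasDerivAt_Fe {x : ℝ} (h1 : -1 < x) (h2 : x < 1) :
    HasDerivAt Fe (x / (1 - x ^ 2) - ath x) x := by
  refine (((hasDerivAt_id x).mul (hasDerivAt_ath h1 h2)).sub
    ((hasDerivAt_phiE h1 h2).const_mul 2)).congr_deriv ?_
  simp only [id_eq]; ring

theorem ath_le_div {x : ℝ} (h1 : 0 ≤ x) (h2 : x < 1) : ath x ≤ x / (1 - x ^ 2) := by
  have hw := one_sub_sq_pos (by linarith : -1 < x) h2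
  refine (ath_le h1 h2).trans ?_
  rw [show x / (1 - x ^ 2) = x + x ^ 3 / (1 - x ^ 2) by field_simp; ring]
  have : x ^ 3 / (3 * (1 - x ^ 2)) ≤ x ^ 3 / (1 - x ^ 2) := by
    gcongr; linarith
  linarith

theorem Fe_nonneg {x : ℝ} (h1 : 0 ≤ x) (h2 : x < 1) : 0 ≤ Fe x :=
  nonneg_of_deriv_nonneg Fe_zero
    (fun t a b => hasDerivAt_Fe (by linarith) b)
    (fun t a b => sub_nonneg.2 (ath_le_div a.le b)) h1 h2

theorem monotoneOn_Fe : MonotoneOn Fe (Ico 0 1) := by
  refine monotoneOn_of_hasDerivWithinAt_nonneg (f' := fun x => x / (1 - x ^ 2) - ath x)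
    (convex_Ico 0 1) (fun y hy => (hasDerivAt_Fe (by linarith [hy.1]) hy.2).continuousAt.continuousWithinAt)
    ?_ ?_
  · intro y hy; rw [interior_Ico] at hy
    exact (hasDerivAt_Fe (by linarith [hy.1]) hy.2).hasDerivWithinAt
  · intro y hy; rw [interior_Ico] at hy
    exact sub_nonneg.2 (ath_le_div hy.1.le hy.2)

theorem phiE_le_log_two_mul_sq' {x : ℝ} (h1 : 0 ≤ x) (h2 : x ≤ 1) :
    phiE x ≤ log 2 * x ^ 2 := by
  rcases eq_or_lt_of_le h1 with h | h
  · subst h; simp
  have hm : MonotoneOn (fun t => phiE t / t ^ 2) (Icc x 1) := by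
    refine monotoneOn_of_hasDerivWithinAt_nonneg (f' := fun t => Fe t / t ^ 3) (convex_Icc x 1)
      (continuous_phiE.continuousOn.div (continuous_pow 2).continuousOn
        (fun y hy => by have : 0 < y := h.trans_le hy.1; positivity)) ?_ ?_
    · intro y hy; rw [interior_Icc] at hy
      have hy0 : 0 < y := h.trans hy.1
      refine ((((hasDerivAt_phiE (by linarith) hy.2).div (hasDerivAt_pow 2 y)
        (by positivity))).congr_deriv ?_).hasDerivWithinAt
      simp only [Fe]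
      field_simp
      ring
    · intro y hy; rw [interior_Icc] at hy
      have hy0 : 0 < y := h.trans hy.1
      exact div_nonneg (Fe_nonneg hy0.le hy.2) (by positivity)
  have := hm ⟨le_refl x, h2⟩ ⟨h2, le_refl 1⟩ h2
  simp only [phiE_one, one_pow, div_one] at this
  rwa [div_le_iff₀ (by positivity)] at this

theorem phiE_le_log_two_mul_sq {x : ℝ} (h1 : -1 ≤ x) (h2 : x ≤ 1) :
    phiE x ≤ log 2 * x ^ 2 := by
  rcases le_total 0 x with h | h
  · exact phiE_le_log_two_mul_sq' h h2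
  · have := phiE_le_log_two_mul_sq' (x := -x) (by linarith) (by linarith)
    rw [phiE_neg] at this; simpa using this

theorem log_two_mul_le_cE {x : ℝ} (h1 : -1 ≤ x) (h2 : x ≤ 1) :
    log 2 * (1 - x ^ 2) ≤ cE x := by
  have := phiE_le_log_two_mul_sq h1 h2
  simp only [cE]; linarith

theorem phiE_lt_log_two {x : ℝ} (h1 : -1 < x) (h2 : x < 1) : phiE x < log 2 := by
  have h := phiE_le_log_two_mul_sq h1.le h2.le
  have := one_sub_sq_pos h1 h2
  nlinarith [Real.log_two_gt_d9]

theorem cE_pos {x : ℝ} (h1 : -1 < x) (h2 : x < 1) : 0 < cE x :=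
  sub_pos.2 (phiE_lt_log_two h1 h2)

theorem xX_pos {x : ℝ} (h1 : 0 ≤ x) (h2 : x < 1) : 0 < xX x := by
  have := cE_pos (by linarith) h2
  have := ath_nonneg h1 h2
  simp only [xX]; positivity

theorem strictAntiOn_cE : StrictAntiOn cE (Icc 0 1) := by
  refine strictAntiOn_of_hasDerivWithinAt_neg (f' := fun x => -ath x) (convex_Icc 0 1)
    continuous_cE.continuousOn ?_ ?_
  · intro y hy; rw [interior_Icc] at hy
    exact (hasDerivAt_cE (by linarith [hy.1]) hy.2).hasDerivWithinAt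
  · intro y hy; rw [interior_Icc] at hy
    exact neg_neg_of_pos (ath_pos hy.1 hy.2)

theorem strictMonoOn_phiE : StrictMonoOn phiE (Icc 0 1) := by
  intro a ha b hb hab
  have := strictAntiOn_cE ha hb hab
  simp only [cE] at this; linarith

theorem cE_mem {s : ℝ} (hs : s ∈ Icc (0:ℝ) 1) : cE s ∈ Icc 0 (log 2) := by
  have a := strictAntiOn_cE.antitoneOn ⟨le_refl (0:ℝ), zero_le_one⟩ hs hs.1
  have b := strictAntiOn_cE.antitoneOn hs ⟨zero_le_one, le_refl (1:ℝ)⟩ hs.2
  rw [cE_zero] at a; rw [cE_one] at b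
  exact ⟨b, a⟩

end Vale.P322
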