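import Vale.Agent.P322.CubeDefs
import Vale.Agent.P322.Scalar

/-!
# The mutual information of `(f(X), Y)` as an entropy deficit
-/

noncomputable section

namespace Vale.P322

open Real Finset

theorem sum_noiseKernel_left {n : ℕ} (ρ : ℝ) (y : Cube n) :
    ∑ x : Cube n, ∏ i, (1 + ρ * (sgn (x i) * sgn (y i))) / 2 = 1 := by
  rw [← Fintype.prod_sum (fun i b => (1 + ρ * (sgn b * sgn (y i))) / 2)]
  refine Finset.prod_eq_one fun i _ => ?_
  simp only [Fintype.sum_bool, sgn]
  cases y i <;> norm_num <;> ring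

theorem sum_noiseKernel_right {n : ℕ} (ρ : ℝ) (x : Cube n) :
    ∑ y : Cube n, ∏ i, (1 + ρ * (sgn (x i) * sgn (y i))) / 2 = 1 := by
  simp only [mul_comm (sgn (x _)) _]
  exact sum_noiseKernel_left ρ x

theorem noiseKernel_eq {n : ℕ} (ε : ℝ) (x y : Cube n) :
    (∏ i, (if x i = y i then 1 - ε else ε))
      = ∏ i, (1 + (1 - 2 * ε) * (sgn (x i) * sgn (y i))) / 2 := by
  refine Finset.prod_congr rfl fun i _ => ?_
  cases x i <;> cases y i <;> simp [sgn] <;> ring

/-- `p log (p / q) = p log p - p log q` with the convention `log 0 = 0`. -/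
theorem mul_log_div_eq {p q : ℝ} (h : q = 0 → p = 0) :
    p * log (p / q) = p * log p - p * log q := by
  by_cases hp : p = 0
  · simp [hp]
  · rw [log_div hp fun hq => hp (h hq)]; ring

theorem mutualInfo_jointLaw {n : ℕ} (f : Cube n → Bool) {ε : ℝ} (h0 : 0 ≤ ε) (h1 : ε ≤ 1 / 2) :
    mutualInfo (jointLaw f ε) =
      ((∑ y, phiE (Tn (1 - 2 * ε) (fun x => sgn (f x)) y)) / Fintype.card (Cube n)
        - phiE ((∑ x, sgn (f x)) / Fintype.card (Cube n))) / log 2 := by
  have hcard : (Fintype.card (Cube n) : ℝ) = 2 ^ n := by simp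
  rw [hcard]
  set ρ := 1 - 2 * ε with hρ
  set N : ℝ := 2 ^ n with hN
  have hN0 : 0 < N := by positivity
  let K : Cube n → Cube n → ℝ := fun x y => ∏ i, (1 + ρ * (sgn (x i) * sgn (y i))) / 2
  let T : Cube n → ℝ := Tn ρ (fun x => sgn (f x))
  have hT : ∀ y, T y = ∑ x, K x y * sgn (f x) := fun y => rfl
  have hK0 : ∀ x y, 0 ≤ K x y := by
    intro x y
    refine Finset.prod_nonneg fun i _ => ?_
    have : 0 ≤ ρ ∧ ρ ≤ 1 := ⟨by linarith, by linarith⟩
    cases x i <;> cases y i <;> simp [sgn] <;> linarith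
  have hK1 : ∀ y, ∑ x, K x y = 1 := sum_noiseKernel_left ρ
  set m := (∑ x, sgn (f x)) / N with hm
  have hTsum : ∑ y, T y = N * m := by
    simp only [hT]
    rw [Finset.sum_comm]
    simp only [← Finset.sum_mul, K, sum_noiseKernel_right, one_mul]
    rw [hm]; field_simp
  have hPb : ∀ b y, jointLaw f ε b y = (1 + sgn b * T y) / 2 / N := by
    intro b y
    have e : ∀ x, (if f x = b then (1 / N) * ∏ i, (if x i = y i then 1 - ε else ε) else 0)
        = K x y * ((1 + sgn b * sgn (f x)) / 2) / N := by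
      intro x
      have hk : (∏ i, (if x i = y i then 1 - ε else ε)) = K x y := noiseKernel_eq ε x y
      rw [hk]
      cases f x <;> cases b <;> simp [sgn] <;> ring
    simp only [jointLaw, ← hN, e, ← Finset.sum_div, hT]
    congr 1
    calc ∑ x, K x y * ((1 + sgn b * sgn (f x)) / 2)
        = (∑ x, K x y + sgn b * ∑ x, K x y * sgn (f x)) / 2 := by
          rw [Finset.mul_sum, ← Finset.sum_add_distrib, Finset.sum_div]
          exact Finset.sum_congr rfl fun x _ => by ring
      _ = _ := by rw [hK1]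
  have hPY : ∀ y, ∑ b', jointLaw f ε b' y = 1 / N := by
    intro y; simp only [Fintype.sum_bool, hPb, sgn]; norm_num; ring
  have hPB : ∀ b, ∑ y, jointLaw f ε b y = (1 + sgn b * m) / 2 := by
    intro b
    simp only [hPb]
    rw [← Finset.sum_div, ← Finset.sum_div, Finset.sum_add_distrib, ← Finset.mul_sum, hTsum]
    simp [hN]
    field_simp
  have hsgn : ∀ b, |sgn b| = 1 := by intro b; cases b <;> simp [sgn]
  have hTb : ∀ b y, 0 ≤ 1 + sgn b * T y := by
    intro b y
    have h : |T y| ≤ 1 := by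
      rw [hT]
      refine (Finset.abs_sum_le_sum_abs _ _).trans ?_
      simp only [abs_mul, hsgn, mul_one, abs_of_nonneg (hK0 _ y)]
      exact (hK1 y).le
    have := abs_le.1 h
    cases b <;> simp [sgn] <;> linarith
  have hzero : ∀ b y, 1 + sgn b * m = 0 → 1 + sgn b * T y = 0 := by
    intro b y hb
    have hs : ∑ y, (1 + sgn b * T y) = 0 := by
      rw [Finset.sum_add_distrib, ← Finset.mul_sum, hTsum]
      have : N * (1 + sgn b * m) = 0 := by rw [hb, mul_zero]
      simp; linarith
    exact (Finset.sum_eq_zero_iff_of_nonneg fun y _ => hTb b y).1 hs y (Finset.mem_univ y)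
  have hterm : ∀ b y, jointLaw f ε b y * Real.logb 2
        (jointLaw f ε b y / ((∑ b', jointLaw f ε b b') * ∑ a', jointLaw f ε a' y))
      = ((1 + sgn b * T y) * log (1 + sgn b * T y)
          - (1 + sgn b * T y) * log (1 + sgn b * m)) / 2 / N / log 2 := by
    intro b y
    rw [hPB, hPY, hPb, Real.logb]
    have e : (1 + sgn b * T y) / 2 / N / ((1 + sgn b * m) / 2 * (1 / N))
        = (1 + sgn b * T y) / (1 + sgn b * m) := by field_simp
    rw [e, ← mul_log_div_eq (hzero b y)]
    ring
  calc mutualInfo (jointLaw f ε)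
      = ∑ y, ∑ b, ((1 + sgn b * T y) * log (1 + sgn b * T y)
          - (1 + sgn b * T y) * log (1 + sgn b * m)) / 2 / N / log 2 := by
        simp only [mutualInfo, hterm]; rw [Finset.sum_comm]
    _ = ∑ y, (phiE (T y) - ((1 + T y) * log (1 + m) + (1 - T y) * log (1 - m)) / 2) / N
          / log 2 := by
        refine Finset.sum_congr rfl fun y _ => ?_
        simp only [Fintype.sum_bool, sgn, phiE]
        norm_num
        ring_nf
    _ = _ := by
        rw [← Finset.sum_div, ← Finset.sum_div, Finset.sum_sub_distrib, ← Finset.sum_div,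
          Finset.sum_add_distrib, ← Finset.sum_mul, ← Finset.sum_mul, Finset.sum_add_distrib,
          Finset.sum_sub_distrib, hTsum]
        simp only [Finset.sum_const, Finset.card_univ, nsmul_eq_mul, mul_one, phiE, hcard, T]
        field_simp

theorem one_sub_binEntropy {ε : ℝ} (_h0 : 0 ≤ ε) (_h1 : ε ≤ 1 / 2) :
    1 - Real.binEntropy ε / log 2 = phiE (1 - 2 * ε) / log 2 := by
  have hl : log 2 ≠ 0 := (log_pos one_lt_two).ne'
  have e : ∀ p : ℝ, 2 * p * log (2 * p) = 2 * p * (log 2 + log p) := by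
    intro p
    by_cases hp : p = 0
    · simp [hp]
    · rw [log_mul two_ne_zero hp]
  rw [binEntropy_eq_negMulLog_add_negMulLog_one_sub]
  simp only [negMulLog, phiE, show 1 + (1 - 2 * ε) = 2 * (1 - ε) by ring,
    show 1 - (1 - 2 * ε) = 2 * ε by ring, e]
  field_simp
  ring

end Vale.P322
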