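import Vale.Agent.P322.Cube
import Vale.Agent.P322.Eta

/-!
# The Courtade-Kumar inequality
-/

noncomputable section

namespace Vale.P322

open Real Set

/-- Backward comparison: a function that increases where positive and ends nonpositive is
nonpositive. -/
theorem nonpos_of_deriv {D : ℝ → ℝ} {a b : ℝ} (hc : ContinuousOn D (Icc a b))
    (hd : ∀ t, a ≤ t → t < b → 0 < D t → ∃ d, HasDerivAt D d t ∧ 0 ≤ d)
    (hb : D b ≤ 0) {x : ℝ} (hx : x ∈ Icc a b) : D x ≤ 0 := by
  by_contra h
  rw [not_le] at h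
  set S := Icc x b ∩ D ⁻¹' Iic 0 with hS
  have hcx : ContinuousOn D (Icc x b) := hc.mono (Icc_subset_Icc_left hx.1)
  have hSc : IsClosed S := hcx.preimage_isClosed_of_isClosed isClosed_Icc isClosed_Iic
  have hSn : S.Nonempty := ⟨b, ⟨hx.2, le_refl b⟩, hb⟩
  have hSb : BddBelow S := ⟨x, fun y hy => hy.1.1⟩
  set c := sInf S with hc'
  have hcS : c ∈ S := hSc.csInf_mem hSn hSb
  have hpos : ∀ t ∈ Ioo x c, 0 < D t := fun t ht => by
    by_contra h'
    rw [not_lt] at h'
    have := csInf_le hSb (show t ∈ S from ⟨⟨ht.1.le, ht.2.le.trans hcS.1.2⟩, h'⟩)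
    rw [← hc'] at this
    linarith [ht.2]
  have hm : MonotoneOn D (Icc x c) := by
    refine monotoneOn_of_deriv_nonneg (convex_Icc x c) (hcx.mono (Icc_subset_Icc_right hcS.1.2))
      ?_ ?_
    · intro t ht; rw [interior_Icc] at ht
      obtain ⟨d, h1, -⟩ := hd t (hx.1.trans ht.1.le) (ht.2.trans_le hcS.1.2) (hpos t ht)
      exact h1.differentiableAt.differentiableWithinAt
    · intro t ht; rw [interior_Icc] at ht
      obtain ⟨d, h1, h2⟩ := hd t (hx.1.trans ht.1.le) (ht.2.trans_le hcS.1.2) (hpos t ht)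
      rwa [h1.deriv]
  have := hm ⟨le_refl x, hcS.1.1⟩ ⟨hcS.1.1, le_refl c⟩ hcS.1.1
  have h0 : D c ≤ 0 := hcS.2
  linarith

/-- Dissipation bound at an interior time where the first hypothesis supplies a supersolution. -/
theorem super_ineq {r m I : ℝ} (hr1 : 3 / 10 ≤ r) (hr2 : r < 1) (hm : m ∈ Ioo (-1:ℝ) 1)
    (hI : phiE r - phiE m * eta r < I) (hIL : phiE m + I < log 2) :
    r * (ath r - phiE m * etaD r) ≤
      2 * I + (1 - m ^ 2) * Rh ((log 2 - phiE m - I) / (1 - m ^ 2)) := by
  have r0 : 0 < r := by linarith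
  have hw := one_sub_sq_pos hm.1 hm.2
  have hv := half_sq_le_phiE hm.1.le hm.2.le
  have hv0 : 0 ≤ phiE m := phiE_nonneg hm.1.le hm.2.le
  generalize phiE m = v at *
  set Z := phiE r - v * eta r with hZ
  have hzI : 0 < (log 2 - v - I) / (1 - m ^ 2) := div_pos (by linarith) hw
  have hzZ : (log 2 - v - I) / (1 - m ^ 2) ≤ (log 2 - v - Z) / (1 - m ^ 2) := by gcongr
  have hmono := mul_le_mul_of_nonneg_left (Rh_antitone hzI hzZ) hw.le
  have ht := mul_le_mul_of_nonneg_left
    (Rh_ge_tangent (hzI.trans_le hzZ) (t := r) ⟨r0.le, hr2⟩) hw.le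
  rw [ge_of_ne r0.ne', mul_sub, mul_left_comm _ (gg r - 1), mul_sub (1 - m ^ 2),
    mul_div_cancel₀ _ hw.ne'] at ht
  have he := mul_le_mul_of_nonneg_left (eta_ineq hr1 hr2) hv0
  have hF : 0 ≤ Fe r + cE r * (gg r - 1) := by
    have := Fe_nonneg r0.le hr2
    have := cE_pos (by linarith : -1 < r) hr2
    have : 0 ≤ gg r - 1 := sub_nonneg.2 (one_le_gg r0 hr2)
    positivity
  have hmu : m ^ 2 * (Fe r + cE r * (gg r - 1)) ≤ 2 * v * (Fe r + cE r * (gg r - 1)) := by
    gcongr; linarith
  have e : r * ath r = 2 * phiE r + Fe r := by simp only [Fe]; ring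
  simp only [cE] at *
  nlinarith

variable {n : ℕ}

/-- The conjecture in nats: the entropy deficit of the noisy function is at most that of a
dictator. -/
theorem deficit_le (f : Cube n → Bool) {ρ : ℝ} (h0 : 0 ≤ ρ) (h1 : ρ ≤ 1) :
    avg (fun y => phiE (Tn ρ (fun x => sgn (f x)) y)) - phiE (avg fun x => sgn (f x)) ≤
      phiE ρ := by
  set F : Cube n → ℝ := fun x => sgn (f x) with hF
  have hρ : 0 ≤ phiE ρ := phiE_nonneg (by linarith) h1
  by_cases hconst : ∀ x y, f x = f y
  · obtain ⟨x0⟩ : Nonempty (Cube n) := inferInstance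
    have : F = fun _ => sgn (f x0) := funext fun x => by rw [hF]; exact congrArg sgn (hconst x x0)
    rw [this]
    simp only [Tn_const, avg_const]
    linarith
  push Not at hconst
  obtain ⟨x0, y0, hxy⟩ := hconst
  obtain ⟨p, hp, q, hq⟩ : ∃ p, F p < 1 ∧ ∃ q, -1 < F q := by
    cases hx : f x0 <;> cases hy : f y0 <;> simp [hx, hy] at hxy
    · exact ⟨x0, by simp [hF, sgn, hx], y0, by simp [hF, sgn, hy]⟩
    · exact ⟨y0, by simp [hF, sgn, hy], x0, by simp [hF, sgn, hx]⟩
  have hFI : ∀ x, F x ∈ Icc (-1:ℝ) 1 := fun x => by cases hx : f x <;> simp [hF, sgn, hx]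
  have hmem : ∀ r, -1 < r → r < 1 → ∀ y, Tn r F y ∈ Ioo (-1:ℝ) 1 := fun r a b y =>
    Tn_mem a b hFI hp hq y
  set m := avg F with hm
  have hmI : m ∈ Ioo (-1:ℝ) 1 := by
    have := avg_mem_Ioo (hmem 0 (by norm_num) (by norm_num))
    rwa [avg_Tn] at this
  set I : ℝ → ℝ := fun r => avg (fun y => phiE (Tn r F y)) - phiE m with hI
  have hIc : Continuous I := by
    refine Continuous.sub ?_ continuous_const
    unfold avg
    exact (continuous_finsetSum _ fun y _ => continuous_phiE.comp (continuous_Tn F y)).div_const _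
  have hI1 : I 1 = log 2 - phiE m := by
    have : (fun y => phiE (Tn 1 F y)) = fun _ => log 2 := funext fun y => by
      rw [Tn_one]
      cases hy : f y <;> simp [hF, sgn, hy, phiE_neg, phiE_one]
    simp only [hI, this, avg_const]
  have hI0 : I 0 = 0 := by
    have : (fun y => phiE (Tn 0 F y)) = fun _ => phiE m := funext fun y => by rw [Tn_zero]
    simp only [hI, this, avg_const, sub_self]
  have hder : ∀ r, 0 < r → r < 1 → ∃ d, HasDerivAt I d r ∧ r * d = Jn (Tn r F) ∧
      phiE m + I r < log 2 ∧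
      2 * I r + (1 - m ^ 2) * Rh ((log 2 - phiE m - I r) / (1 - m ^ 2)) ≤ r * d ∧
      2 * I r + Rt (I r) ≤ r * d ∧ 2 * I r ≤ r * d := by
    intro r a b
    have hm' := hmem r (by linarith) b
    obtain ⟨d, hd, he⟩ := hasDerivAt_energy hm'
    have hE := avg_lt (f := fun y => phiE (Tn r F y)) (g := fun _ => log 2)
      fun y => phiE_lt_log_two (hm' y).1 (hm' y).2
    rw [avg_const] at hE
    have A := hypA n (Tn r F) hm'
    have B := hypB n (Tn r F) hm'
    rw [avg_Tn, ← hm] at A B
    have eI : avg (fun y => phiE (Tn r F y)) = phiE m + I r := by simp only [hI]; ring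
    rw [eI, ← he] at A
    rw [eI, ← he] at B
    rw [add_sub_cancel_left] at A B
    rw [sub_add_eq_sub_sub] at A
    have hlt : phiE m + I r < log 2 := by rw [← eI]; exact hE
    have hR : 0 ≤ (1 - m ^ 2) * Rh ((log 2 - phiE m - I r) / (1 - m ^ 2)) :=
      mul_nonneg (one_sub_sq_pos hmI.1 hmI.2).le
        (Rh_nonneg (div_pos (by linarith) (one_sub_sq_pos hmI.1 hmI.2)))
    exact ⟨d, hd.sub_const _, he, hlt, A, B, by linarith⟩
  change I ρ ≤ phiE ρ
  rcases eq_or_lt_of_le h0 with hz | hρ0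
  · rw [← hz, hI0, phiE_zero]
  by_cases hv : log 2 - 1 / 2 ≤ phiE m
  · have key := nonpos_of_deriv (D := fun r => I r - (log 2 - phiE m) * r ^ 2) (a := ρ) (b := 1)
      ((hIc.sub (continuous_const.mul (continuous_pow 2))).continuousOn)
      (fun t ta tb hpos => by
        have t0 : 0 < t := hρ0.trans_le ta
        obtain ⟨d, hd, -, -, -, -, h2⟩ := hder t t0 tb
        refine ⟨_, hd.sub ((hasDerivAt_pow 2 t).const_mul _), ?_⟩
        simp only [Nat.cast_ofNat, Nat.add_one_sub_one, pow_one]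
        refine nonneg_of_mul_nonneg_right ?_ t0
        nlinarith)
      (by simp [hI1]) (x := ρ) ⟨le_refl ρ, h1⟩
    have := half_sq_le_phiE (by linarith : -1 ≤ ρ) h1
    have : (log 2 - phiE m) * ρ ^ 2 ≤ 1 / 2 * ρ ^ 2 := by gcongr; linarith
    linarith
  -- small bias
  have big : ∀ r, 3 / 10 ≤ r → r ≤ 1 → I r ≤ phiE r - phiE m * eta r := by
    intro r ra rb
    have := nonpos_of_deriv (D := fun r => I r - (phiE r - phiE m * eta r)) (a := 3 / 10) (b := 1)
      ((hIc.sub (continuous_phiE.sub (continuous_const.mul continuous_eta))).continuousOn)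
      (fun t ta tb hpos => by
        have t0 : 0 < t := by linarith
        obtain ⟨d, hd, -, hL, hA, -, -⟩ := hder t t0 tb
        refine ⟨_, hd.sub ((hasDerivAt_phiE (by linarith) tb).sub
          ((hasDerivAt_eta (by linarith) tb).const_mul (phiE m))), ?_⟩
        have := super_ineq ta tb hmI (I := I t) (by linarith) hL
        refine nonneg_of_mul_nonneg_right ?_ t0
        linarith)
      (by simp [hI1, phiE_one, eta_one]) (x := r) ⟨ra, rb⟩
    linarith
  have hv0 : 0 ≤ phiE m := phiE_nonneg hmI.1.le hmI.2.le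
  rcases le_or_gt (3 / 10) ρ with hb | hs
  · rcases h1.lt_or_eq with h1' | h1'
    · have := big ρ hb h1
      have := mul_nonneg hv0 (eta_nonneg hb h1')
      linarith
    · rw [h1', hI1, phiE_one]; linarith
  · have h3 : I (3 / 10) ≤ phiE (3 / 10) := by
      have := big (3 / 10) le_rfl (by norm_num)
      have := mul_nonneg hv0 (eta_nonneg (le_refl (3 / 10 : ℝ)) (by norm_num))
      linarith
    have key := nonpos_of_deriv (D := fun r => I r - phiE r) (a := ρ) (b := 3 / 10)
      ((hIc.sub continuous_phiE).continuousOn)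
      (fun t ta tb hpos => by
        have t0 : 0 < t := hρ0.trans_le ta
        have t1 : t < 1 := tb.trans (by norm_num)
        obtain ⟨d, hd, -, -, -, hB, -⟩ := hder t t0 t1
        refine ⟨_, hd.sub (hasDerivAt_phiE (by linarith) t1), ?_⟩
        have h4 := Rt_mono (show phiE t ≤ I t by linarith)
        rw [Rt_phiE t0.le tb.le] at h4
        simp only [Fe] at h4
        refine nonneg_of_mul_nonneg_right ?_ t0
        linarith)
      (by linarith) (x := ρ) ⟨le_refl ρ, hs.le⟩
    linarith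

end Vale.P322
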