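import Vale.Agent.P322.Envelope

/-!
# A single edge, and averages over edges
-/

noncomputable section

namespace Vale.P322

open Real Set Finset

/-- `(a-b)(ath a - ath b)/4`. -/
def qE (a b : ℝ) : ℝ := (a - b) * (ath a - ath b) / 4

theorem qE_nonneg {a b : ℝ} (ha : a ∈ Ioo (-1:ℝ) 1) (hb : b ∈ Ioo (-1:ℝ) 1) : 0 ≤ qE a b := by
  unfold qE
  rcases le_total a b with h | h
  · have := strictMonoOn_ath.monotoneOn ha hb h
    nlinarith
  · have := strictMonoOn_ath.monotoneOn hb ha h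
    nlinarith

theorem qE_comm (a b : ℝ) : qE a b = qE b a := by unfold qE; ring

/-- Data of a pair. -/
theorem pair_decomp {a b : ℝ} (ha : a ∈ Ioo (-1:ℝ) 1) (hb : b ∈ Ioo (-1:ℝ) 1) :
    (|a - b| / 2 < 1 + (a + b) / 2 ∧ |a - b| / 2 < 1 - (a + b) / 2) ∧
    (phiE a + phiE b) / 2 - phiE ((a + b) / 2) =
      ((1 + (a + b) / 2) * phiE (|a - b| / 2 / (1 + (a + b) / 2))
        + (1 - (a + b) / 2) * phiE (|a - b| / 2 / (1 - (a + b) / 2))) / 2 ∧
    qE a b = |a - b| / 2 *
      ((ath (|a - b| / 2 / (1 + (a + b) / 2)) + ath (|a - b| / 2 / (1 - (a + b) / 2))) / 2) := by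
  wlog hab : b ≤ a generalizing a b
  · have := this hb ha (le_of_not_ge hab)
    rw [abs_sub_comm a b, add_comm a b, qE_comm, add_comm (phiE a)]
    exact this
  rw [abs_of_nonneg (sub_nonneg.2 hab)]
  have a1 : 0 < 1 + a := by linarith [ha.1]
  have a2 : 0 < 1 - a := by linarith [ha.2]
  have b1 : 0 < 1 + b := by linarith [hb.1]
  have b2 : 0 < 1 - b := by linarith [hb.2]
  have m1 : 0 < 1 + (a + b) / 2 := by linarith
  have m2 : 0 < 1 - (a + b) / 2 := by linarith
  refine ⟨⟨by linarith, by linarith⟩, ?_⟩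
  have e1 : (1:ℝ) + (a - b) / 2 / (1 + (a + b) / 2) = (1 + a) / (1 + (a + b) / 2) := by
    rw [one_add_div m1.ne']; congr 1; ring
  have e2 : (1:ℝ) - (a - b) / 2 / (1 + (a + b) / 2) = (1 + b) / (1 + (a + b) / 2) := by
    rw [one_sub_div m1.ne']; congr 1; ring
  have e3 : (1:ℝ) + (a - b) / 2 / (1 - (a + b) / 2) = (1 - b) / (1 - (a + b) / 2) := by
    rw [one_add_div m2.ne']; congr 1; ring
  have e4 : (1:ℝ) - (a - b) / 2 / (1 - (a + b) / 2) = (1 - a) / (1 - (a + b) / 2) := by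
    rw [one_sub_div m2.ne']; congr 1; ring
  constructor
  · have E1 : (1 + (a + b) / 2) * phiE ((a - b) / 2 / (1 + (a + b) / 2)) =
        ((1 + a) * (log (1 + a) - log (1 + (a + b) / 2))
          + (1 + b) * (log (1 + b) - log (1 + (a + b) / 2))) / 2 := by
      rw [phiE, e1, e2, Real.log_div a1.ne' m1.ne', Real.log_div b1.ne' m1.ne', mul_div_assoc',
        mul_add, ← mul_assoc, ← mul_assoc, mul_div_cancel₀ _ m1.ne', mul_div_cancel₀ _ m1.ne']
    have E2 : (1 - (a + b) / 2) * phiE ((a - b) / 2 / (1 - (a + b) / 2)) =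
        ((1 - b) * (log (1 - b) - log (1 - (a + b) / 2))
          + (1 - a) * (log (1 - a) - log (1 - (a + b) / 2))) / 2 := by
      rw [phiE, e3, e4, Real.log_div b2.ne' m2.ne', Real.log_div a2.ne' m2.ne', mul_div_assoc',
        mul_add, ← mul_assoc, ← mul_assoc, mul_div_cancel₀ _ m2.ne', mul_div_cancel₀ _ m2.ne']
    rw [E1, E2]
    simp only [phiE]
    ring
  · simp only [qE, ath, e1, e2, e3, e4, Real.log_div a1.ne' m1.ne', Real.log_div a2.ne' m2.ne',
      Real.log_div b1.ne' m1.ne', Real.log_div b2.ne' m2.ne']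
    ring

variable {Ω : Type*} [Fintype Ω]

/-- Uniform average. -/
def avg (f : Ω → ℝ) : ℝ := (∑ x, f x) / Fintype.card Ω

theorem avg_add (f g : Ω → ℝ) : avg (fun x => f x + g x) = avg f + avg g := by
  simp [avg, Finset.sum_add_distrib, add_div]

theorem avg_sub (f g : Ω → ℝ) : avg (fun x => f x - g x) = avg f - avg g := by
  simp [avg, Finset.sum_sub_distrib, sub_div]

theorem avg_smul (c : ℝ) (f : Ω → ℝ) : avg (fun x => c * f x) = c * avg f := by
  simp [avg, ← Finset.mul_sum, mul_div_assoc]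

theorem avg_mul_const (f : Ω → ℝ) (c : ℝ) : avg (fun x => f x * c) = avg f * c := by
  rw [mul_comm, ← avg_smul]; simp only [mul_comm c]

theorem avg_div (f : Ω → ℝ) (c : ℝ) : avg (fun x => f x / c) = avg f / c := by
  simp [avg, ← Finset.sum_div, div_right_comm]

theorem avg_le {f g : Ω → ℝ} (h : ∀ x, f x ≤ g x) : avg f ≤ avg g := by
  unfold avg; gcongr with x; exact h x

variable [Nonempty Ω]

theorem avg_const (c : ℝ) : avg (fun _ : Ω => c) = c := by
  simp [avg]

theorem avg_lt {f g : Ω → ℝ} (h : ∀ x, f x < g x) : avg f < avg g := by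
  unfold avg
  exact div_lt_div_of_pos_right (Finset.sum_lt_sum_of_nonempty univ_nonempty fun x _ => h x)
    (by exact_mod_cast Fintype.card_pos)

theorem avg_mem_Ioo {f : Ω → ℝ} {p q : ℝ} (h : ∀ x, f x ∈ Ioo p q) : avg f ∈ Ioo p q := by
  refine ⟨?_, ?_⟩
  · simpa [avg_const] using avg_lt (f := fun _ => p) (g := f) fun x => (h x).1
  · simpa [avg_const] using avg_lt (f := f) (g := fun _ => q) fun x => (h x).2

theorem avg_abs_ge (f : Ω → ℝ) : |avg f| ≤ avg fun x => |f x| := by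
  unfold avg
  rw [abs_div, Nat.abs_cast]
  gcongr
  exact Finset.abs_sum_le_sum_abs _ _

omit [Fintype Ω] [Nonempty Ω] in
/-- Tangent bound on `[0,1)`. -/
theorem tangent_le' {P P' : ℝ → ℝ} (hd : ∀ t, 0 ≤ t → t < 1 → HasDerivAt P (P' t) t)
    (hm : ∀ s t, 0 ≤ s → s ≤ t → t < 1 → P' s ≤ P' t)
    {c x : ℝ} (hc1 : 0 ≤ c) (hc2 : c < 1) (hx1 : 0 ≤ x) (hx2 : x < 1) :
    P c + P' c * (x - c) ≤ P x := by
  have := le_of_deriv_sign (F := fun t => P t - P' c * t) (F' := fun t => P' t - P' c)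
    (convex_Ico 0 1)
    (fun t ht => (((hd t ht.1 ht.2).continuousAt).sub
      (continuousAt_const.mul continuousAt_id)).continuousWithinAt)
    (fun t ht => by
      rw [interior_Ico] at ht
      exact (((hd t ht.1.le ht.2)).sub ((hasDerivAt_id t).const_mul (P' c))).congr_deriv (by simp))
    (c := c) (x := x) ⟨hc1, hc2⟩ ⟨hx1, hx2⟩
    (fun t ht => by
      rw [interior_Ico] at ht
      exact ⟨fun h => sub_nonpos.2 (hm t c ht.1.le h hc2),
        fun h => sub_nonneg.2 (hm c t hc1 h ht.2)⟩)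
  linarith [mul_sub (P' c) x c]

omit [Fintype Ω] [Nonempty Ω] in
theorem tangent_phiE {c : ℝ} (hc1 : 0 ≤ c) (hc2 : c < 1) :
    ∃ s, 0 ≤ s ∧ ∀ u, 0 ≤ u → u < 1 → phiE c + s * (u - c) ≤ phiE u :=
  ⟨ath c, ath_nonneg hc1 hc2, fun _ a b => tangent_le' (fun _ p q => hasDerivAt_phiE (by linarith) q)
    (fun s t p q r => strictMonoOn_ath.monotoneOn ⟨by linarith, by linarith⟩ ⟨by linarith, r⟩ q)
    hc1 hc2 a b⟩

omit [Fintype Ω] [Nonempty Ω] in
theorem Fe_deriv_mono {s t : ℝ} (hs : 0 ≤ s) (hst : s ≤ t) (ht : t < 1) :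
    s / (1 - s ^ 2) - ath s ≤ t / (1 - t ^ 2) - ath t := by
  have hd : ∀ u, -1 < u → u < 1 →
      HasDerivAt (fun u => u / (1 - u ^ 2) - ath u) (2 * u ^ 2 / (1 - u ^ 2) ^ 2) u := by
    intro u a b
    have hw := one_sub_sq_pos a b
    refine (((hasDerivAt_id u).div ((hasDerivAt_pow 2 u).const_sub 1) hw.ne').sub
      (hasDerivAt_ath a b)).congr_deriv ?_
    simp
    field_simp
    ring
  have hm : MonotoneOn (fun u => u / (1 - u ^ 2) - ath u) (Ico 0 1) :=
    monotoneOn_of_hasDerivWithinAt_nonneg (convex_Ico 0 1)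
      (fun u hu => (hd u (by linarith [hu.1]) hu.2).continuousAt.continuousWithinAt)
      (fun u hu => by
        rw [interior_Ico] at hu
        exact (hd u (by linarith [hu.1]) hu.2).hasDerivWithinAt)
      (fun u _ => by positivity)
  exact hm ⟨hs, hst.trans_lt ht⟩ ⟨hs.trans hst, ht⟩ hst

omit [Fintype Ω] [Nonempty Ω] in
theorem tangent_Fe {c : ℝ} (hc1 : 0 ≤ c) (hc2 : c < 1) :
    ∃ s, 0 ≤ s ∧ ∀ u, 0 ≤ u → u < 1 → Fe c + s * (u - c) ≤ Fe u :=
  ⟨c / (1 - c ^ 2) - ath c, sub_nonneg.2 (ath_le_div hc1 hc2), fun _ a b =>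
    tangent_le' (fun _ p q => hasDerivAt_Fe (by linarith) q)
      (fun _ _ p q r => Fe_deriv_mono p q r) hc1 hc2 a b⟩

omit [Fintype Ω] [Nonempty Ω] in
/-- `phiE x - x^2/2` has a tangent line below it with nonnegative slope. -/
theorem tangent_psi {c : ℝ} (hc1 : 0 ≤ c) (hc2 : c < 1) :
    ∃ s, 0 ≤ s ∧ ∀ u, 0 ≤ u → u < 1 →
      (phiE c - c ^ 2 / 2) + s * (u - c) ≤ phiE u - u ^ 2 / 2 := by
  refine ⟨ath c - c, sub_nonneg.2 (self_le_ath hc1 hc2), fun _ a b =>
    tangent_le' (P := fun u => phiE u - u ^ 2 / 2) (P' := fun u => ath u - u) (fun t p q =>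
      ((hasDerivAt_phiE (by linarith) q).sub ((hasDerivAt_pow 2 t).div_const 2)).congr_deriv
        (by simp)) ?_ hc1 hc2 a b⟩
  intro s t p q r
  have hd : ∀ u, -1 < u → u < 1 →
      HasDerivAt (fun u => ath u - u) (1 / (1 - u ^ 2) - 1) u := fun u x y =>
    (hasDerivAt_ath x y).sub (hasDerivAt_id u)
  have hm : MonotoneOn (fun u => ath u - u) (Ico 0 1) :=
    monotoneOn_of_hasDerivWithinAt_nonneg (convex_Ico 0 1)
      (fun u hu => (hd u (by linarith [hu.1]) hu.2).continuousAt.continuousWithinAt)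
      (fun u hu => by
        rw [interior_Ico] at hu
        exact (hd u (by linarith [hu.1]) hu.2).hasDerivWithinAt)
      (fun u hu => by
        rw [interior_Ico] at hu
        have := one_sub_sq_pos (by linarith [hu.1] : -1 < u) hu.2
        rw [sub_nonneg, le_div_iff₀ this]; nlinarith)
  exact hm ⟨p, q.trans_lt r⟩ ⟨p.trans q, r⟩ q

variable (a b : Ω → ℝ)

/-- Half the distance, pointwise. -/
def hh (x : Ω) : ℝ := |a x - b x| / 2
/-- The midpoint, pointwise. -/
def md (x : Ω) : ℝ := (a x + b x) / 2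

/-- A perspective sum over the two endpoints. -/
def persp (P : ℝ → ℝ) (h m : ℝ) : ℝ := ((1 + m) * P (h / (1 + m)) + (1 - m) * P (h / (1 - m))) / 2

variable {a b}

/-- Jensen for perspective sums. -/
theorem avg_persp_ge (ha : ∀ x, a x ∈ Ioo (-1:ℝ) 1) (hb : ∀ x, b x ∈ Ioo (-1:ℝ) 1)
    {P : ℝ → ℝ}
    (hP : ∀ c, 0 ≤ c → c < 1 → ∃ s, 0 ≤ s ∧ ∀ u, 0 ≤ u → u < 1 → P c + s * (u - c) ≤ P u) :
    persp P (|avg a - avg b| / 2) ((avg a + avg b) / 2) ≤
      avg fun x => persp P (hh a b x) (md a b x) := by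
  set m := (avg a + avg b) / 2 with hm
  set h := |avg a - avg b| / 2 with hh'
  have hd := (pair_decomp (avg_mem_Ioo ha) (avg_mem_Ioo hb)).1
  rw [← hm, ← hh'] at hd
  have h0 : 0 ≤ h := by positivity
  obtain ⟨s, hs0, hs⟩ := hP (h / (1 + m)) (div_nonneg h0 (by linarith))
    ((div_lt_one (by linarith)).2 hd.1)
  obtain ⟨t, ht0, ht⟩ := hP (h / (1 - m)) (div_nonneg h0 (by linarith))
    ((div_lt_one (by linarith)).2 hd.2)
  have key : ∀ x,
      (1 + md a b x) * ((P (h / (1 + m)) - s * (h / (1 + m))) / 2) + hh a b x * (s / 2)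
        + ((1 - md a b x) * ((P (h / (1 - m)) - t * (h / (1 - m))) / 2) + hh a b x * (t / 2)) ≤
        persp P (hh a b x) (md a b x) := by
    intro x
    have e := (pair_decomp (ha x) (hb x)).1
    have h0 : 0 ≤ hh a b x := div_nonneg (abs_nonneg _) (by norm_num)
    change hh a b x < 1 + md a b x ∧ hh a b x < 1 - md a b x at e
    have p1 : 0 < 1 + md a b x := by linarith
    have p2 : 0 < 1 - md a b x := by linarith
    have i1 := mul_le_mul_of_nonneg_left
      (hs _ (div_nonneg h0 p1.le) ((div_lt_one p1).2 e.1)) p1.le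
    have i2 := mul_le_mul_of_nonneg_left
      (ht _ (div_nonneg h0 p2.le) ((div_lt_one p2).2 e.2)) p2.le
    have c1 : (1 + md a b x) * (hh a b x / (1 + md a b x)) = hh a b x := by field_simp
    have c2 : (1 - md a b x) * (hh a b x / (1 - md a b x)) = hh a b x := by field_simp
    simp only [mul_add, mul_sub, mul_left_comm _ s, mul_left_comm _ t] at i1 i2
    rw [c1] at i1; rw [c2] at i2
    simp only [persp]
    linarith
  have A := avg_le key
  simp only [md, hh, avg_mul_const, avg_add, avg_sub, avg_const, avg_div] at A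
  rw [← hm] at A
  have hA : h ≤ avg (fun x => |a x - b x|) / 2 := by
    have := avg_abs_ge (fun x => a x - b x)
    rw [avg_sub] at this
    rw [hh']; linarith
  have c1 : (1 + m) * (h / (1 + m)) = h := by
    have : (1 + m) ≠ 0 := by linarith
    field_simp
  have c2 : (1 - m) * (h / (1 - m)) = h := by
    have : (1 - m) ≠ 0 := by linarith
    field_simp
  have := mul_le_mul_of_nonneg_left hA hs0
  have := mul_le_mul_of_nonneg_left hA ht0
  simp only [md, hh]
  calc persp P h m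
      = ((1 + m) * P (h / (1 + m)) - s * ((1 + m) * (h / (1 + m))) + s * h) / 2
        + ((1 - m) * P (h / (1 - m)) - t * ((1 - m) * (h / (1 - m))) + t * h) / 2 := by
          rw [c1, c2]; simp only [persp]; ring
    _ ≤ _ := by linarith

omit [Fintype Ω] [Nonempty Ω] in
theorem pair_delta (ha : ∀ x, a x ∈ Ioo (-1:ℝ) 1) (hb : ∀ x, b x ∈ Ioo (-1:ℝ) 1) (x : Ω) :
    (phiE (a x) + phiE (b x)) / 2 - phiE (md a b x) = persp phiE (hh a b x) (md a b x) :=
  (pair_decomp (ha x) (hb x)).2.1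

omit [Fintype Ω] [Nonempty Ω] in
theorem persp_Fe {h m : ℝ} (h1 : 1 + m ≠ 0) (h2 : 1 - m ≠ 0) :
    persp Fe h m = h * ((ath (h / (1 + m)) + ath (h / (1 - m))) / 2) - 2 * persp phiE h m := by
  simp only [persp, Fe]
  field_simp
  ring

omit [Fintype Ω] [Nonempty Ω] in
theorem pair_chi (ha : ∀ x, a x ∈ Ioo (-1:ℝ) 1) (hb : ∀ x, b x ∈ Ioo (-1:ℝ) 1) (x : Ω) :
    qE (a x) (b x) - 2 * persp phiE (hh a b x) (md a b x) = persp Fe (hh a b x) (md a b x) := by
  have e := pair_decomp (ha x) (hb x)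
  have h0 : (0:ℝ) ≤ |a x - b x| / 2 := by positivity
  rw [persp_Fe (by simp only [md]; linarith [e.1.1]) (by simp only [md]; linarith [e.1.2])]
  rw [e.2.2]
  rfl

end Vale.P322
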