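import Vale.Agent.P322.Pair

/-!
# The one-step inequality for the first hypothesis
-/

noncomputable section

namespace Vale.P322

open Real Set

theorem hasDerivAt_xX {s : ℝ} (h1 : -1 < s) (h2 : s < 1) :
    HasDerivAt xX (s / (1 - s ^ 2)) s := by
  refine (((hasDerivAt_id s).mul (hasDerivAt_ath h1 h2)).add (hasDerivAt_cE h1 h2)).congr_deriv ?_
  simp only [id_eq]; ring

theorem log_two_le_xX {s : ℝ} (h1 : 0 ≤ s) (h2 : s < 1) : log 2 ≤ xX s := by
  rw [xX_eq (by linarith) h2]
  have : log (1 - s ^ 2) ≤ 0 := Real.log_nonpos (by nlinarith) (by nlinarith)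
  linarith

theorem hasDerivAt_zf {s : ℝ} (h1 : 0 < s) (h2 : s < 1) :
    HasDerivAt (fun t => cE t / t) (-(xX s) / s ^ 2) s := by
  refine ((hasDerivAt_cE (by linarith) h2).div (hasDerivAt_id s) h1.ne').congr_deriv ?_
  simp only [id_eq, xX]
  field_simp
  ring

/-- The ratio for `kf`. -/
def bK (r : ℝ) : ℝ := kd r * r ^ 2 / xX r

/-- The ratio for `ath`. -/
def bA (r : ℝ) : ℝ := r ^ 2 / ((1 - r ^ 2) * xX r)

theorem bK_eq {r : ℝ} (h1 : 0 < r) (h2 : r < 1) : bK r = 1 - log 2 / xX r := by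
  have := xX_pos h1.le h2
  have e : kd r * r ^ 2 = xX r - log 2 := by
    rw [xX_eq (by linarith) h2, kd]; field_simp; ring
  rw [bK, e, sub_div, div_self this.ne']

theorem bK_mem {r : ℝ} (h1 : 0 < r) (h2 : r < 1) : bK r ∈ Icc (0:ℝ) 1 := by
  have hx := xX_pos h1.le h2
  refine ⟨?_, ?_⟩
  · have := kd_pos h1 h2
    unfold bK; positivity
  · rw [bK_eq h1 h2]
    have : 0 ≤ log 2 / xX r := div_nonneg (Real.log_nonneg (by norm_num)) hx.le
    linarith

theorem bK_mono {s t : ℝ} (hs : 0 < s) (hst : s ≤ t) (ht : t < 1) : bK s ≤ bK t := by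
  have h : xX s ≤ xX t := mono_of_deriv (fun u a b => hasDerivAt_xX (by linarith) b)
    (fun u a b => by have := one_sub_sq_pos (by linarith : -1 < u) b; positivity) hs hst ht
  rw [bK_eq hs (by linarith), bK_eq (by linarith) ht]
  have := xX_pos hs.le (by linarith)
  have := Real.log_two_gt_d9
  gcongr

theorem bA_nonneg {r : ℝ} (h1 : 0 < r) (h2 : r < 1) : 0 ≤ bA r := by
  have := xX_pos h1.le h2
  have := one_sub_sq_pos (by linarith : -1 < r) h2
  unfold bA; positivity

theorem bA_mono {s t : ℝ} (hs : 0 < s) (hst : s ≤ t) (ht : t < 1) : bA s ≤ bA t :=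
  mono_of_deriv
    (fun u a b => (hasDerivAt_pow 2 u).div
      (((hasDerivAt_pow 2 u).const_sub 1).mul (hasDerivAt_xX (by linarith) b))
      (mul_pos (one_sub_sq_pos (by linarith : -1 < u) b) (xX_pos a.le b)).ne')
    (fun u a b => by
      have hw := one_sub_sq_pos (by linarith : -1 < u) b
      have hL := log_two_le_xX a.le b
      have := Real.log_two_gt_d9
      refine div_nonneg ?_ (sq_nonneg _)
      simp only [Nat.cast_ofNat, Pi.mul_apply]
      rw [show (1 - u ^ 2) * (u / (1 - u ^ 2)) = u by field_simp]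
      norm_num
      nlinarith)
    hs hst ht

/-- If `P' s² = β(s) X(s)` with `β` monotone, then `P + β(r) z` is smallest at `r`. -/
theorem P_min {P P' : ℝ → ℝ} (hd : ∀ t, 0 < t → t < 1 → HasDerivAt P (P' t) t)
    {B : ℝ → ℝ} (hB : ∀ t, 0 < t → t < 1 → P' t = B t * xX t / t ^ 2)
    (hm : ∀ s t, 0 < s → s ≤ t → t < 1 → B s ≤ B t)
    {r s : ℝ} (hr1 : 0 < r) (hr2 : r < 1) (hs1 : 0 < s) (hs2 : s < 1) :
    P r + B r * (cE r / r) ≤ P s + B r * (cE s / s) := by
  refine le_of_deriv_sign (F := fun u => P u + B r * (cE u / u))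
    (F' := fun u => P' u + B r * (-(xX u) / u ^ 2)) (convex_Ioo 0 1) ?_ ?_ ⟨hr1, hr2⟩ ⟨hs1, hs2⟩ ?_
  · intro u hu
    exact ((hd u hu.1 hu.2).add ((hasDerivAt_zf hu.1 hu.2).const_mul _)).continuousAt.continuousWithinAt
  · intro u hu; rw [interior_Ioo] at hu
    exact (hd u hu.1 hu.2).add ((hasDerivAt_zf hu.1 hu.2).const_mul _)
  · intro u hu; rw [interior_Ioo] at hu
    have hx : 0 ≤ xX u / u ^ 2 := div_nonneg (xX_pos hu.1.le hu.2).le (sq_nonneg u)
    have e : P' u + B r * (-(xX u) / u ^ 2) = (B u - B r) * (xX u / u ^ 2) := by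
      rw [hB u hu.1 hu.2]; ring
    rw [e]
    exact ⟨fun h => mul_nonpos_of_nonpos_of_nonneg (sub_nonpos.2 (hm u r hu.1 h hr2)) hx,
      fun h => mul_nonneg (sub_nonneg.2 (hm r u hr1 h hu.2)) hx⟩

theorem kf_add_bK_min {r s : ℝ} (hr1 : 0 < r) (hr2 : r < 1) (hs1 : 0 < s) (hs2 : s < 1) :
    kf r + bK r * (cE r / r) ≤ kf s + bK r * (cE s / s) :=
  P_min (fun t a b => hasDerivAt_kf a b)
    (fun t a b => by have := xX_pos a.le b; simp only [bK]; field_simp)
    (fun _ _ a b c => bK_mono a b c) hr1 hr2 hs1 hs2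

theorem ath_add_bA_min {r s : ℝ} (hr1 : 0 < r) (hr2 : r < 1) (hs1 : 0 < s) (hs2 : s < 1) :
    ath r + bA r * (cE r / r) ≤ ath s + bA r * (cE s / s) :=
  P_min (fun t a b => hasDerivAt_ath (by linarith) b)
    (fun t a b => by
      have := xX_pos a.le b
      have := one_sub_sq_pos (by linarith : -1 < t) b
      simp only [bA]; field_simp)
    (fun _ _ a b c => bA_mono a b c) hr1 hr2 hs1 hs2

/-- Pointwise tool: both lower bounds. -/
theorem edge_tool {a b r : ℝ} (ha : a ∈ Ioo (-1:ℝ) 1) (hb : b ∈ Ioo (-1:ℝ) 1)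
    (hr1 : 0 < r) (hr2 : r < 1) :
    |a - b| / 2 * (kf r + bK r * (cE r / r)) ≤
      ((phiE a + phiE b) / 2 - phiE ((a + b) / 2)) + bK r * (log 2 - (phiE a + phiE b) / 2) ∧
    |a - b| / 2 * (ath r + bA r * (cE r / r)) ≤
      qE a b + bA r * (log 2 - (phiE a + phiE b) / 2) := by
  obtain ⟨⟨hd1, hd2⟩, hδ, hq⟩ := pair_decomp ha hb
  have hphi : 0 ≤ log 2 - (phiE a + phiE b) / 2 := by
    have := phiE_lt_log_two ha.1 ha.2
    have := phiE_lt_log_two hb.1 hb.2
    linarith
  have hmid : log 2 * (1 - ((a + b) / 2) ^ 2) ≤ cE ((a + b) / 2) :=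
    log_two_mul_le_cE (by linarith [ha.1, hb.1]) (by linarith [ha.2, hb.2])
  generalize hh : |a - b| / 2 = h at *
  generalize hmu : (a + b) / 2 = m at *
  have h0 : 0 ≤ h := by rw [← hh]; positivity
  have bK0 := (bK_mem hr1 hr2)
  have bA0 := bA_nonneg hr1 hr2
  rcases h0.eq_or_lt with hz | hpos
  · subst hz
    rw [zero_mul, zero_mul]
    rw [zero_mul] at hq
    refine ⟨?_, ?_⟩
    · rw [hδ]; simp only [zero_div, phiE_zero, mul_zero, add_zero, zero_add]
      exact mul_nonneg bK0.1 hphi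
    · rw [hq, zero_add]; exact mul_nonneg bA0 hphi
  have p1 : 0 < 1 + m := by linarith
  have p2 : 0 < 1 - m := by linarith
  set x := h / (1 + m) with hx
  set y := h / (1 - m) with hy
  have x1 : 0 < x := by positivity
  have x2 : x < 1 := (div_lt_one p1).2 hd1
  have y1 : 0 < y := by positivity
  have y2 : y < 1 := (div_lt_one p2).2 hd2
  set M := (x + y) / 2 with hM
  have M1 : 0 < M := by positivity
  have M2 : M < 1 := by rw [hM]; linarith
  have eM : log 2 * (1 - m ^ 2) = h * (log 2 / M) := by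
    have hMw : M * (1 - m ^ 2) = h := by rw [hM, hx, hy]; field_simp; ring
    rw [eq_comm, mul_div_assoc', div_eq_iff M1.ne', ← hMw]; ring
  have eK : (phiE a + phiE b) / 2 - phiE m = h * ((kf x + kf y) / 2) := by
    rw [hδ, kf, kf]
    have e1 : (1 + m) = h / x := by rw [hx]; field_simp
    have e2 : (1 - m) = h / y := by rw [hy]; field_simp
    rw [e1, e2]; ring
  have ez : ∀ s, 0 < s → cE s / s = log 2 / s - kf s := fun s _ => by
    simp only [cE, kf]; ring
  have hc : h * (log 2 / M) - h * ((kf x + kf y) / 2) ≤ log 2 - (phiE a + phiE b) / 2 := by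
    simp only [cE] at hmid; linarith
  refine ⟨?_, ?_⟩
  · rw [eK]
    have hK := kf_mid x1 x2 y1 y2
    have h1 := kf_add_bK_min hr1 hr2 M1 M2
    rw [ez M M1] at h1
    have h2 := mul_le_mul_of_nonneg_left h1 h0
    have h3 := mul_le_mul_of_nonneg_left hc bK0.1
    have h4 : (1 - bK r) * kf M ≤ (1 - bK r) * ((kf x + kf y) / 2) :=
      mul_le_mul_of_nonneg_left (by linarith) (by linarith [bK0.2])
    have h5 := mul_le_mul_of_nonneg_left h4 h0
    linarith
  · rw [hq]
    obtain ⟨ρ, ρm, hρ⟩ : ∃ ρ ∈ Icc (min x y) (max x y), ath ρ = (ath x + ath y) / 2 := by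
      have hsub : Icc (min x y) (max x y) ⊆ Ioo (-1 : ℝ) 1 := fun t ht =>
        ⟨by linarith [ht.1, lt_min x1 y1], ht.2.trans_lt (max_lt x2 y2)⟩
      have hivt := intermediate_value_uIcc (a := x) (b := y) (f := ath) (by
        exact continuousOn_ath.mono hsub)
      have : (ath x + ath y) / 2 ∈ uIcc (ath x) (ath y) := by
        rw [mem_uIcc]; rcases le_total (ath x) (ath y) with h | h
        · left; constructor <;> linarith
        · right; constructor <;> linarith
      exact hivt this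
    have r1 : 0 < ρ := (lt_min x1 y1).trans_le ρm.1
    have r2 : ρ < 1 := ρm.2.trans_lt (max_lt x2 y2)
    have hMρ : M ≤ ρ := by
      have := ath_mid x1 x2 y1 y2
      exact (strictMonoOn_ath.le_iff_le ⟨by linarith, M2⟩ ⟨by linarith, r2⟩).1 (by rw [hρ]; linarith)
    have hKρ : (kf x + kf y) / 2 ≤ kf ρ := by
      have key : ∀ t, 0 < t → t < 1 → kf t - kd ρ * (1 - ρ ^ 2) * ath t ≤
          kf ρ - kd ρ * (1 - ρ ^ 2) * ath ρ := by
        intro t t1 t2
        have hw : ∀ u, 0 < u → u < 1 → HasDerivAt (fun v => -(kf v - kd ρ * (1 - ρ ^ 2) * ath v))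
            (-(kd u - kd ρ * (1 - ρ ^ 2) * (1 / (1 - u ^ 2)))) u := fun u p q =>
          ((hasDerivAt_kf p q).sub ((hasDerivAt_ath (by linarith) q).const_mul _)).neg
        have := le_of_deriv_sign (F := fun v => -(kf v - kd ρ * (1 - ρ ^ 2) * ath v))
          (convex_Ioo 0 1) (fun u hu => (hw u hu.1 hu.2).continuousAt.continuousWithinAt)
          (fun u hu => by rw [interior_Ioo] at hu; exact hw u hu.1 hu.2)
          (c := ρ) (x := t) ⟨r1, r2⟩ ⟨t1, t2⟩ ?_
        · linarith
        intro u hu; rw [interior_Ioo] at hu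
        have w1 := one_sub_sq_pos (by linarith [hu.1] : -1 < u) hu.2
        have anti : ∀ s v, 0 < s → s ≤ v → v < 1 → kd v * (1 - v ^ 2) ≤ kd s * (1 - s ^ 2) := by
          intro s v p q w
          have := mono_of_deriv (P := fun t => -(kd t * (1 - t ^ 2)))
            (fun t a b => ((hasDerivAt_kd a b).mul ((hasDerivAt_pow 2 t).const_sub 1)).neg)
            (fun t a b => by
              have hw := one_sub_sq_pos (by linarith : -1 < t) b
              have hu := Real.log_le_sub_one_of_pos hw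
              simp only [kdd, kd]
              norm_num
              rw [show (t ^ 2 / (1 - t ^ 2) + log (1 - t ^ 2)) / t ^ 3 * (1 - t ^ 2) =
                (t ^ 2 + log (1 - t ^ 2) * (1 - t ^ 2)) / t ^ 3 by field_simp,
                show -log (1 - t ^ 2) / (2 * t ^ 2) * (2 * t) = -log (1 - t ^ 2) * t ^ 2 / t ^ 3 by
                  field_simp]
              rw [div_le_div_iff_of_pos_right (by positivity)]
              nlinarith) p q w
          simpa using this
        have eu : kd u - kd ρ * (1 - ρ ^ 2) * (1 / (1 - u ^ 2)) =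
            (kd u * (1 - u ^ 2) - kd ρ * (1 - ρ ^ 2)) / (1 - u ^ 2) := by field_simp
        rw [eu]
        exact ⟨fun h => neg_nonpos.2 (div_nonneg (sub_nonneg.2 (anti u ρ hu.1 h r2)) w1.le),
          fun h => neg_nonneg.2
            (div_nonpos_of_nonpos_of_nonneg (sub_nonpos.2 (anti ρ u r1 h hu.2)) w1.le)⟩
      have := key x x1 x2
      have := key y y1 y2
      rw [hρ] at *
      linarith
    have hL : 0 ≤ log 2 := Real.log_nonneg (by norm_num)
    have h1 := ath_add_bA_min hr1 hr2 r1 r2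
    rw [ez ρ r1, hρ] at h1
    have h2 := mul_le_mul_of_nonneg_left h1 h0
    have hz : log 2 / ρ - kf ρ ≤ log 2 / M - (kf x + kf y) / 2 := by
      have : log 2 / ρ ≤ log 2 / M := by gcongr
      linarith
    have h3 := mul_le_mul_of_nonneg_left (mul_le_mul_of_nonneg_left hz h0) bA0
    have h4 := mul_le_mul_of_nonneg_left hc bA0
    linarith

/-- Derivative bound for the excess along the level `s`. -/
theorem excess_deriv_le {h w M s : ℝ} (h0 : 0 < h) (w1 : 0 < w) (w2 : 0 < w - h ^ 2)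
    (hwle : w ≤ 1) (hMw : M * w = h) (hs1 : M < s) (s2 : s < 1) :
    (w * (Sh (M * (cE s / s)) * (M * (-(xX s) / s ^ 2))) -
      (w - h ^ 2) * (Sh (M * (cE s / s) * (w / (w - h ^ 2))) *
        (M * (-(xX s) / s ^ 2) * (w / (w - h ^ 2))))) / h ≤
      1 / (1 - s ^ 2) - (kd s / 2 + 1 / 20 + s ^ 2 / 10) := by
  have M1 : 0 < M := pos_of_mul_pos_left (hMw ▸ h0) w1.le
  have hhM : h ≤ M := hMw ▸ mul_le_of_le_one_right M1.le hwle
  have s1 : 0 < s := M1.trans hs1
  have ws := one_sub_sq_pos (by linarith : -1 < s) s2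
  have hA := ath_pos s1 s2
  have hX := xX_pos s1.le s2
  have hcs := cE_pos (by linarith : -1 < s) s2
  generalize hz1 : M * (cE s / s) = z1
  have z1pos : 0 < z1 := by rw [← hz1]; positivity
  generalize hz2 : z1 * (w / (w - h ^ 2)) = z2
  have hz12 : z1 ≤ z2 := by
    rw [← hz2]; exact le_mul_of_one_le_right z1pos.le ((one_le_div w2).2 (by nlinarith))
  have z2pos : 0 < z2 := z1pos.trans_le hz12
  have n1 : z1 * ge (cinv z1) ≤ cE s * gg s := by
    have hle : z1 ≤ cE s := by
      calc z1 = M / s * cE s := by rw [← hz1]; ring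
        _ ≤ 1 * cE s := by gcongr; exact (div_le_one s1).2 hs1.le
        _ = cE s := one_mul _
    have := mul_ge_mono z1pos hle
    rwa [cinv_cE ⟨s1.le, s2.le⟩, ge_of_ne s1.ne'] at this
  have n2 := mul_ge_mono z1pos hz12
  have g2pos : 1 ≤ ge (cinv z2) := one_le_ge (cinv_spec z2).1.1 (cinv_lt_one z2pos)
  simp only [Sh]
  generalize ge (cinv z1) = g1 at n1 n2 ⊢
  generalize ge (cinv z2) = g2 at n2 g2pos ⊢
  have n1' : g1 ≤ gg s * (s / M) := by
    have : g1 * (cE s * (M / s)) ≤ gg s * (s / M) * (cE s * (M / s)) := by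
      calc g1 * (cE s * (M / s)) = z1 * g1 := by rw [← hz1]; ring
        _ ≤ cE s * gg s := n1
        _ = gg s * (s / M) * (cE s * (M / s)) := by field_simp
    exact le_of_mul_le_mul_right this (by positivity)
  have n2' : g1 * (w - h ^ 2) ≤ g2 * w := by
    have n3 : z1 * g1 ≤ z1 * (w / (w - h ^ 2) * g2) := by rw [← mul_assoc, hz2]; exact n2
    have := le_of_mul_le_mul_left n3 z1pos
    calc g1 * (w - h ^ 2) ≤ w / (w - h ^ 2) * g2 * (w - h ^ 2) := by gcongr
      _ = g2 * w := by field_simp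
  have e : (w * (-(g1 - 1) * (M * (-(xX s) / s ^ 2))) -
      (w - h ^ 2) * (-(g2 - 1) * (M * (-(xX s) / s ^ 2) * (w / (w - h ^ 2))))) / h =
      (g1 - g2) * (xX s / s ^ 2) := by
    rw [show (w - h ^ 2) * (-(g2 - 1) * (M * (-(xX s) / s ^ 2) * (w / (w - h ^ 2)))) =
      -(g2 - 1) * (M * (-(xX s) / s ^ 2)) * ((w - h ^ 2) * (w / (w - h ^ 2))) by ring,
      mul_div_cancel₀ _ w2.ne', div_eq_iff h0.ne', ← hMw]
    ring
  rw [e]
  have key : (g1 - g2) * (xX s / s ^ 2) ≤ slopeB s / (1 - s ^ 2) := by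
    rcases slope_bound s1 s2 M1 with hb | hb
    · have d1 : g1 - g2 ≤ gg s * s * M := by
        have e2 : g1 * h ^ 2 ≤ gg s * (s / M) * h ^ 2 := by gcongr
        have e3 : gg s * (s / M) * h ^ 2 = gg s * s * h * w := by
          rw [← hMw]; field_simp
        have e4 : gg s * s * h * w ≤ gg s * s * M * w := by
          have : 0 ≤ gg s * s := by
            have := one_le_gg s1 s2; positivity
          gcongr
        exact le_of_mul_le_mul_right (by linarith) w1
      calc (g1 - g2) * (xX s / s ^ 2) ≤ gg s * s * M * (xX s / s ^ 2) := by gcongr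
        _ = M * xX s / ath s / (1 - s ^ 2) := by simp only [gg]; field_simp
        _ ≤ slopeB s / (1 - s ^ 2) := by gcongr
    · have d1 : g1 - g2 ≤ gg s * (s / M) - 1 := by linarith
      calc (g1 - g2) * (xX s / s ^ 2) ≤ (gg s * (s / M) - 1) * (xX s / s ^ 2) := by gcongr
        _ = (xX s / (M * ath s) - (1 - s ^ 2) * xX s / s ^ 2) / (1 - s ^ 2) := by
          simp only [gg]; field_simp
        _ ≤ slopeB s / (1 - s ^ 2) := by gcongr
  have : slopeB s / (1 - s ^ 2) = 1 / (1 - s ^ 2) - (kd s / 2 + 1 / 20 + s ^ 2 / 10) := by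
    simp only [slopeB]; field_simp
  linarith

/-- The excess increment at level `r > M`. -/
theorem excess_le {h w M r D : ℝ} (h0 : 0 < h) (w1 : 0 < w) (w2 : 0 < w - h ^ 2)
    (hwle : w ≤ 1) (hMw : M * w = h) (hMr : M < r) (hr2 : r < 1) (hD : D = h * (cE r / r)) :
    w * Rh (D / w) - (w - h ^ 2) * Rh (D / (w - h ^ 2)) ≤
      h * (ff M + ath r - ath M - (gG r - gG M)) := by
  have M1 : 0 < M := pos_of_mul_pos_left (hMw ▸ h0) w1.le
  have M2 : M < 1 := hMr.trans hr2
  have hFe : w * Fe M = h * ff M := by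
    rw [← hMw]; simp only [Fe, ff, kf]; field_simp
  have eD : D / w = M * (cE r / r) := by rw [hD, ← hMw]; field_simp
  have hzpos : ∀ s, 0 < s → s < 1 → 0 < M * (cE s / s) := fun s a b => by
    have := cE_pos (by linarith : -1 < s) b; positivity
  set Ψ : ℝ → ℝ := fun s => (w * Rh (M * (cE s / s)) -
      (w - h ^ 2) * Rh (M * (cE s / s) * (w / (w - h ^ 2)))) / h - ath s + gG s with hΨ
  set Ψ' : ℝ → ℝ := fun s => (w * (Sh (M * (cE s / s)) * (M * (-(xX s) / s ^ 2))) -
        (w - h ^ 2) * (Sh (M * (cE s / s) * (w / (w - h ^ 2))) *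
          (M * (-(xX s) / s ^ 2) * (w / (w - h ^ 2))))) / h - 1 / (1 - s ^ 2) +
        (kd s / 2 + 1 / 20 + s ^ 2 / 10) with hΨ'
  have hder : ∀ s, 0 < s → s < 1 → HasDerivAt Ψ (Ψ' s) s := by
    intro s a b
    have hz := (hasDerivAt_zf a b).const_mul M
    have hp := hzpos s a b
    have hp2 : 0 < M * (cE s / s) * (w / (w - h ^ 2)) := by positivity
    exact (((((hasDerivAt_Rh hp).comp s hz).const_mul w).sub
      (((hasDerivAt_Rh hp2).comp s (hz.mul_const (w / (w - h ^ 2)))).const_mul (w - h ^ 2))).div_const h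
      |>.sub (hasDerivAt_ath (by linarith) b)).add (hasDerivAt_gG a b)
  have hanti : AntitoneOn Ψ (Icc M r) := by
    refine antitoneOn_of_hasDerivWithinAt_nonpos (f' := Ψ') (convex_Icc M r)
      (fun s hs => (hder s (M1.trans_le hs.1) (hs.2.trans_lt hr2)).continuousAt.continuousWithinAt)
      (fun s hs => by
        rw [interior_Icc] at hs
        exact (hder s (M1.trans hs.1) (hs.2.trans hr2)).hasDerivWithinAt) ?_
    intro s hs
    rw [interior_Icc] at hs
    have := excess_deriv_le h0 w1 w2 hwle hMw hs.1 (hs.2.trans hr2)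
    simp only [hΨ']
    linarith
  have hPsi := hanti ⟨le_refl M, hMr.le⟩ ⟨hMr.le, le_refl r⟩ hMr.le
  simp only [hΨ] at hPsi
  rw [← eD, show D / w * (w / (w - h ^ 2)) = D / (w - h ^ 2) by field_simp] at hPsi
  rw [show M * (cE M / M) = cE M by field_simp, Rh_cE ⟨M1.le, M2⟩] at hPsi
  have hR2M : 0 ≤ (w - h ^ 2) * Rh (cE M * (w / (w - h ^ 2))) :=
    mul_nonneg w2.le (Rh_nonneg (by have := cE_pos (by linarith : -1 < M) M2; positivity))
  generalize w * Rh (D / w) - (w - h ^ 2) * Rh (D / (w - h ^ 2)) = P at hPsi ⊢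
  have h2 : (w * Fe M - (w - h ^ 2) * Rh (cE M * (w / (w - h ^ 2)))) / h ≤ ff M := by
    rw [div_le_iff₀ h0]; linarith
  have h1 : P / h ≤ ff M + ath r - ath M - (gG r - gG M) := by linarith
  rw [div_le_iff₀ h0] at h1
  linarith

/-- The piecewise bound on the excess is below the pair tools. -/
theorem bound_le_tool {x y r : ℝ} (x1 : 0 < x) (x2 : x < 1) (y1 : 0 < y) (y2 : y < 1)
    (hMr : (x + y) / 2 < r) (hr2 : r < 1) :
    ff ((x + y) / 2) + ath r - ath ((x + y) / 2) - (gG r - gG ((x + y) / 2)) ≤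
      max (ath r) ((ff x + ff y) / 2 + 2 * kf r) - 2 * ((kf x + kf y) / 2) := by
  set M := (x + y) / 2 with hM
  have M1 : 0 < M := by positivity
  have M2 : M < 1 := hMr.trans hr2
  have hr1 : 0 < r := M1.trans hMr
  obtain ⟨q, qm, hq⟩ : ∃ q ∈ Icc (min x y) (max x y), kd q = (kd x + kd y) / 2 := by
    have hsub : Icc (min x y) (max x y) ⊆ Ioo (0 : ℝ) 1 := fun t ht =>
      ⟨(lt_min x1 y1).trans_le ht.1, ht.2.trans_lt (max_lt x2 y2)⟩
    have hivt := intermediate_value_uIcc (a := x) (b := y) (f := kd) (continuousOn_kd.mono hsub)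
    have : (kd x + kd y) / 2 ∈ uIcc (kd x) (kd y) := by
      rw [mem_uIcc]; rcases le_total (kd x) (kd y) with h | h
      · left; constructor <;> linarith
      · right; constructor <;> linarith
    exact hivt this
  have q1 : 0 < q := (lt_min x1 y1).trans_le qm.1
  have q2 : q < 1 := qm.2.trans_lt (max_lt x2 y2)
  have hMq : M ≤ q := by
    by_contra hc
    rw [not_le] at hc
    have := kd_lt q1 hc M2
    have := kd_mid x1 x2 y1 y2
    rw [← hM] at this
    linarith
  have hend := endpoint_bound x1 x2 y1 y2 q1 q2 hq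
  rw [← hM] at hend
  rcases le_or_gt q r with hqr | hqr
  · have hG := gG_mono q1 hqr hr2
    have := le_max_left (ath r) ((ff x + ff y) / 2 + 2 * kf r)
    simp only [ff] at *
    linarith
  · have hfq : ff q ≤ (ff x + ff y) / 2 := by
      have key : ∀ t, 0 < t → t < 1 → ff q - q * kd q ≤ ff t - q * kd t := fun t t1 t2 =>
        le_of_deriv_sign (F := fun u => ff u - q * kd u) (F' := fun u => u * kdd u - q * kdd u)
          (convex_Ioo 0 1)
          (fun u hu => ((hasDerivAt_ff hu.1 hu.2).sub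
            ((hasDerivAt_kd hu.1 hu.2).const_mul q)).continuousAt.continuousWithinAt)
          (fun u hu => by
            rw [interior_Ioo] at hu
            exact (hasDerivAt_ff hu.1 hu.2).sub ((hasDerivAt_kd hu.1 hu.2).const_mul q))
          ⟨q1, q2⟩ ⟨t1, t2⟩
          (fun u hu => by
            rw [interior_Ioo] at hu
            have := kdd_nonneg hu.1 hu.2
            exact ⟨fun h => by nlinarith, fun h => by nlinarith⟩)
      have := key x x1 x2
      have := key y y1 y2
      rw [hq] at *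
      linarith
    set H : ℝ → ℝ := fun s => ath s - gG s - 2 * kf s with hH
    set H' : ℝ → ℝ := fun s => s * kdd s - (kd s / 2 + 1 / 20 + s ^ 2 / 10) with hH'
    have hHd : ∀ t, 0 < t → t < 1 → HasDerivAt H (H' t) t := fun t a b => by
      refine (((hasDerivAt_ff a b).sub (hasDerivAt_gG a b)).congr_of_eventuallyEq ?_)
      exact Filter.Eventually.of_forall fun u => by simp only [hH, ff, Pi.sub_apply]; ring
    have hHm : ∀ s t, 0 < s → s ≤ t → t < 1 → H' s ≤ H' t :=
      fun s t a b c => ff_gG_deriv_mono a b c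
    have a1 := tangent_le hHd hHm hr1 hr2 M1 M2
    have a2 := tangent_le hHd hHm hr1 hr2 q1 q2
    have hmax : H r ≤ max (H M) (H q) := by
      rcases le_total (H' r) 0 with hs | hs
      · exact le_max_of_le_left (by nlinarith)
      · exact le_max_of_le_right (by nlinarith)
    have hMb := ath_sub_four_kf_mid x1 x2 y1 y2
    rw [← hM] at hMb
    have := le_max_right (ath r) ((ff x + ff y) / 2 + 2 * kf r)
    rcases max_choice (H M) (H q) with hh | hh <;> rw [hh] at hmax <;>
      simp only [hH, ff] at * <;> linarith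

/-- The scalar heart of the one-step inequality. -/
theorem step_core {h m D r Q : ℝ} (h0 : 0 < h) (hd1 : h < 1 + m) (hd2 : h < 1 - m)
    (hr1 : 0 < r) (hr2 : r < 1) (hD : D = h * (cE r / r))
    (hQ1 : h * ((ff (h / (1 + m)) + ff (h / (1 - m))) / 2) +
      2 * (h * ((kf (h / (1 + m)) + kf (h / (1 - m))) / 2)) ≤ Q)
    (hQ2 : h * ((ff (h / (1 + m)) + ff (h / (1 - m))) / 2) + 2 * (h * kf r) ≤ Q)
    (hQ3 : h * ath r ≤ Q) :
    (1 - m ^ 2) * Rh (D / (1 - m ^ 2)) - (1 - m ^ 2 - h ^ 2) * Rh (D / (1 - m ^ 2 - h ^ 2)) ≤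
      Q - 2 * (h * ((kf (h / (1 + m)) + kf (h / (1 - m))) / 2)) := by
  have p1 : 0 < 1 + m := by linarith
  have p2 : 0 < 1 - m := by linarith
  set x := h / (1 + m) with hx
  set y := h / (1 - m) with hy
  have x1 : 0 < x := by positivity
  have x2 : x < 1 := (div_lt_one p1).2 hd1
  have y1 : 0 < y := by positivity
  have y2 : y < 1 := (div_lt_one p2).2 hd2
  set M := (x + y) / 2 with hM
  have M1 : 0 < M := by positivity
  have M2 : M < 1 := by rw [hM]; linarith
  set w := 1 - m ^ 2 with hw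
  have w1 : 0 < w := by rw [hw, show 1 - m ^ 2 = (1 + m) * (1 - m) by ring]; positivity
  have hwle : w ≤ 1 := by rw [hw]; nlinarith
  have hMw : M * w = h := by rw [hM, hx, hy, hw]; field_simp; ring
  have w2 : 0 < w - h ^ 2 := by
    rw [hw, show 1 - m ^ 2 - h ^ 2 = (1 + m) * (1 - m) - h * h by ring]
    nlinarith
  have hDpos : 0 < D := by
    rw [hD]; have := cE_pos (by linarith : -1 < r) hr2; positivity
  rcases le_or_gt r M with hrM | hrM
  · have hff : ff M ≤ (ff x + ff y) / 2 := by linarith [ff_mid x1 x2 y1 y2]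
    have hFe : w * Fe M = h * ff M := by
      rw [← hMw]; simp only [Fe, ff, kf]; field_simp
    have hR2 : 0 ≤ (w - h ^ 2) * Rh (D / (w - h ^ 2)) :=
      mul_nonneg w2.le (Rh_nonneg (by positivity))
    have hz : cE M ≤ D / w := by
      rw [hD, ← hMw]
      have hc := strictAntiOn_cE.antitoneOn ⟨hr1.le, hr2.le⟩ ⟨M1.le, M2.le⟩ hrM
      have := cE_pos (by linarith : -1 < r) hr2
      calc cE M ≤ 1 * cE r := by linarith
        _ ≤ M / r * cE r := by gcongr; exact (one_le_div hr1).2 hrM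
        _ = M * w * (cE r / r) / w := by field_simp
    have h1 := Rh_antitone (cE_pos (by linarith) M2) hz
    rw [Rh_cE ⟨M1.le, M2⟩] at h1
    have h2 := mul_le_mul_of_nonneg_left h1 w1.le
    rw [hFe] at h2
    have := mul_le_mul_of_nonneg_left hff h0.le
    linarith
  · refine (excess_le h0 w1 w2 hwle hMw hrM hr2 hD).trans ?_
    have h3 := mul_le_mul_of_nonneg_left (bound_le_tool x1 x2 y1 y2 hrM hr2) h0.le
    rw [← hM, mul_sub h (max _ _)] at h3
    have h4 : h * max (ath r) ((ff x + ff y) / 2 + 2 * kf r) ≤ Q := by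
      rcases max_choice (ath r) ((ff x + ff y) / 2 + 2 * kf r) with e | e <;> rw [e] <;> linarith
    linarith

variable {Ω : Type*} [Fintype Ω] [Nonempty Ω] {a b : Ω → ℝ}

theorem persp_phiE_eq {h m : ℝ} :
    persp phiE h m = h * ((kf (h / (1 + m)) + kf (h / (1 - m))) / 2) ∨ h = 0 ∨ 1 + m = 0 ∨
      1 - m = 0 := by
  by_cases h0 : h = 0
  · right; left; exact h0
  by_cases h1 : 1 + m = 0
  · right; right; left; exact h1
  by_cases h2 : 1 - m = 0
  · right; right; right; exact h2
  left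
  simp only [persp, kf]
  field_simp

/-- One-step inequality of the first hypothesis. -/
theorem stepA (ha : ∀ x, a x ∈ Ioo (-1:ℝ) 1) (hb : ∀ x, b x ∈ Ioo (-1:ℝ) 1) :
    (1 - ((avg a + avg b) / 2) ^ 2) *
        Rh ((log 2 - avg (fun x => (phiE (a x) + phiE (b x)) / 2)) /
          (1 - ((avg a + avg b) / 2) ^ 2)) -
      (1 - (avg a ^ 2 + avg b ^ 2) / 2) *
        Rh ((log 2 - avg (fun x => (phiE (a x) + phiE (b x)) / 2)) /
          (1 - (avg a ^ 2 + avg b ^ 2) / 2)) ≤
      avg (fun x => qE (a x) (b x)) -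
        2 * ((phiE (avg a) + phiE (avg b)) / 2 - phiE ((avg a + avg b) / 2)) := by
  have hA := avg_mem_Ioo ha
  have hB := avg_mem_Ioo hb
  set D := log 2 - avg (fun x => (phiE (a x) + phiE (b x)) / 2) with hDdef
  have hDpos : 0 < D := by
    have h := avg_lt (f := fun x => (phiE (a x) + phiE (b x)) / 2) (g := fun _ => log 2) fun x => by
      have := phiE_lt_log_two (ha x).1 (ha x).2
      have := phiE_lt_log_two (hb x).1 (hb x).2
      linarith
    rw [avg_const] at h
    linarith
  by_cases hab : avg a = avg b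
  · have h1 : (1 - ((avg a + avg b) / 2) ^ 2) = 1 - (avg a ^ 2 + avg b ^ 2) / 2 := by
      rw [hab]; ring
    rw [h1, sub_self, hab, add_self_div_two, add_self_div_two, sub_self, mul_zero, sub_zero]
    have := avg_le (f := fun _ => (0:ℝ)) (g := fun x => qE (a x) (b x))
      fun x => qE_nonneg (ha x) (hb x)
    rwa [avg_const] at this
  set h := |avg a - avg b| / 2 with hh'
  set m := (avg a + avg b) / 2 with hm
  have h0 : 0 < h := by
    rw [hh']; have : 0 < |avg a - avg b| := abs_pos.2 (sub_ne_zero.2 hab)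
    positivity
  obtain ⟨⟨hd1, hd2⟩, hδ, -⟩ := pair_decomp hA hB
  rw [← hh', ← hm] at hd1 hd2 hδ
  have hw' : 1 - (avg a ^ 2 + avg b ^ 2) / 2 = 1 - m ^ 2 - h ^ 2 := by
    rw [hm, hh', div_pow |avg a - avg b|, sq_abs]; ring
  have hδK : (phiE (avg a) + phiE (avg b)) / 2 - phiE m =
      h * ((kf (h / (1 + m)) + kf (h / (1 - m))) / 2) := by
    rw [hδ]
    rcases persp_phiE_eq (h := h) (m := m) with e | e | e | e
    · exact e
    all_goals linarith
  -- the level `r`
  obtain ⟨r, hr, hrD⟩ : ∃ r ∈ Ioo (0:ℝ) 1, D = h * (cE r / r) := by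
    have hDle : D ≤ log 2 := by
      have := avg_le (f := fun _ => (0:ℝ)) (g := fun x => (phiE (a x) + phiE (b x)) / 2) fun x => by
        have := phiE_nonneg (ha x).1.le (ha x).2.le
        have := phiE_nonneg (hb x).1.le (hb x).2.le
        positivity
      rw [avg_const] at this
      linarith
    set G : ℝ → ℝ := fun r => h * cE r - D * r with hG
    have hc : ContinuousOn G (Icc 0 1) :=
      ((continuous_const.mul continuous_cE).sub (continuous_const.mul continuous_id)).continuousOn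
    obtain ⟨r, hr, hr0⟩ := intermediate_value_Icc' (zero_le_one (α := ℝ)) hc
      (show (0:ℝ) ∈ Icc (G 1) (G 0) from ⟨by simp [hG, cE_one]; linarith, by
        simp [hG]; exact mul_nonneg h0.le (Real.log_nonneg (by norm_num))⟩)
    simp only [hG] at hr0
    have r0 : 0 < r := hr.1.lt_of_ne fun e => by
      rw [← e, cE_zero] at hr0
      nlinarith [Real.log_two_gt_d9]
    have r1 : r < 1 := hr.2.lt_of_ne fun e => by
      rw [e, cE_one] at hr0; linarith
    refine ⟨r, ⟨r0, r1⟩, ?_⟩
    field_simp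
    linarith
  -- the tools
  have hav : h ≤ avg (fun x => |a x - b x| / 2) := by
    have := avg_abs_ge (fun x => a x - b x)
    rw [avg_sub] at this
    rw [avg_div, hh']; linarith
  have tK := avg_le fun x => (edge_tool (ha x) (hb x) hr.1 hr.2).1
  have tA := avg_le fun x => (edge_tool (ha x) (hb x) hr.1 hr.2).2
  simp only [avg_mul_const] at tK tA
  rw [avg_add, avg_smul] at tK tA
  have eLD : avg (fun x => log 2 - (phiE (a x) + phiE (b x)) / 2) = D := by
    rw [avg_sub, avg_const]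
  rw [eLD] at tK tA
  have hkz : 0 ≤ kf r + bK r * (cE r / r) := by
    have := cE_pos (by linarith [hr.1] : -1 < r) hr.2
    have := (bK_mem hr.1 hr.2).1
    have : 0 ≤ kf r := div_nonneg (phiE_nonneg (by linarith [hr.1]) hr.2.le) hr.1.le
    exact add_nonneg this (mul_nonneg (bK_mem hr.1 hr.2).1 (div_nonneg (by linarith) hr.1.le))
  have haz : 0 ≤ ath r + bA r * (cE r / r) := by
    have := cE_pos (by linarith [hr.1] : -1 < r) hr.2
    have := bA_nonneg hr.1 hr.2
    exact add_nonneg (ath_nonneg hr.1.le hr.2)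
      (mul_nonneg (bA_nonneg hr.1 hr.2) (div_nonneg (by linarith) hr.1.le))
  have hKr := (mul_le_mul_of_nonneg_right hav hkz).trans tK
  have hAr := (mul_le_mul_of_nonneg_right hav haz).trans tA
  have hP := avg_persp_ge ha hb (P := phiE) fun c h1 h2 => tangent_phiE h1 h2
  have hF := avg_persp_ge ha hb (P := Fe) fun c h1 h2 => tangent_Fe h1 h2
  rw [← hh', ← hm] at hP hF
  have eP : (fun x => (phiE (a x) + phiE (b x)) / 2 - phiE ((a x + b x) / 2)) =
      fun x => persp phiE (hh a b x) (md a b x) := funext fun x => pair_delta ha hb x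
  have eF : avg (fun x => persp Fe (hh a b x) (md a b x)) =
      avg (fun x => qE (a x) (b x)) - 2 * avg (fun x => persp phiE (hh a b x) (md a b x)) := by
    rw [← avg_smul, ← avg_sub]
    exact congrArg avg (funext fun x => (pair_chi ha hb x).symm)
  rw [eP] at hKr
  rw [eF] at hF
  have hFf : persp Fe h m = h * ((ff (h / (1 + m)) + ff (h / (1 - m))) / 2) := by
    have : (1 + m) ≠ 0 := by linarith
    have : (1 - m) ≠ 0 := by linarith
    simp only [persp, Fe, ff, kf]
    field_simp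
  rw [hFf] at hF
  rw [hδ] at hδK
  simp only [persp] at hP hKr hF
  rw [hδK] at hP
  have e1 : bK r * (h * (cE r / r)) = bK r * D := by rw [hrD]
  have e2 : bA r * (h * (cE r / r)) = bA r * D := by rw [hrD]
  rw [hw', hδ, hδK]
  exact step_core h0 hd1 hd2 hr.1 hr.2 hrD (by linarith) (by linarith) (by linarith)

end Vale.P322
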